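import Vale.Agent.P203.Dg.Act

/-! P203, block ALG-E: the unfolding graph inside the framed unfolding graph. -/

set_option linter.all false

namespace Vale.Agent.P203.Dg

open Vale.Agent.P203.Mod Vale.Agent.P203.Unf

variable {S : Type} (M : CoxeterMatrix S) [Fintype (FVtx M)] [DecidableEq (FVtx M)]
  [DecidableEq (S ⊕ S)]

/-- The unfolding graph as the `inl` part of `unfF M`. -/
def unfEmb : UnfEmb M (unfF M) Sum.inl where
  ι := Sum.inl
  inj := Sum.inl_injective
  fib y s := by
    rcases y with ⟨t, i⟩ | ⟨t, i⟩
    · simp only [unfF_π_inl]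
      constructor
      · intro h
        have : t = s := Sum.inl.inj h
        subst this
        exact ⟨i, rfl⟩
      · rintro ⟨j, hj⟩
        have h1 : (t, i) = (s, j) := Sum.inl.inj hj
        have h2 : t = s := congrArg Prod.fst h1
        rw [h2]
    · simp only [unfF_π_inr]
      constructor
      · intro h; exact absurd h (by simp)
      · rintro ⟨j, hj⟩; exact absurd hj (by simp)
  zero x y h l := unfF_card_zero x y h l
  one x y h := ⟨0, fun l => by
    rw [unfF_adj, Fin.ext_iff]
    simp [nadjF, h]⟩

end Vale.Agent.P203.Dg
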