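import Vale.Agent.P203.Dg.Twist

/-!
# Cohomology of the twisted objects

* `twist_isom`: if `H^{n+1}` vanishes on the fibre of `s`, then `H^n(σ_s⁻¹ V) ≅ C_s (H^n V)`;
* away from the twisted vertices the cohomology does not change.
-/

set_option linter.all false

namespace Vale.Agent.P203.Dg

open Vale.Agent.P203.Mod

variable {S X Λ : Type} [Fintype X] [DecidableEq X] [Fintype Λ] [DecidableEq Λ] [DecidableEq S]
variable {k : Type} [Field k] {Γ : FGraph S X Λ}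

namespace DG

section Hmap

variable {V W U : DG k Γ} {x y z : X}

/-- Linear maps of degree 0 commuting with the differentials. -/
structure IsCh (V W : DG k Γ) (x y : X) (φ : V.V x →ₗ[k] W.V y) : Prop where
  d : ∀ v, W.d y (φ v) = φ (V.d x v)
  gr : ∀ m v, v ∈ V.gr x m → φ v ∈ W.gr y m

theorem IsCh.mapZ {φ : V.V x →ₗ[k] W.V y} (h : IsCh V W x y φ) {n : ℤ} {v : V.V x}
    (hv : v ∈ V.Z n x) : φ v ∈ W.Z n y := by
  obtain ⟨h1, h2⟩ := mem_Z.1 hv
  exact mem_Z.2 ⟨h.gr n v h1, by rw [h.d, h2, map_zero]⟩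

theorem IsCh.mapB {φ : V.V x →ₗ[k] W.V y} (h : IsCh V W x y φ) {n : ℤ} {v : V.V x}
    (hv : v ∈ V.B n x) : φ v ∈ W.B n y := by
  obtain ⟨u, hu, rfl⟩ := mem_B.1 hv
  exact mem_B.2 ⟨φ u, h.gr _ _ hu, h.d u⟩

/-- The map induced on cohomology. -/
def Hmap (n : ℤ) (φ : V.V x →ₗ[k] W.V y) (h : IsCh V W x y φ) :
    (H n V).V x →ₗ[k] (H n W).V y :=
  Submodule.mapQ _ _ (φ.restrict (p := V.Z n x) (q := W.Z n y) fun v hv => h.mapZ hv)
    (by
      rintro ⟨v, hv⟩ hv'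
      exact h.mapB hv')

theorem Hmap_Hc (n : ℤ) {φ : V.V x →ₗ[k] W.V y} (h : IsCh V W x y φ) (v : V.Z n x) :
    Hmap n φ h (V.Hc n x v) = W.Hc n y ⟨φ v, h.mapZ v.2⟩ := rfl

end Hmap

variable {P : X → Prop} [DecidablePred P]

section twist

variable [CharP k 2] (hP : Indep Γ P) (V : DG k Γ)

/-- The natural map `σ_P⁻¹ V → V` at `x`. -/
def tvalT (x : X) : (V.twist P hP).V x →ₗ[k] V.V x := V.tval P x

/-- The map `V_x → (σ_P⁻¹ V)_y` along an edge. -/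
def tincT (x y : X) (l : Λ) : V.V x →ₗ[k] (V.twist P hP).V y := V.tinc P x y l

/-- The inclusion `v ↦ (0, 0, v)`. -/
def inT (x : X) : V.V x →ₗ[k] (V.twist P hP).V x :=
  (LinearMap.inr k _ _).comp (LinearMap.inr k (V.N x) (V.V x))

/-- An element of the twisted object. -/
def mkT (x : X) (g : V.V x) (ν : V.N x) (v : V.V x) : (V.twist P hP).V x :=
  ((g, ν, v) : V.TV x)

variable {hP V}

theorem exists_mkT {x : X} (z : (V.twist P hP).V x) : ∃ g ν v, z = mkT hP V x g ν v :=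
  ⟨z.1, z.2.1, z.2.2, rfl⟩

theorem twist_a (x y : X) (l : Λ) (z : (V.twist P hP).V x) :
    (V.twist P hP).a x y l z = tincT hP V x y l (tvalT hP V x z) := rfl

theorem twist_d (x : X) (g : V.V x) (ν : V.N x) (v : V.V x) :
    (V.twist P hP).d x (mkT hP V x g ν v) =
      mkT hP V x (V.d x g) (V.j x g + V.dN x ν) (V.d x v) := td_apply g ν v

theorem mkT_inj {x : X} {g g' : V.V x} {ν ν' : V.N x} {v v' : V.V x} :
    mkT hP V x g ν v = mkT hP V x g' ν' v' ↔ g = g' ∧ ν = ν' ∧ v = v' := by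
  constructor
  · intro h
    have h' : ((g, ν, v) : V.TV x) = (g', ν', v') := h
    rw [Prod.mk.injEq, Prod.mk.injEq] at h'
    exact h'
  · rintro ⟨rfl, rfl, rfl⟩
    rfl

theorem mkT_eq_zero {x : X} {g : V.V x} {ν : V.N x} {v : V.V x} :
    mkT hP V x g ν v = 0 ↔ g = 0 ∧ ν = 0 ∧ v = 0 :=
  mkT_inj (g' := 0) (ν' := 0) (v' := 0)

theorem mkT_zero (x : X) : mkT hP V x 0 0 0 = 0 := rfl

theorem mkT_add (x : X) (g g' : V.V x) (ν ν' : V.N x) (v v' : V.V x) :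
    mkT hP V x g ν v + mkT hP V x g' ν' v' = mkT hP V x (g + g') (ν + ν') (v + v') := rfl

theorem mkT_sub (x : X) (g g' : V.V x) (ν ν' : V.N x) (v v' : V.V x) :
    mkT hP V x g ν v - mkT hP V x g' ν' v' = mkT hP V x (g - g') (ν - ν') (v - v') := rfl

theorem mem_twist_gr_of {x : X} (h : P x) {n : ℤ} {g : V.V x} {ν : V.N x} {v : V.V x} :
    mkT hP V x g ν v ∈ (V.twist P hP).gr x n ↔
      g ∈ V.gr x (n + 1) ∧ ν ∈ V.grN x n ∧ v = 0 := mem_tgr_of h

theorem mem_twist_gr_not {x : X} (h : ¬ P x) {n : ℤ} {g : V.V x} {ν : V.N x} {v : V.V x} :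
    mkT hP V x g ν v ∈ (V.twist P hP).gr x n ↔ g = 0 ∧ ν = 0 ∧ v ∈ V.gr x n := mem_tgr_not h

theorem tvalT_of {x : X} (h : P x) (g : V.V x) (ν : V.N x) (v : V.V x) :
    tvalT hP V x (mkT hP V x g ν v) = V.h x g + V.i x ν := tval_of h g ν v

theorem tvalT_not {x : X} (h : ¬ P x) (g : V.V x) (ν : V.N x) (v : V.V x) :
    tvalT hP V x (mkT hP V x g ν v) = v := tval_not h g ν v

theorem tincT_of {x y : X} {l : Λ} (h : P y) (v : V.V x) :
    tincT hP V x y l v = mkT hP V y 0 (V.sg x y l v) 0 := tinc_of h v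

theorem tincT_not {x y : X} {l : Λ} (h : ¬ P y) (v : V.V x) :
    tincT hP V x y l v = mkT hP V y 0 0 (V.a x y l v) := tinc_not h v

theorem inT_apply (x : X) (v : V.V x) : inT hP V x v = mkT hP V x 0 0 v := rfl

theorem tvalT_tincT {x y : X} {l : Λ} (h : Γ.adj x y l = true) (v : V.V x) :
    tvalT hP V y (tincT hP V x y l v) = V.a x y l v := tval_tinc h v

theorem sum_tincT {x : X} (hx : P x) (ν : V.N x) :
    ∑ p : Γ.Nb x, tincT hP V p.1.1 x p.1.2 (ν p) = mkT hP V x 0 ν 0 := sum_tinc hx ν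

variable (hP V)

theorem isCh_tvalT (x : X) : IsCh (V.twist P hP) V x x (tvalT hP V x) where
  d z := (tval_td x z).symm
  gr m z hz := by
    obtain ⟨g, ν, v, rfl⟩ := exists_mkT z
    by_cases hx : P x
    · obtain ⟨h1, h2, rfl⟩ := (mem_twist_gr_of hx).1 hz
      rw [tvalT_of hx]
      refine Submodule.add_mem _ ?_ (gr_i h2)
      have := V.gr_h h1
      rwa [add_sub_cancel_right] at this
    · obtain ⟨rfl, rfl, h3⟩ := (mem_twist_gr_not hx).1 hz
      rwa [tvalT_not hx]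

theorem isCh_tincT {x y : X} {l : Λ} (h : Γ.adj x y l = true) :
    IsCh V (V.twist P hP) x y (tincT hP V x y l) where
  d v := td_tinc h v
  gr m v hv := by
    by_cases hy : P y
    · rw [tincT_of hy]
      exact (mem_twist_gr_of hy).2 ⟨Submodule.zero_mem _, gr_sg hv, rfl⟩
    · rw [tincT_not hy]
      exact (mem_twist_gr_not hy).2 ⟨rfl, rfl, V.gr_a h hv⟩

theorem isCh_inT {x : X} (hx : ¬ P x) : IsCh V (V.twist P hP) x x (inT hP V x) where
  d v := by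
    rw [inT_apply, inT_apply, twist_d]
    simp
  gr m v hv := by
    rw [inT_apply]
    exact (mem_twist_gr_not hx).2 ⟨rfl, rfl, hv⟩

/-- The natural map on cohomology `H^n(σ_P⁻¹ V) → H^n V`. -/
def Htval (n : ℤ) (x : X) : (H n (V.twist P hP)).V x →ₗ[k] (H n V).V x :=
  Hmap n (tvalT hP V x) (isCh_tvalT hP V x)

/-- The inclusion on cohomology at `x ∉ P`. -/
def Hin (n : ℤ) (x : X) : (H n V).V x →ₗ[k] (H n (V.twist P hP)).V x :=
  if h : P x then 0 else Hmap n (inT hP V x) (isCh_inT hP V h)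

/-- The maps `H^n(V)_x → H^n(σ_P⁻¹ V)_y` along the edges. -/
def Htinc (n : ℤ) (x y : X) (l : Λ) : (H n V).V x →ₗ[k] (H n (V.twist P hP)).V y :=
  if h : Γ.adj x y l = true then Hmap n (tincT hP V x y l) (isCh_tincT hP V h) else 0

theorem Htval_Hc {n : ℤ} {x : X} (z : (V.twist P hP).Z n x) :
    Htval hP V n x ((V.twist P hP).Hc n x z) =
      V.Hc n x ⟨tvalT hP V x z, (isCh_tvalT hP V x).mapZ z.2⟩ := rfl

theorem Hin_Hc {n : ℤ} {x : X} (h : ¬ P x) (v : V.Z n x) :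
    Hin hP V n x (V.Hc n x v) =
      (V.twist P hP).Hc n x ⟨inT hP V x v, (isCh_inT hP V h).mapZ v.2⟩ := by
  simp only [Hin, h, dif_neg, not_false_eq_true]
  rfl

theorem Htinc_Hc {n : ℤ} {x y : X} {l : Λ} (h : Γ.adj x y l = true) (v : V.Z n x) :
    Htinc hP V n x y l (V.Hc n x v) =
      (V.twist P hP).Hc n y ⟨tincT hP V x y l v, (isCh_tincT hP V h).mapZ v.2⟩ := by
  simp only [Htinc, h, dif_pos]
  rfl

theorem Hc_congr {W : DG k Γ} {n : ℤ} {x : X} {v w : W.Z n x} (h : (v : W.V x) = w) :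
    W.Hc n x v = W.Hc n x w := congrArg _ (Subtype.ext h)

theorem Htval_Htinc {n : ℤ} {x y : X} {l : Λ} (h : Γ.adj x y l = true) (w : (H n V).V x) :
    Htval hP V n y (Htinc hP V n x y l w) = (H n V).a x y l w := by
  obtain ⟨v, rfl⟩ := V.Hc_surj n x w
  rw [Htinc_Hc hP V h, Htval_Hc, V.H_a_Hc h]
  exact Hc_congr (tvalT_tincT h _)

theorem Htval_Hin {n : ℤ} {x : X} (h : ¬ P x) (w : (H n V).V x) :
    Htval hP V n x (Hin hP V n x w) = w := by
  obtain ⟨v, rfl⟩ := V.Hc_surj n x w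
  rw [Hin_Hc hP V h, Htval_Hc]
  exact Hc_congr (tvalT_not h _ _ _)

theorem H_twist_a {n : ℤ} {x y : X} {l : Λ} (h : Γ.adj x y l = true)
    (z : (H n (V.twist P hP)).V x) :
    (H n (V.twist P hP)).a x y l z = Htinc hP V n x y l (Htval hP V n x z) := by
  obtain ⟨v, rfl⟩ := (V.twist P hP).Hc_surj n x z
  rw [(V.twist P hP).H_a_Hc h, Htval_Hc, Htinc_Hc hP V h]
  exact Hc_congr (twist_a x y l _)

/-- Away from `P` the cohomology is unchanged. -/
theorem Htval_bij {n : ℤ} {x : X} (hx : ¬ P x) : Function.Bijective (Htval hP V n x) := by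
  constructor
  · rw [injective_iff_map_eq_zero]
    intro z hz
    obtain ⟨⟨z, hz'⟩, rfl⟩ := (V.twist P hP).Hc_surj n x z
    obtain ⟨g, ν, v, rfl⟩ := exists_mkT z
    obtain ⟨rfl, rfl, h3⟩ := (mem_twist_gr_not hx).1 (mem_Z.1 hz').1
    rw [Htval_Hc, Hc_eq_zero] at hz
    have hz2 : V.d x v = 0 ∧ v ∈ V.B n x := by
      refine ⟨?_, ?_⟩
      · have := (mem_Z.1 hz').2
        rw [twist_d] at this
        exact (mkT_eq_zero.1 this).2.2
      · have h5 := tvalT_not (hP := hP) (V := V) hx 0 0 v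
        exact h5 ▸ hz
    obtain ⟨u, hu, huv⟩ := mem_B.1 hz2.2
    rw [Hc_eq_zero]
    refine mem_B.2 ⟨mkT hP V x 0 0 u, (mem_twist_gr_not hx).2 ⟨rfl, rfl, hu⟩, ?_⟩
    rw [twist_d, huv]
    simp
  · intro w
    exact ⟨Hin hP V n x w, Htval_Hin hP V hx w⟩

/-- The map `N(H^n V)_x → H^n(σ_P⁻¹ V)_x`. -/
def Hpr (n : ℤ) (x : X) : (H n V).N x →ₗ[k] (H n (V.twist P hP)).V x :=
  ∑ p : Γ.Nb x, (Htinc hP V n p.1.1 x p.1.2).comp (LinearMap.proj p)

theorem Hpr_apply (n : ℤ) (x : X) (ν : (H n V).N x) :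
    Hpr hP V n x ν = ∑ p : Γ.Nb x, Htinc hP V n p.1.1 x p.1.2 (ν p) := by
  simp [Hpr]

theorem mem_Z_of_comp {n : ℤ} {x : X} (hx : P x) (ν : V.N x) (hν : ν ∈ V.grN x n)
    (hd : V.dN x ν = 0) : mkT hP V x 0 ν 0 ∈ (V.twist P hP).Z n x := by
  refine mem_Z.2 ⟨(mem_twist_gr_of hx).2 ⟨Submodule.zero_mem _, hν, rfl⟩, ?_⟩
  rw [twist_d, hd]
  simp [mkT_zero]

/-- The class of `ν ∈ N_x` in `N(H^n V)_x`. -/
theorem comp_Z {n : ℤ} {x : X} {ν : V.N x} (hν : ν ∈ V.grN x n)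
    (hd : V.dN x ν = 0) (p : Γ.Nb x) : ν p ∈ V.Z n p.1.1 :=
  mem_Z.2 ⟨mem_grN.1 hν p, congrFun hd p⟩

theorem Hpr_cls {n : ℤ} {x : X} (hx : P x) (ν : V.N x) (hν : ν ∈ V.grN x n)
    (hd : V.dN x ν = 0) :
    Hpr hP V n x (fun p => V.Hc n p.1.1 ⟨ν p, comp_Z V hν hd p⟩) =
      (V.twist P hP).Hc n x ⟨mkT hP V x 0 ν 0, mem_Z_of_comp hP V hx ν hν hd⟩ := by
  rw [Hpr_apply]
  have h1 : ∀ p : Γ.Nb x, Htinc hP V n p.1.1 x p.1.2 (V.Hc n p.1.1 ⟨ν p, comp_Z V hν hd p⟩) =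
      (V.twist P hP).Hc n x ⟨tincT hP V p.1.1 x p.1.2 (ν p),
        (isCh_tincT hP V (Γ.symm p.2)).mapZ (comp_Z V hν hd p)⟩ :=
    fun p => Htinc_Hc hP V (Γ.symm p.2) _
  simp only [h1]
  rw [← map_sum]
  refine Hc_congr ?_
  rw [Submodule.coe_sum]
  exact sum_tincT hx ν

theorem exists_rep {n : ℤ} {x : X} (w : (H n V).N x) :
    ∃ (ν : V.N x) (hν : ν ∈ V.grN x n) (hd : V.dN x ν = 0),
      w = fun p => V.Hc n p.1.1 ⟨ν p, comp_Z V hν hd p⟩ := by
  choose ν hν using fun p : Γ.Nb x => V.Hc_surj n p.1.1 (w p)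
  refine ⟨fun p => (ν p : V.V p.1.1), mem_grN.2 fun p => (mem_Z.1 (ν p).2).1,
    funext fun p => (mem_Z.1 (ν p).2).2, funext fun p => ?_⟩
  exact (hν p).symm

theorem Hpr_j {n : ℤ} {x : X} (hx : P x) (w : (H n V).V x) :
    Hpr hP V n x ((H n V).j x w) = 0 := by
  obtain ⟨v, rfl⟩ := V.Hc_surj n x w
  have hv := mem_Z.1 v.2
  have h1 : (H n V).j x (V.Hc n x v) = fun p => V.Hc n p.1.1 ⟨V.j x v p,
      comp_Z V (gr_j hv.1) (by rw [V.dN_j, hv.2, map_zero]) p⟩ := by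
    funext p
    exact V.H_a_Hc p.2 v
  rw [h1, Hpr_cls hP V hx (V.j x v) (gr_j hv.1) (by rw [V.dN_j, hv.2, map_zero]), Hc_eq_zero]
  refine mem_B.2 ⟨mkT hP V x v 0 0, (mem_twist_gr_of hx).2 ⟨?_, Submodule.zero_mem _, rfl⟩, ?_⟩
  · rw [sub_add_cancel]
    exact hv.1
  · rw [twist_d]
    show _ = mkT hP V x 0 (V.j x v) 0
    rw [mkT_inj]
    exact ⟨hv.2, by simp, map_zero _⟩

theorem Hpr_surj {n : ℤ} {x : X} (hx : P x) (h0 : V.HZero (n + 1) x) :
    Function.Surjective (Hpr hP V n x) := by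
  intro z
  obtain ⟨⟨z, hz⟩, rfl⟩ := (V.twist P hP).Hc_surj n x z
  obtain ⟨g, ν, v, rfl⟩ := exists_mkT z
  obtain ⟨h1, h2⟩ := mem_Z.1 hz
  obtain ⟨hg, hν, rfl⟩ := (mem_twist_gr_of hx).1 h1
  rw [twist_d] at h2
  obtain ⟨hdg, hjg, -⟩ := mkT_eq_zero.1 h2
  obtain ⟨u, hu, rfl⟩ := h0 g hg hdg
  rw [add_sub_cancel_right] at hu
  have hd : V.dN x (ν + V.j x u) = 0 := by
    rw [map_add, V.dN_j, add_comm]
    exact hjg
  have hgr : ν + V.j x u ∈ V.grN x n := Submodule.add_mem _ hν (gr_j hu)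
  refine ⟨fun p => V.Hc n p.1.1 ⟨(ν + V.j x u) p, comp_Z V hgr hd p⟩, ?_⟩
  rw [Hpr_cls hP V hx _ hgr hd, Hc_eq]
  refine mem_B.2 ⟨mkT hP V x u 0 0, (mem_twist_gr_of hx).2 ⟨?_, Submodule.zero_mem _, rfl⟩, ?_⟩
  · rwa [sub_add_cancel]
  · rw [twist_d, mkT_sub, mkT_inj]
    refine ⟨?_, ?_, ?_⟩
    · rw [zero_sub]
      exact eq_neg_of_add_eq_zero_left (add_self_char2 (k := k) _)
    · rw [map_zero, add_zero, add_sub_cancel_left]
    · simp

theorem Hpr_ker {n : ℤ} {x : X} (hx : P x) (w : (H n V).N x) (hw : Hpr hP V n x w = 0) :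
    ∃ u, (H n V).j x u = w := by
  obtain ⟨ν, hν, hd, rfl⟩ := exists_rep V w
  rw [Hpr_cls hP V hx ν hν hd, Hc_eq_zero] at hw
  obtain ⟨z, hz⟩ := mem_B.1 hw
  obtain ⟨u, μ, t, rfl⟩ := exists_mkT z
  obtain ⟨hz, hz'⟩ := hz
  obtain ⟨hu, hμ, rfl⟩ := (mem_twist_gr_of hx).1 hz
  rw [sub_add_cancel] at hu
  rw [twist_d, mkT_inj] at hz'
  obtain ⟨h1, h2, -⟩ := hz'
  refine ⟨V.Hc n x ⟨u, mem_Z.2 ⟨hu, h1⟩⟩, ?_⟩
  funext p
  show (H n V).a x p.1.1 p.1.2 (V.Hc n x ⟨u, _⟩) = V.Hc n p.1.1 ⟨ν p, _⟩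
  rw [V.H_a_Hc p.2, Hc_eq]
  refine mem_B.2 ⟨μ p, mem_grN.1 hμ p, ?_⟩
  show V.d p.1.1 (μ p) = V.a x p.1.1 p.1.2 u - ν p
  rw [← h2]
  show V.d p.1.1 (μ p) = V.a x p.1.1 p.1.2 u - (V.a x p.1.1 p.1.2 u + V.d p.1.1 (μ p))
  rw [sub_add_cancel_left]
  exact eq_neg_of_add_eq_zero_left (add_self_char2 (k := k) _)

end twist

section iso

variable [CharP k 2] (s : S) (V : DG k Γ)

theorem indep_fibre (Γ : FGraph S X Λ) (s : S) : Indep Γ (fun x => Γ.π x = s) := by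
  intro x y l h hx hy
  exact Γ.indep h (hx.trans hy.symm)

/-- The twist at the fibre of `s`. -/
abbrev tw : DG k Γ := V.twist (fun x => Γ.π x = s) (indep_fibre Γ s)

/-- The map `N_x × V_x → H^n(σ_s⁻¹ V)_x` inducing the isomorphism with `C_s (H^n V)`. -/
def theta0 (n : ℤ) (x : X) : ((H n V).N x × (H n V).V x) →ₗ[k] (H n (tw s V)).V x :=
  if h : Γ.π x = s then (Hpr (indep_fibre Γ s) V n x).comp (LinearMap.fst k _ _)
  else (Hin (indep_fibre Γ s) V n x).comp (LinearMap.snd k _ _)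

theorem theta0_of {n : ℤ} {x : X} (h : Γ.π x = s) (z : (H n V).N x × (H n V).V x) :
    theta0 s V n x z = Hpr (indep_fibre Γ s) V n x z.1 := by
  simp [theta0, h]

theorem theta0_not {n : ℤ} {x : X} (h : ¬ Γ.π x = s) (z : (H n V).N x × (H n V).V x) :
    theta0 s V n x z = Hin (indep_fibre Γ s) V n x z.2 := by
  simp [theta0, h]

theorem Krel_le_theta0 (n : ℤ) (x : X) :
    (H n V).Krel s x ≤ LinearMap.ker (theta0 s V n x) := by
  rintro ⟨ν, v⟩ hz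
  rw [LinearMap.mem_ker]
  by_cases h : Γ.π x = s
  · obtain ⟨u, rfl⟩ := ((H n V).mem_Krel_of_eq h _ _).1 hz
    rw [theta0_of s V h]
    exact Hpr_j (P := fun x => Γ.π x = s) (indep_fibre Γ s) V h u
  · rw [(H n V).mem_Krel_of_ne h] at hz
    rw [theta0_not s V h, hz, map_zero]

/-- The comparison map `C_s (H^n V)_x → H^n(σ_s⁻¹ V)_x`. -/
def theta (n : ℤ) (x : X) : (PMod.C s (H n V)).V x →ₗ[k] (H n (tw s V)).V x :=
  ((H n V).Krel s x).liftQ (theta0 s V n x) (Krel_le_theta0 s V n x)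

theorem theta_mk (n : ℤ) (x : X) (z : (H n V).N x × (H n V).V x) :
    theta s V n x ((H n V).Cmk s x z) = theta0 s V n x z := rfl

theorem Htval_theta (n : ℤ) (x : X) (z : (PMod.C s (H n V)).V x) :
    Htval (P := fun x => Γ.π x = s) (indep_fibre Γ s) V n x (theta s V n x z) =
      ((H n V).Cnat s).f x z := by
  obtain ⟨⟨ν, v⟩, rfl⟩ := (H n V).Cmk_surj s x z
  rw [theta_mk, PMod.Cnat_mk]
  by_cases h : Γ.π x = s
  · rw [theta0_of s V h, (H n V).vmap_of_eq h, Hpr_apply, map_sum, PMod.i_apply]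
    refine Finset.sum_congr rfl fun p _ => ?_
    exact Htval_Htinc (P := fun x => Γ.π x = s) (indep_fibre Γ s) V (Γ.symm p.2) _
  · rw [theta0_not s V h, (H n V).vmap_of_ne h]
    exact Htval_Hin (P := fun x => Γ.π x = s) (indep_fibre Γ s) V h v

theorem theta_Cinc {n : ℤ} {x y : X} {l : Λ} (h : Γ.adj x y l = true) (w : (H n V).V x) :
    theta s V n y ((H n V).Cmk s y ((H n V).sg x y l w, (H n V).a x y l w)) =
      Htinc (P := fun x => Γ.π x = s) (indep_fibre Γ s) V n x y l w := by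
  rw [theta_mk]
  by_cases hy : Γ.π y = s
  · rw [theta0_of s V hy, Hpr_apply, PMod.sg_of _ (Γ.symm h)]
    rw [Finset.sum_eq_single (⟨(x, l), Γ.symm h⟩ : Γ.Nb y)]
    · simp
    · intro p _ hp
      have h1 : (Pi.single (M := fun p : Γ.Nb y => (H n V).V p.1.1) ⟨(x, l), Γ.symm h⟩ w) p = 0 :=
        Pi.single_eq_of_ne (M := fun p : Γ.Nb y => (H n V).V p.1.1) hp w
      simp only [h1, map_zero]
    · intro h'
      exact absurd (Finset.mem_univ _) h'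
  · rw [theta0_not s V hy]
    obtain ⟨v, rfl⟩ := V.Hc_surj n x w
    rw [Htinc_Hc _ V h]
    show Hin _ V n y ((H n V).a x y l (V.Hc n x v)) = _
    rw [V.H_a_Hc h, Hin_Hc (P := fun x => Γ.π x = s) (indep_fibre Γ s) V hy]
    exact Hc_congr (tincT_not (P := fun x => Γ.π x = s) hy _).symm

/-- The comparison homomorphism `C_s (H^n V) → H^n(σ_s⁻¹ V)`. -/
def thetaHom (n : ℤ) : PMod.Hom (PMod.C s (H n V)) (H n (tw s V)) where
  f x := theta s V n x
  comm {x y l} h z := by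
    rw [PMod.C_a_apply, theta_Cinc s V h, H_twist_a _ V h, Htval_theta]

theorem thetaHom_bij {n : ℤ} (h0 : ∀ x, Γ.π x = s → V.HZero (n + 1) x) :
    (thetaHom s V n).Bij := by
  intro x
  show Function.Bijective (theta s V n x)
  by_cases h : Γ.π x = s
  · constructor
    · rw [injective_iff_map_eq_zero]
      intro z hz
      obtain ⟨ν, rfl⟩ := (H n V).Cpr_surj h z
      rw [(H n V).Cpr_eq_zero h]
      apply Hpr_ker (P := fun x => Γ.π x = s) (indep_fibre Γ s) V h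
      have h1 : theta0 s V n x (ν, 0) = 0 := hz
      rwa [theta0_of s V h] at h1
    · intro z
      obtain ⟨ν, rfl⟩ := Hpr_surj (P := fun x => Γ.π x = s) (indep_fibre Γ s) V h (h0 x h) z
      refine ⟨(H n V).Cmk s x (ν, 0), ?_⟩
      rw [theta_mk, theta0_of s V h]
  · have h1 : Function.Bijective
        (fun z => Htval (P := fun x => Γ.π x = s) (indep_fibre Γ s) V n x (theta s V n x z)) := by
      have h2 : (fun z => Htval (P := fun x => Γ.π x = s) (indep_fibre Γ s) V n x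
          (theta s V n x z)) = ((H n V).Cnat s).f x := funext fun z => Htval_theta s V n x z
      rw [h2]
      have h3 : Function.Bijective (fun v => ((H n V).Cnat s).f x ((H n V).Cin s x v)) := by
        have : (fun v => ((H n V).Cnat s).f x ((H n V).Cin s x v)) = id :=
          funext fun v => (H n V).Cnat_Cin h v
        rw [this]
        exact Function.bijective_id
      exact (Function.Bijective.of_comp_iff _ ((H n V).Cin_bij h)).1 h3
    exact (Function.Bijective.of_comp_iff' (Htval_bij (P := fun x => Γ.π x = s)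
      (indep_fibre Γ s) V h) _).1 h1

/-- If `H^{n+1}` vanishes over `s` then `H^n(σ_s⁻¹ V) ≅ C_s (H^n V)`. -/
theorem twist_isom {n : ℤ} (h0 : ∀ x, Γ.π x = s → V.HZero (n + 1) x) :
    PMod.Isom (H n (tw s V)) (PMod.C s (H n V)) :=
  PMod.Isom.symm ⟨thetaHom s V n, thetaHom_bij s V h0⟩

end iso

end DG

end Vale.Agent.P203.Dg
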