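import Vale.Agent.P203.Mod.Basic

/-! An isomorphism criterion for modules: a common cover with the same kernels. -/

namespace Vale.Agent.P203.Mod

variable {S X Λ : Type} [Fintype X] [DecidableEq X] [Fintype Λ] [DecidableEq Λ] [DecidableEq S]
variable {k : Type} [Field k] {Γ : FGraph S X Λ}

namespace PMod

/-- A family of linear spaces mapping onto two modules with the same kernels, compatibly with the
structure maps, gives an isomorphism of the two modules. -/
theorem Isom.of_span {V W : PMod k Γ} (E : X → Type) [∀ x, AddCommGroup (E x)]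
    [∀ x, Module k (E x)] (p : ∀ x, E x →ₗ[k] V.V x) (q : ∀ x, E x →ₗ[k] W.V x)
    (hp : ∀ x, Function.Surjective (p x)) (hq : ∀ x, Function.Surjective (q x))
    (hk : ∀ x e, p x e = 0 ↔ q x e = 0)
    (hc : ∀ {x y l}, Γ.adj x y l = true → ∀ e : E x,
      ∃ e' : E y, p y e' = V.a x y l (p x e) ∧ q y e' = W.a x y l (q x e)) : Isom V W := by
  let f : ∀ x, V.V x →ₗ[k] W.V x := fun x =>
    ((LinearMap.ker (p x)).liftQ (q x) (fun e he => (hk x e).1 he)) ∘ₗ
      ((p x).quotKerEquivOfSurjective (hp x)).symm.toLinearMap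
  have hf : ∀ x e, f x (p x e) = q x e := by
    intro x e
    have h1 : ((p x).quotKerEquivOfSurjective (hp x)).symm (p x e) =
        (LinearMap.ker (p x)).mkQ e := by
      rw [LinearEquiv.symm_apply_eq]
      rfl
    simp only [f, LinearMap.comp_apply, LinearEquiv.coe_coe, h1]
    rfl
  refine ⟨⟨f, ?_⟩, ?_⟩
  · intro x y l h v
    obtain ⟨e, rfl⟩ := hp x v
    obtain ⟨e', h1, h2⟩ := hc h e
    rw [← h1, hf, h2, hf]
  · intro x
    constructor
    · rw [injective_iff_map_eq_zero]
      intro v hv
      obtain ⟨e, rfl⟩ := hp x v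
      change f x (p x e) = 0 at hv
      rw [hf] at hv
      exact (hk x e).2 hv
    · intro w
      obtain ⟨e, rfl⟩ := hq x w
      exact ⟨p x e, hf x e⟩

end PMod

end Vale.Agent.P203.Mod
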