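import Vale.Agent.P203.Dg.Twist
import Vale.Agent.P203.Dg.Span
import Vale.Agent.P203.Mod.Kill
import Mathlib.LinearAlgebra.FiniteDimensional.Basic

/-!
# P203, block ALG-C2: finiteness and nilpotency of dg modules

`DG.Fine V`: all spaces are finite dimensional, only finitely many degrees occur, all paths of
some length act by zero. It is preserved by the twists, and the cohomology modules of a fine
object are finite dimensional, nilpotent, and zero in large degrees.
-/

set_option linter.all false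

namespace Vale.Agent.P203.Dg

open Vale.Agent.P203.Mod

variable {S X Λ : Type} [Fintype X] [DecidableEq X] [Fintype Λ] [DecidableEq Λ] [DecidableEq S]
variable {k : Type} [Field k] {Γ : FGraph S X Λ}

namespace DG

/-- Finite dimensional, bounded, nilpotent dg modules. -/
structure Fine (V : DG k Γ) : Prop where
  fd : ∀ x, FiniteDimensional k (V.V x)
  bdd : ∃ N : ℤ, ∀ n, (n < -N ∨ N < n) → ∀ x, V.gr x n = ⊥
  nil : ∃ L, ∀ x (v : V.V x), Kill Γ V.a L x v

/-! ### The twists preserve `Fine` -/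

theorem finiteDimensional_TV {V : DG k Γ} (h : ∀ x, FiniteDimensional k (V.V x)) (x : X) :
    FiniteDimensional k (V.TV x) := by
  haveI := h
  have h1 : FiniteDimensional k (V.N x) := by
    show FiniteDimensional k ((p : Γ.Nb x) → V.V p.1.1)
    infer_instance
  infer_instance

theorem grN_eq_bot {V : DG k Γ} {x : X} {n : ℤ} (h : ∀ x, V.gr x n = ⊥) : V.grN x n = ⊥ := by
  rw [eq_bot_iff]
  intro ν hν
  rw [mem_grN] at hν
  rw [Submodule.mem_bot]
  funext p
  have := hν p
  rw [h] at this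
  exact this

theorem Fine.twist [CharP k 2] {P : X → Prop} [DecidablePred P] {hP : Indep Γ P} {V : DG k Γ}
    (hV : V.Fine) : (V.twist P hP).Fine where
  fd x := finiteDimensional_TV hV.fd x
  bdd := by
    obtain ⟨N, hN⟩ := hV.bdd
    refine ⟨N + 1, fun n hn x => ?_⟩
    have h1 : ∀ x, V.gr x n = ⊥ := hN n (by omega)
    have h2 : ∀ x, V.gr x (n + 1) = ⊥ := hN (n + 1) (by omega)
    show V.tgr P x n = ⊥
    rw [eq_bot_iff]
    rintro ⟨g, ν, v⟩ hz
    by_cases hx : P x
    · obtain ⟨h3, h4, rfl⟩ := (mem_tgr_of hx).1 hz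
      rw [h2] at h3
      rw [grN_eq_bot h1] at h4
      rw [(Submodule.mem_bot k).1 h3, (Submodule.mem_bot k).1 h4]
      exact Submodule.zero_mem _
    · obtain ⟨rfl, rfl, h3⟩ := (mem_tgr_not hx).1 hz
      rw [h1] at h3
      rw [(Submodule.mem_bot k).1 h3]
      exact Submodule.zero_mem _
  nil := by
    obtain ⟨L, hL⟩ := hV.nil
    refine ⟨L + 1, fun x z => ?_⟩
    exact Kill.of_inc_val (a := V.a) (V' := fun x => V.TV x) (fun x => V.tval P x)
      (fun x y l => V.tinc P x y l) (fun x y l => map_zero _) (fun h z => rfl)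
      (fun h v => tval_tinc h v) (hL x _)

theorem Fine.twistInv [CharP k 2] {P : X → Prop} [DecidablePred P] {hP : Indep Γ P} {V : DG k Γ}
    (hV : V.Fine) : (V.twistInv P hP).Fine where
  fd x := finiteDimensional_TV hV.fd x
  bdd := by
    obtain ⟨N, hN⟩ := hV.bdd
    refine ⟨N + 1, fun n hn x => ?_⟩
    have h1 : ∀ x, V.gr x n = ⊥ := hN n (by omega)
    have h2 : ∀ x, V.gr x (n - 1) = ⊥ := hN (n - 1) (by omega)
    show V.ugr P x n = ⊥
    rw [eq_bot_iff]
    rintro ⟨g, ν, v⟩ hz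
    by_cases hx : P x
    · obtain ⟨h3, h4, rfl⟩ := (mem_ugr_of hx).1 hz
      rw [h2] at h3
      rw [grN_eq_bot h1] at h4
      rw [(Submodule.mem_bot k).1 h3, (Submodule.mem_bot k).1 h4]
      exact Submodule.zero_mem _
    · obtain ⟨rfl, rfl, h3⟩ := (mem_ugr_not hx).1 hz
      rw [h1] at h3
      rw [(Submodule.mem_bot k).1 h3]
      exact Submodule.zero_mem _
  nil := by
    obtain ⟨L, hL⟩ := hV.nil
    refine ⟨L + 1, fun x z => ?_⟩
    exact Kill.of_inc_prj (a := V.a) (V' := fun x => V.TV x) (fun x => V.uinc P x)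
      (fun x y l => V.uout P x y l) (fun x => map_zero _) (fun h z => rfl)
      (fun h v => uout_uinc h v) (fun p => hL _ _)

/-! ### Cohomology of fine objects -/

theorem Fine.H_fd {V : DG k Γ} (hV : V.Fine) (n : ℤ) (x : X) :
    FiniteDimensional k ((H n V).V x) := by
  haveI := hV.fd x
  show FiniteDimensional k (V.HV n x)
  infer_instance

theorem H_subsingleton_of_gr {V : DG k Γ} {n : ℤ} {x : X} (h : V.gr x n = ⊥) :
    Subsingleton ((H n V).V x) := by
  refine ⟨fun v w => ?_⟩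
  have key : ∀ u : (H n V).V x, u = 0 := by
    intro u
    obtain ⟨u, rfl⟩ := V.Hc_surj n x u
    have h1 := (mem_Z.1 u.2).1
    rw [h] at h1
    have h2 : u = 0 := Subtype.ext h1
    rw [h2, map_zero]
  rw [key v, key w]

theorem Fine.H_bdd {V : DG k Γ} (hV : V.Fine) :
    ∃ N : ℤ, ∀ n, (n < -N ∨ N < n) → ∀ x, Subsingleton ((H n V).V x) := by
  obtain ⟨N, hN⟩ := hV.bdd
  exact ⟨N, fun n hn x => H_subsingleton_of_gr (hN n hn x)⟩

theorem Kill_Hc {V : DG k Γ} {L : ℕ} {n : ℤ} {x : X} (v : V.Z n x)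
    (h : Kill Γ V.a L x (v : V.V x)) : Kill Γ (H n V).a L x (V.Hc n x v) := by
  induction L generalizing x with
  | zero =>
    rw [Kill.zero_iff] at *
    have h2 : v = 0 := Subtype.ext h
    rw [h2, map_zero]
  | succ L ih =>
    intro p
    rw [V.H_a_Hc p.2]
    exact ih _ (h p)

theorem Fine.H_nilp {V : DG k Γ} (hV : V.Fine) (n : ℤ) : (H n V).Nilp := by
  obtain ⟨L, hL⟩ := hV.nil
  refine ⟨L, fun x v => ?_⟩
  obtain ⟨v, rfl⟩ := V.Hc_surj n x v
  exact Kill_Hc v (hL x _)

/-! ### Modules as dg modules concentrated in degree zero -/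

/-- A module, considered as a dg module in degree `0`. -/
def ofPMod (V : PMod k Γ) : DG k Γ where
  V x := V.V x
  d x := 0
  h x := 0
  a x y l := V.a x y l
  gr x n := if n = 0 then ⊤ else ⊥
  d_d x v := rfl
  d_a h v := by simp
  rel x v := by
    rw [V.rel x v]; simp
  gr_d {x n v} hv := by simp
  gr_h {x n v} hv := by simp
  gr_a {x y l n v} h hv := by
    by_cases hn : n = 0
    · simp [hn]
    · simp only [hn, if_false, Submodule.mem_bot] at hv ⊢
      rw [hv, map_zero]

theorem ofPMod_fine {V : PMod k Γ} (hfd : ∀ x, FiniteDimensional k (V.V x)) (hn : V.Nilp) :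
    (ofPMod V).Fine where
  fd x := hfd x
  bdd := ⟨0, fun n hn x => by
    show (if n = 0 then ⊤ else ⊥ : Submodule k (V.V x)) = ⊥
    rw [if_neg (by omega)]⟩
  nil := hn

theorem H_ofPMod_subsingleton (V : PMod k Γ) {n : ℤ} (hn : n ≠ 0) (x : X) :
    Subsingleton ((H n (ofPMod V)).V x) := by
  refine H_subsingleton_of_gr ?_
  show (if n = 0 then ⊤ else ⊥ : Submodule k (V.V x)) = ⊥
  rw [if_neg hn]

theorem H_ofPMod_isom (V : PMod k Γ) : PMod.Isom (H 0 (ofPMod V)) V := by
  have hZ : ∀ x (v : V.V x), v ∈ (ofPMod V).Z 0 x := fun x v => by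
    refine mem_Z.2 ⟨?_, rfl⟩
    show v ∈ (if (0 : ℤ) = 0 then ⊤ else ⊥ : Submodule k (V.V x))
    rw [if_pos rfl]; exact Submodule.mem_top
  let p : ∀ x, V.V x →ₗ[k] (H 0 (ofPMod V)).V x := fun x =>
    ((ofPMod V).Hc 0 x).comp (LinearMap.codRestrict ((ofPMod V).Z 0 x) LinearMap.id (hZ x))
  have hp : ∀ x v, p x v = (ofPMod V).Hc 0 x ⟨v, hZ x v⟩ := fun x v => rfl
  refine PMod.Isom.symm ⟨⟨p, ?_⟩, ?_⟩
  · intro x y l h v
    rw [hp, hp, H_a_Hc (ofPMod V) h]
    rfl
  · intro x
    constructor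
    · rw [injective_iff_map_eq_zero]
      intro v hv
      rw [hp, Hc_eq_zero] at hv
      obtain ⟨u, -, hu⟩ := mem_B.1 hv
      exact hu.symm
    · intro w
      obtain ⟨w, rfl⟩ := (ofPMod V).Hc_surj 0 x w
      exact ⟨w.1, rfl⟩

end DG

end Vale.Agent.P203.Dg
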