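import Vale.Agent.P203.Dg.Coh

/-!
# Strict morphisms of dg modules, quasi-isomorphisms, and the equivalence relation `Sim`

* `HomS V W`: maps commuting strictly with `d`, `a`, `h` and the gradings; `HomS.toMor`;
* `HomS.QI`: vertexwise quasi-isomorphism; `HomS.QI.comp`;
* `Sim V W`: the equivalence relation generated by strict quasi-isomorphisms; `Sim.H_isom`;
* identities between sums in characteristic 2: `apply c2_eq k; abel_nf; simp only [c2_int k, ...]`.
-/

set_option linter.all false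

namespace Vale.Agent.P203.Dg

open Vale.Agent.P203.Mod

variable {S X Λ : Type} [Fintype X] [DecidableEq X] [Fintype Λ] [DecidableEq Λ] [DecidableEq S]
variable {k : Type} [Field k] {Γ : FGraph S X Λ}

section char2

variable (k) {M : Type} [AddCommGroup M] [Module k M] [CharP k 2]

include k

theorem c2_int (x : M) : (2 : ℤ) • x = 0 := by
  have h3 : (2 : k) = 0 := CharP.cast_eq_zero k 2
  rw [two_zsmul, ← two_smul k x, h3, zero_smul]

theorem c2_add (x : M) : x + x = 0 := by
  rw [← two_zsmul, c2_int k]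

theorem c2_neg (x : M) : - x = x := by
  rw [neg_eq_iff_add_eq_zero, c2_add k]

theorem c2_eq (x y : M) (h : x + y = 0) : x = y := by
  rw [add_eq_zero_iff_eq_neg, c2_neg k] at h
  exact h

theorem c2_neg_one (x : M) : (-1 : ℤ) • x = x := by
  rw [neg_one_zsmul, c2_neg k]

theorem c2_neg_two (x : M) : (-2 : ℤ) • x = 0 := by
  rw [neg_smul, c2_int k, neg_zero]

theorem c2_3 (x : M) : (3 : ℤ) • x = x := by
  rw [show (3 : ℤ) = 2 + 1 from rfl, add_smul, c2_int k, one_smul, zero_add]

theorem c2_neg_3 (x : M) : (-3 : ℤ) • x = x := by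
  rw [neg_smul, c2_3 k, c2_neg k]

theorem c2_4 (x : M) : (4 : ℤ) • x = 0 := by
  rw [show (4 : ℤ) = 2 + 2 from rfl, add_smul, c2_int k, zero_add]

theorem c2_neg_4 (x : M) : (-4 : ℤ) • x = 0 := by
  rw [neg_smul, c2_4 k, neg_zero]

end char2

/-- Strict morphisms of dg modules. -/
structure HomS (V W : DG k Γ) where
  /-- the components -/
  f : ∀ x, V.V x →ₗ[k] W.V x
  d_f : ∀ x v, W.d x (f x v) = f x (V.d x v)
  a_f : ∀ {x y l}, Γ.adj x y l = true → ∀ v, W.a x y l (f x v) = f y (V.a x y l v)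
  h_f : ∀ x v, W.h x (f x v) = f x (V.h x v)
  gr_f : ∀ {x n v}, v ∈ V.gr x n → f x v ∈ W.gr x n

namespace HomS

/-- The identity. -/
def id (V : DG k Γ) : HomS V V where
  f _ := LinearMap.id
  d_f _ _ := rfl
  a_f _ _ := rfl
  h_f _ _ := rfl
  gr_f h := h

/-- Composition. -/
def comp {V W U : DG k Γ} (g : HomS W U) (f : HomS V W) : HomS V U where
  f x := g.f x ∘ₗ f.f x
  d_f x v := by simp [g.d_f, f.d_f]
  a_f h v := by simp [g.a_f h, f.a_f h]
  h_f x v := by simp [g.h_f, f.h_f]
  gr_f h := g.gr_f (f.gr_f h)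

/-- A strict morphism is a homotopy morphism (characteristic 2). -/
def toMor [CharP k 2] {V W : DG k Γ} (φ : HomS V W) : Mor V W where
  f := φ.f
  fa _ _ _ := 0
  fh _ := 0
  d_f := φ.d_f
  a_f h v := by
    rw [φ.a_f h]
    simp only [LinearMap.zero_apply, map_zero, add_zero]
    exact c2_add k _
  h_f x v := by
    rw [φ.h_f]
    simp only [LinearMap.zero_apply, map_zero, add_zero, Finset.sum_const_zero]
    exact c2_add k _
  gr_f := φ.gr_f
  gr_fa _ _ := Submodule.zero_mem _
  gr_fh _ := Submodule.zero_mem _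

/-- Quasi-isomorphism at the vertex `x`. -/
structure QIat {V W : DG k Γ} (φ : HomS V W) (x : X) : Prop where
  inj : ∀ n, ∀ v ∈ V.gr x n, V.d x v = 0 → (∃ w ∈ W.gr x (n - 1), W.d x w = φ.f x v) →
    ∃ u ∈ V.gr x (n - 1), V.d x u = v
  surj : ∀ n, ∀ w ∈ W.gr x n, W.d x w = 0 →
    ∃ v ∈ V.gr x n, V.d x v = 0 ∧ ∃ u ∈ W.gr x (n - 1), W.d x u = w - φ.f x v

/-- Strict quasi-isomorphisms. -/
def QI {V W : DG k Γ} (φ : HomS V W) : Prop := ∀ x, φ.QIat x

theorem QI.toMor [CharP k 2] {V W : DG k Γ} {φ : HomS V W} (h : φ.QI) : φ.toMor.QI :=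
  fun x => ⟨(h x).inj, (h x).surj⟩

theorem QIat.id (V : DG k Γ) (x : X) : (HomS.id V).QIat x where
  inj n v hv hd h := h
  surj n w hw hd := ⟨w, hw, hd, 0, Submodule.zero_mem _, by
    change V.d x 0 = w - w
    rw [map_zero, sub_self]⟩

theorem QI.id (V : DG k Γ) : (HomS.id V).QI := fun x => QIat.id V x

theorem QIat.comp {V W U : DG k Γ} {g : HomS W U} {f : HomS V W} {x : X} (hg : g.QIat x)
    (hf : f.QIat x) : (g.comp f).QIat x where
  inj n v hv hd h := by
    refine hf.inj n v hv hd (hg.inj n (f.f x v) (f.gr_f hv) ?_ h)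
    rw [f.d_f, hd, map_zero]
  surj n w hw hd := by
    obtain ⟨v, hv, hv', u, hu, huv⟩ := hg.surj n w hw hd
    obtain ⟨v', hv1, hv2, u', hu', huv'⟩ := hf.surj n v hv hv'
    refine ⟨v', hv1, hv2, u + g.f x u', Submodule.add_mem _ hu (g.gr_f hu'), ?_⟩
    rw [map_add, huv, g.d_f, huv', map_sub]
    change _ = w - g.f x (f.f x v')
    abel

theorem QI.comp {V W U : DG k Γ} {g : HomS W U} {f : HomS V W} (hg : g.QI) (hf : f.QI) :
    (g.comp f).QI := fun x => (hg x).comp (hf x)

end HomS

/-- One step: there is a strict quasi-isomorphism `V → W`. -/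
def SimStep (V W : DG k Γ) : Prop := ∃ φ : HomS V W, φ.QI

/-- The equivalence relation generated by strict quasi-isomorphisms. -/
def Sim (V W : DG k Γ) : Prop := Relation.EqvGen SimStep V W

namespace Sim

variable {V W U : DG k Γ}

theorem refl (V : DG k Γ) : Sim V V := Relation.EqvGen.refl _

theorem symm (h : Sim V W) : Sim W V := Relation.EqvGen.symm _ _ h

theorem trans (h : Sim V W) (h' : Sim W U) : Sim V U := Relation.EqvGen.trans _ _ _ h h'

theorem of_hom (φ : HomS V W) (h : φ.QI) : Sim V W := Relation.EqvGen.rel _ _ ⟨φ, h⟩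

/-- An operation on dg modules which preserves the existence of strict quasi-isomorphisms
preserves `Sim`. -/
theorem map {k' : Type} [Field k'] {S' X' Λ' : Type} [Fintype X'] [DecidableEq X'] [Fintype Λ']
    [DecidableEq Λ'] [DecidableEq S'] {Γ' : FGraph S' X' Λ'} (T : DG k Γ → DG k' Γ')
    (hT : ∀ V W, SimStep V W → SimStep (T V) (T W)) (h : Sim V W) : Sim (T V) (T W) := by
  induction h with
  | rel V W h => exact Relation.EqvGen.rel _ _ (hT _ _ h)
  | refl V => exact Sim.refl _
  | symm V W _ ih => exact ih.symm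
  | trans V W U _ _ ih ih' => exact ih.trans ih'

/-- `Sim` implies isomorphic cohomology modules. -/
theorem H_isom [CharP k 2] (h : Sim V W) (n : ℤ) : PMod.Isom (DG.H n V) (DG.H n W) := by
  induction h with
  | rel V W h =>
    obtain ⟨φ, hφ⟩ := h
    exact φ.toMor.H_isom hφ.toMor n
  | refl V => exact PMod.Isom.refl _
  | symm V W _ ih => exact ih.symm
  | trans V W U _ _ ih ih' => exact ih.trans ih'

end Sim

/-- The setoid of quasi-isomorphism classes. -/
def simSetoid (k : Type) [Field k] (Γ : FGraph S X Λ) : Setoid (DG k Γ) where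
  r := Sim
  iseqv := ⟨Sim.refl, Sim.symm, Sim.trans⟩

end Vale.Agent.P203.Dg
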