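import Vale.Agent.P203.Dg.Twist
import Vale.Agent.P203.Dg.Strict

/-!
# Functoriality of the twists on strict morphisms, quasi-isomorphism classes

The strict morphisms `HomS`, `HomS.QI` and the equivalence relation `Sim` are those of
`Dg/Strict.lean`; `QE` is an abbreviation for `Sim`.
-/

set_option linter.all false

namespace Vale.Agent.P203.Dg

open Vale.Agent.P203.Mod

variable {S X Λ : Type} [Fintype X] [DecidableEq X] [Fintype Λ] [DecidableEq Λ] [DecidableEq S]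
variable {k : Type} [Field k] {Γ : FGraph S X Λ}

/-! ### Quasi-isomorphisms of (loosely) graded complexes, elementary form -/

section QIc

variable {C D A B A' B' : Type} [AddCommGroup C] [Module k C] [AddCommGroup D] [Module k D]
  [AddCommGroup A] [Module k A] [AddCommGroup B] [Module k B]
  [AddCommGroup A'] [Module k A'] [AddCommGroup B'] [Module k B']

/-- Quasi-isomorphism, elementary form. -/
structure QIc (dC : C →ₗ[k] C) (gC : ℤ → Submodule k C) (dD : D →ₗ[k] D)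
    (gD : ℤ → Submodule k D) (f : C →ₗ[k] D) : Prop where
  inj : ∀ n, ∀ v ∈ gC n, dC v = 0 → (∃ w ∈ gD (n - 1), dD w = f v) →
    ∃ u ∈ gC (n - 1), dC u = v
  surj : ∀ n, ∀ w ∈ gD n, dD w = 0 →
    ∃ v ∈ gC n, dC v = 0 ∧ ∃ u ∈ gD (n - 1), dD u = w - f v

/-- A product of quasi-isomorphisms. -/
theorem QIc.pi {ι : Type} {C D : ι → Type} [∀ i, AddCommGroup (C i)] [∀ i, Module k (C i)]
    [∀ i, AddCommGroup (D i)] [∀ i, Module k (D i)]
    {dC : ∀ i, C i →ₗ[k] C i} {gC : ∀ i, ℤ → Submodule k (C i)} {dD : ∀ i, D i →ₗ[k] D i}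
    {gD : ∀ i, ℤ → Submodule k (D i)} {f : ∀ i, C i →ₗ[k] D i}
    (h : ∀ i, QIc (dC i) (gC i) (dD i) (gD i) (f i)) :
    QIc (LinearMap.pi fun i => (dC i).comp (LinearMap.proj i))
      (fun n => Submodule.pi Set.univ fun i => gC i n)
      (LinearMap.pi fun i => (dD i).comp (LinearMap.proj i))
      (fun n => Submodule.pi Set.univ fun i => gD i n)
      (LinearMap.pi fun i => (f i).comp (LinearMap.proj i)) where
  inj n v hv hd := by
    rintro ⟨w, hw, hwv⟩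
    have h1 : ∀ i, ∃ u ∈ gC i (n - 1), dC i u = v i := by
      intro i
      refine (h i).inj n (v i) (hv i trivial) (congrFun hd i) ⟨w i, hw i trivial, congrFun hwv i⟩
    choose u hu hu' using h1
    exact ⟨u, fun i _ => hu i, funext hu'⟩
  surj n w hw hd := by
    have h1 : ∀ i, ∃ v ∈ gC i n, dC i v = 0 ∧ ∃ u ∈ gD i (n - 1), dD i u = w i - f i v := by
      intro i
      exact (h i).surj n (w i) (hw i trivial) (congrFun hd i)
    choose v hv hv' u hu hu' using h1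
    exact ⟨v, fun i _ => hv i, funext hv', u, fun i _ => hu i, funext hu'⟩

/-- The five lemma for cones, injectivity. -/
theorem cone_inj [CharP k 2] {dA : A →ₗ[k] A} {gA : ℤ → Submodule k A} {dB : B →ₗ[k] B}
    {gB : ℤ → Submodule k B} {dA' : A' →ₗ[k] A'} {gA' : ℤ → Submodule k A'}
    {dB' : B' →ₗ[k] B'} {gB' : ℤ → Submodule k B'}
    {j : A →ₗ[k] B} {j' : A' →ₗ[k] B'} {fA : A →ₗ[k] A'} {fB : B →ₗ[k] B'}
    (hj : ∀ a, j' (fA a) = fB (j a)) (hdj : ∀ a, dB (j a) = j (dA a))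
    (hdj' : ∀ a, dB' (j' a) = j' (dA' a)) (hfA : ∀ a, dA' (fA a) = fA (dA a))
    (hfB : ∀ b, dB' (fB b) = fB (dB b))
    (gj : ∀ n, ∀ a ∈ gA n, j a ∈ gB n) (gj' : ∀ n, ∀ a ∈ gA' n, j' a ∈ gB' n)
    (gfA : ∀ n, ∀ a ∈ gA n, fA a ∈ gA' n) (gfB : ∀ n, ∀ b ∈ gB n, fB b ∈ gB' n)
    (hA : QIc dA gA dA' gA' fA) (hB : QIc dB gB dB' gB' fB)
    {m n : ℤ} (hm : m = n + 1) {a : A} {b : B} (ha : a ∈ gA m) (hb : b ∈ gB n)
    (hda : dA a = 0) (hdb : j a + dB b = 0) {a' : A'} {b' : B'} (ha' : a' ∈ gA' n)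
    (hb' : b' ∈ gB' (n - 1)) (hda' : dA' a' = fA a) (hdb' : j' a' + dB' b' = fB b) :
    ∃ u ∈ gA n, ∃ v ∈ gB (n - 1), dA u = a ∧ j u + dB v = b := by
  subst hm
  have e1 : n + 1 - 1 = n := by ring
  obtain ⟨u1, hu1, hu1'⟩ := hA.inj (n + 1) a ha hda ⟨a', by rw [e1]; exact ha', hda'⟩
  rw [e1] at hu1
  -- `a' - f u1` is a cycle of degree `n`
  obtain ⟨u2, hu2, hu2', w, hw, hw'⟩ := hA.surj n (a' - fA u1)
    (Submodule.sub_mem _ ha' (gfA _ _ hu1)) (by rw [map_sub, hda', hfA, hu1', sub_self])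
  have hcyc : dB (b - j (u1 + u2)) = 0 := by
    rw [map_sub, hdj, map_add, hu1', hu2', add_zero]
    have h1 := add_self_char2 (k := k) (j a)
    have h2 : dB b = j a := by
      rw [← sub_eq_zero]
      calc dB b - j a = (j a + dB b) - (j a + j a) := by abel
        _ = 0 := by rw [hdb, h1, sub_zero]
    rw [h2, sub_self]
  have hbd : dB' (j' w + b') = fB (b - j (u1 + u2)) := by
    rw [map_add, hdj', hw', map_sub fB, ← hdb', ← hj, map_add fA]
    simp only [map_add, map_sub]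
    abel
  obtain ⟨v, hv, hv'⟩ := hB.inj n (b - j (u1 + u2))
    (Submodule.sub_mem _ hb (gj _ _ (Submodule.add_mem _ hu1 hu2))) hcyc
    ⟨j' w + b', Submodule.add_mem _ (gj' _ _ hw) hb', hbd⟩
  refine ⟨u1 + u2, Submodule.add_mem _ hu1 hu2, v, hv, ?_, ?_⟩
  · rw [map_add, hu1', hu2', add_zero]
  · rw [hv']; abel

/-- The five lemma for cones, surjectivity. -/
theorem cone_surj [CharP k 2] {dA : A →ₗ[k] A} {gA : ℤ → Submodule k A} {dB : B →ₗ[k] B}
    {gB : ℤ → Submodule k B} {dA' : A' →ₗ[k] A'} {gA' : ℤ → Submodule k A'}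
    {dB' : B' →ₗ[k] B'} {gB' : ℤ → Submodule k B'}
    {j : A →ₗ[k] B} {j' : A' →ₗ[k] B'} {fA : A →ₗ[k] A'} {fB : B →ₗ[k] B'}
    (hj : ∀ a, j' (fA a) = fB (j a)) (hdj : ∀ a, dB (j a) = j (dA a))
    (hdj' : ∀ a, dB' (j' a) = j' (dA' a)) (hfA : ∀ a, dA' (fA a) = fA (dA a))
    (hfB : ∀ b, dB' (fB b) = fB (dB b))
    (gj : ∀ n, ∀ a ∈ gA n, j a ∈ gB n) (gj' : ∀ n, ∀ a ∈ gA' n, j' a ∈ gB' n)
    (gfA : ∀ n, ∀ a ∈ gA n, fA a ∈ gA' n) (gfB : ∀ n, ∀ b ∈ gB n, fB b ∈ gB' n)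
    (hA : QIc dA gA dA' gA' fA) (hB : QIc dB gB dB' gB' fB)
    {m n : ℤ} (hm : m = n + 1) {a' : A'} {b' : B'} (ha' : a' ∈ gA' m) (hb' : b' ∈ gB' n)
    (hda' : dA' a' = 0) (hdb' : j' a' + dB' b' = 0) :
    ∃ a ∈ gA m, ∃ b ∈ gB n, dA a = 0 ∧ j a + dB b = 0 ∧
      ∃ u ∈ gA' n, ∃ v ∈ gB' (n - 1), dA' u = a' - fA a ∧ j' u + dB' v = b' - fB b := by
  subst hm
  have e1 : n + 1 - 1 = n := by ring
  have neg2 : ∀ x : B', -x = x := fun x =>
    (eq_neg_of_add_eq_zero_left (add_self_char2 (k := k) x)).symm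
  obtain ⟨a, ha, hda, u, hu, hu'⟩ := hA.surj (n + 1) a' ha' hda'
  rw [e1] at hu
  -- `j a` is a cycle which becomes a boundary
  have h1 : dB' (-(b' + j' u)) = fB (j a) := by
    rw [map_neg, map_add, hdj', hu', map_sub, hj]
    have h2 : j' a' = - dB' b' := eq_neg_of_add_eq_zero_left hdb'
    rw [h2]; abel
  have h1' : dB (j a) = 0 := by rw [hdj, hda, map_zero]
  obtain ⟨v0, hv0, hv0'⟩ := hB.inj (n + 1) (j a) (gj _ _ ha) h1'
    ⟨-(b' + j' u), by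
      rw [e1]
      exact Submodule.neg_mem _ (Submodule.add_mem _ hb' (gj' _ _ hu)), h1⟩
  rw [e1] at hv0
  have h3 : dB' (b' + j' u + fB v0) = 0 := by
    rw [map_add, hfB, hv0', ← h1, map_neg]; abel
  obtain ⟨v1, hv1, hdv1, w, hw, hw'⟩ := hB.surj n (b' + j' u + fB v0)
    (Submodule.add_mem _ (Submodule.add_mem _ hb' (gj' _ _ hu)) (gfB _ _ hv0)) h3
  refine ⟨a, ha, v1 - v0, Submodule.sub_mem _ hv1 hv0, hda, ?_, u, hu, w, hw, hu', ?_⟩
  · rw [map_sub, hdv1, hv0']; abel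
  · rw [hw', map_sub]
    have h4 := neg2 (j' u)
    have h5 := add_self_char2 (k := k) (j' u)
    calc j' u + (b' + j' u + fB v0 - fB v1) = (j' u + j' u) + (b' - (fB v1 - fB v0)) := by abel
      _ = _ := by rw [h5, zero_add]

end QIc

/-! ### Strict morphisms -/

namespace HomS

variable {V W U : DG k Γ}

theorem qiAt_iff {φ : HomS V W} {x : X} :
    φ.QIat x ↔ QIc (V.d x) (V.gr x) (W.d x) (W.gr x) (φ.f x) :=
  ⟨fun h => ⟨h.inj, h.surj⟩, fun h => ⟨h.inj, h.surj⟩⟩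

theorem QIat.qic {φ : HomS V W} {x : X} (h : φ.QIat x) :
    QIc (V.d x) (V.gr x) (W.d x) (W.gr x) (φ.f x) := ⟨h.inj, h.surj⟩

theorem QIat.of_qic {φ : HomS V W} {x : X}
    (h : QIc (V.d x) (V.gr x) (W.d x) (W.gr x) (φ.f x)) : φ.QIat x := ⟨h.inj, h.surj⟩

theorem toMor_QI [CharP k 2] {φ : HomS V W} (h : φ.QI) : φ.toMor.QI := h.toMor

theorem id_QI (V : DG k Γ) : (id V).QI := QI.id V

theorem comp_QI {ψ : HomS W U} {φ : HomS V W} (hψ : ψ.QI) (hφ : φ.QI) : (ψ.comp φ).QI :=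
  QI.comp hψ hφ

@[simp] theorem id_f (V : DG k Γ) (x : X) (v : V.V x) : (id V).f x v = v := rfl

@[simp] theorem comp_f (ψ : HomS W U) (φ : HomS V W) (x : X) (v : V.V x) :
    (ψ.comp φ).f x v = ψ.f x (φ.f x v) := rfl

/-- A chain map with a homotopy inverse (on homogeneous elements) at the vertex `x` is a
quasi-isomorphism at `x`. -/
theorem QIat.of_homotopy {φ : HomS V W} {x : X} (g : W.V x → V.V x)
    (g_gr : ∀ {n w}, w ∈ W.gr x n → g w ∈ V.gr x n)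
    (g_d : ∀ {n w}, w ∈ W.gr x n → V.d x (g w) = g (W.d x w))
    (H : V.V x → V.V x) (H_gr : ∀ {n v}, v ∈ V.gr x n → H v ∈ V.gr x (n - 1))
    (H_eq : ∀ {n v}, v ∈ V.gr x n → V.d x v = 0 → V.d x (H v) = v - g (φ.f x v))
    (H' : W.V x → W.V x) (H'_gr : ∀ {n v}, v ∈ W.gr x n → H' v ∈ W.gr x (n - 1))
    (H'_eq : ∀ {n v}, v ∈ W.gr x n → W.d x v = 0 → W.d x (H' v) = v - φ.f x (g v))
    (g_zero : g 0 = 0) : φ.QIat x where
  inj n v hv hd h := by
    obtain ⟨w, hw, hwv⟩ := h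
    refine ⟨H v + g w, Submodule.add_mem _ (H_gr hv) (g_gr hw), ?_⟩
    rw [map_add, H_eq hv hd, g_d hw, hwv]
    abel
  surj n w hw hd := by
    refine ⟨g w, g_gr hw, by rw [g_d hw, hd, g_zero], H' w, H'_gr hw, H'_eq hw hd⟩

/-- The map induced on `N_x`. -/
def nf (φ : HomS V W) (x : X) : V.N x →ₗ[k] W.N x :=
  LinearMap.pi fun p => (φ.f p.1.1).comp (LinearMap.proj p)

@[simp] theorem nf_apply (φ : HomS V W) (x : X) (ν : V.N x) (p : Γ.Nb x) :
    φ.nf x ν p = φ.f p.1.1 (ν p) := rfl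

theorem i_nf (φ : HomS V W) (x : X) (ν : V.N x) : W.i x (φ.nf x ν) = φ.f x (V.i x ν) := by
  rw [DG.i_apply, DG.i_apply, map_sum]
  exact Finset.sum_congr rfl fun p _ => φ.a_f (Γ.symm p.2) (ν p)

theorem j_f (φ : HomS V W) (x : X) (v : V.V x) : W.j x (φ.f x v) = φ.nf x (V.j x v) := by
  funext p
  exact φ.a_f p.2 v

theorem dN_nf (φ : HomS V W) (x : X) (ν : V.N x) : W.dN x (φ.nf x ν) = φ.nf x (V.dN x ν) := by
  funext p
  exact φ.d_f _ _

theorem gr_nf (φ : HomS V W) {x : X} {n : ℤ} {ν : V.N x} (h : ν ∈ V.grN x n) :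
    φ.nf x ν ∈ W.grN x n := DG.mem_grN.2 fun p => φ.gr_f (DG.mem_grN.1 h p)

theorem sg_f (φ : HomS V W) {x y : X} {l : Λ} (v : V.V x) :
    W.sg x y l (φ.f x v) = φ.nf y (V.sg x y l v) := by
  by_cases h : Γ.adj y x l = true
  · rw [DG.sg_of W h, DG.sg_of V h]
    funext p
    rw [nf_apply]
    by_cases hp : p = ⟨(x, l), h⟩
    · subst hp; simp
    · rw [Pi.single_eq_of_ne hp, Pi.single_eq_of_ne hp, map_zero]
  · simp [DG.sg, h]

theorem comp_nf (φ : HomS V W) {x y : X} {l : Λ} (ν : V.N x) :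
    W.comp x y l (φ.nf x ν) = φ.f y (V.comp x y l ν) := by
  by_cases h : Γ.adj x y l = true
  · rw [DG.comp_of h, DG.comp_of h]
    rfl
  · simp [DG.comp, h]

theorem nf_QIc {φ : HomS V W} {x : X} (h : ∀ p : Γ.Nb x, φ.QIat p.1.1) :
    QIc (V.dN x) (V.grN x) (W.dN x) (W.grN x) (φ.nf x) := QIc.pi fun p => qiAt_iff.1 (h p)

/-- The map `(g, ν, v) ↦ (f g, f ν, f v)`. -/
def tf (φ : HomS V W) (x : X) : V.TV x →ₗ[k] W.TV x :=
  (φ.f x).prodMap ((φ.nf x).prodMap (φ.f x))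

@[simp] theorem tf_apply (φ : HomS V W) (x : X) (g : V.V x) (ν : V.N x) (v : V.V x) :
    φ.tf x (g, ν, v) = (φ.f x g, φ.nf x ν, φ.f x v) := rfl

variable {P : X → Prop} [DecidablePred P]

theorem tval_tf (φ : HomS V W) (x : X) (z : V.TV x) :
    W.tval P x (φ.tf x z) = φ.f x (V.tval P x z) := by
  obtain ⟨g, ν, v⟩ := z
  rw [tf_apply]
  by_cases hx : P x
  · rw [DG.tval_of hx, DG.tval_of hx, φ.h_f, φ.i_nf, map_add]
  · rw [DG.tval_not hx, DG.tval_not hx]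

theorem tinc_f (φ : HomS V W) {x y : X} {l : Λ} (h : Γ.adj x y l = true) (v : V.V x) :
    W.tinc P x y l (φ.f x v) = φ.tf y (V.tinc P x y l v) := by
  by_cases hy : P y
  · rw [DG.tinc_of hy, DG.tinc_of hy, tf_apply, φ.sg_f, map_zero]
  · rw [DG.tinc_not hy, DG.tinc_not hy, tf_apply, φ.a_f h, map_zero, map_zero]

theorem uout_tf (φ : HomS V W) {x y : X} {l : Λ} (h : Γ.adj x y l = true) (z : V.TV x) :
    W.uout P x y l (φ.tf x z) = φ.f y (V.uout P x y l z) := by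
  obtain ⟨g, ν, v⟩ := z
  rw [tf_apply]
  by_cases hx : P x
  · rw [DG.uout_of hx, DG.uout_of hx, φ.comp_nf]
  · rw [DG.uout_not hx, DG.uout_not hx, φ.a_f h]

theorem uinc_f (φ : HomS V W) (x : X) (v : V.V x) :
    W.uinc P x (φ.f x v) = φ.tf x (V.uinc P x v) := by
  by_cases hx : P x
  · rw [DG.uinc_of hx, DG.uinc_of hx, tf_apply, φ.h_f, φ.j_f, map_zero]
  · rw [DG.uinc_not hx, DG.uinc_not hx, tf_apply, map_zero, map_zero]

variable (P) in
/-- Functoriality of `twist`. -/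
def twist [CharP k 2] (hP : Indep Γ P) (φ : HomS V W) : HomS (V.twist P hP) (W.twist P hP) where
  f x := φ.tf x
  d_f x z := by
    obtain ⟨g, ν, v⟩ := z
    show W.td x (φ.tf x (g, ν, v)) = φ.tf x (V.td x (g, ν, v))
    rw [tf_apply, DG.td_apply, DG.td_apply, tf_apply, φ.d_f, φ.d_f, φ.j_f, φ.dN_nf, map_add]
  a_f {x y l} h z := by
    have key : ∀ z : V.TV x, W.tinc P x y l (W.tval P x (φ.tf x z)) =
        φ.tf y (V.tinc P x y l (V.tval P x z)) := fun z => by rw [φ.tval_tf, φ.tinc_f h]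
    exact key z
  h_f x z := by
    obtain ⟨g, ν, v⟩ := z
    show W.th P x (φ.tf x (g, ν, v)) = φ.tf x (V.th P x (g, ν, v))
    by_cases hx : P x
    · rw [tf_apply, DG.th_of hx, DG.th_of hx, tf_apply, φ.h_f, φ.i_nf, map_add, map_zero, map_zero]
    · rw [tf_apply, DG.th_not hx, DG.th_not hx, tf_apply, φ.h_f, map_zero, map_zero]
  gr_f {x n z} hz := by
    obtain ⟨g, ν, v⟩ := z
    show φ.tf x (g, ν, v) ∈ W.tgr P x n
    rw [tf_apply]
    by_cases hx : P x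
    · obtain ⟨h1, h2, h3⟩ := (DG.mem_tgr_of hx).1 hz
      exact (DG.mem_tgr_of hx).2 ⟨φ.gr_f h1, φ.gr_nf h2, by rw [h3, map_zero]⟩
    · obtain ⟨h1, h2, h3⟩ := (DG.mem_tgr_not hx).1 hz
      exact (DG.mem_tgr_not hx).2 ⟨by rw [h1, map_zero], by rw [h2, map_zero], φ.gr_f h3⟩

variable (P) in
/-- Functoriality of `twistInv`. -/
def twistInv [CharP k 2] (hP : Indep Γ P) (φ : HomS V W) :
    HomS (V.twistInv P hP) (W.twistInv P hP) where
  f x := φ.tf x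
  d_f x z := by
    obtain ⟨g, ν, v⟩ := z
    show W.ud x (φ.tf x (g, ν, v)) = φ.tf x (V.ud x (g, ν, v))
    rw [tf_apply, DG.ud_apply, DG.ud_apply, tf_apply, φ.d_f, φ.d_f, φ.i_nf, φ.dN_nf, map_add]
  a_f {x y l} h z := by
    have key : ∀ z : V.TV x, W.uinc P y (W.uout P x y l (φ.tf x z)) =
        φ.tf y (V.uinc P y (V.uout P x y l z)) := fun z => by rw [φ.uout_tf h, φ.uinc_f]
    exact key z
  h_f x z := by
    obtain ⟨g, ν, v⟩ := z
    show W.uh P x (φ.tf x (g, ν, v)) = φ.tf x (V.uh P x (g, ν, v))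
    by_cases hx : P x
    · rw [tf_apply, DG.uh_of hx, DG.uh_of hx, tf_apply, φ.h_f, φ.j_f, map_zero]
    · rw [tf_apply, DG.uh_not hx, DG.uh_not hx, tf_apply, φ.h_f, map_zero, map_zero]
  gr_f {x n z} hz := by
    obtain ⟨g, ν, v⟩ := z
    show φ.tf x (g, ν, v) ∈ W.ugr P x n
    rw [tf_apply]
    by_cases hx : P x
    · obtain ⟨h1, h2, h3⟩ := (DG.mem_ugr_of hx).1 hz
      exact (DG.mem_ugr_of hx).2 ⟨φ.gr_f h1, φ.gr_nf h2, by rw [h3, map_zero]⟩
    · obtain ⟨h1, h2, h3⟩ := (DG.mem_ugr_not hx).1 hz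
      exact (DG.mem_ugr_not hx).2 ⟨by rw [h1, map_zero], by rw [h2, map_zero], φ.gr_f h3⟩

/-- `twist` preserves quasi-isomorphisms. -/
theorem twist_QI [CharP k 2] (hP : Indep Γ P) {φ : HomS V W} (h : φ.QI) :
    (φ.twist P hP).QI := by
  intro x
  by_cases hx : P x
  · constructor
    · rintro n ⟨g, ν, v⟩ hz hd ⟨⟨g', ν', v'⟩, hz', hd'⟩
      obtain ⟨h1, h2, rfl⟩ := (DG.mem_tgr_of hx).1 hz
      obtain ⟨h1', h2', rfl⟩ := (DG.mem_tgr_of hx).1 hz'
      rw [sub_add_cancel] at h1'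
      have hd0 : V.td x (g, ν, 0) = 0 := hd
      have hd1 : W.td x (g', ν', 0) = φ.tf x (g, ν, 0) := hd'
      rw [DG.td_apply] at hd0 hd1
      rw [tf_apply] at hd1
      obtain ⟨u, hu, w, hw, hu', hw'⟩ := cone_inj (φ.j_f x) (V.dN_j x) (W.dN_j x) (φ.d_f x)
        (φ.dN_nf x) (fun n a => DG.gr_j) (fun n a => DG.gr_j) (fun n a => φ.gr_f)
        (fun n a => φ.gr_nf) (qiAt_iff.1 (h x)) (nf_QIc fun p => h p.1.1) rfl h1 h2
        (congrArg Prod.fst hd0) (congrArg (fun z => z.2.1) hd0) h1' h2'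
        (congrArg Prod.fst hd1) (congrArg (fun z => z.2.1) hd1)
      refine ⟨(u, w, 0), (DG.mem_tgr_of hx).2 ⟨by rwa [sub_add_cancel], hw, rfl⟩, ?_⟩
      show V.td x (u, w, 0) = _
      rw [DG.td_apply, hu', hw', map_zero]
    · rintro n ⟨g', ν', v'⟩ hz' hd'
      obtain ⟨h1', h2', rfl⟩ := (DG.mem_tgr_of hx).1 hz'
      have hd1 : W.td x (g', ν', 0) = 0 := hd'
      rw [DG.td_apply] at hd1
      obtain ⟨a, ha, b, hb, hda, hdb, u, hu, w, hw, hu', hw'⟩ := cone_surj (φ.j_f x) (V.dN_j x)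
        (W.dN_j x) (φ.d_f x)
        (φ.dN_nf x) (fun n a => DG.gr_j) (fun n a => DG.gr_j) (fun n a => φ.gr_f)
        (fun n a => φ.gr_nf) (qiAt_iff.1 (h x)) (nf_QIc fun p => h p.1.1) rfl h1' h2'
        (congrArg Prod.fst hd1) (congrArg (fun z => z.2.1) hd1)
      refine ⟨(a, b, 0), (DG.mem_tgr_of hx).2 ⟨ha, hb, rfl⟩, ?_, (u, w, 0),
        (DG.mem_tgr_of hx).2 ⟨by rwa [sub_add_cancel], hw, rfl⟩, ?_⟩
      · show V.td x (a, b, 0) = 0
        rw [DG.td_apply, hda, hdb, map_zero]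
        rfl
      · show W.td x (u, w, 0) = (g', ν', 0) - φ.tf x (a, b, 0)
        rw [DG.td_apply, hu', hw', tf_apply, map_zero, map_zero]
        exact Prod.ext rfl (Prod.ext rfl (sub_zero _).symm)
  · constructor
    · rintro n ⟨g, ν, v⟩ hz hd ⟨⟨g', ν', v'⟩, hz', hd'⟩
      obtain ⟨rfl, rfl, h3⟩ := (DG.mem_tgr_not hx).1 hz
      obtain ⟨rfl, rfl, h3'⟩ := (DG.mem_tgr_not hx).1 hz'
      have hd0 : V.td x (0, 0, v) = 0 := hd
      have hd1 : W.td x (0, 0, v') = φ.tf x (0, 0, v) := hd'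
      rw [DG.td_apply] at hd0 hd1
      obtain ⟨u, hu, hu'⟩ := (h x).inj n v h3 (congrArg (fun z => z.2.2) hd0)
        ⟨v', h3', congrArg (fun z => z.2.2) hd1⟩
      refine ⟨(0, 0, u), (DG.mem_tgr_not hx).2 ⟨rfl, rfl, hu⟩, ?_⟩
      show V.td x (0, 0, u) = _
      rw [DG.td_apply, hu']
      simp
    · rintro n ⟨g', ν', v'⟩ hz' hd'
      obtain ⟨rfl, rfl, h3'⟩ := (DG.mem_tgr_not hx).1 hz'
      have hd1 : W.td x (0, 0, v') = 0 := hd'
      rw [DG.td_apply] at hd1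
      obtain ⟨v, hv, hdv, u, hu, hu'⟩ := (h x).surj n v' h3' (congrArg (fun z => z.2.2) hd1)
      refine ⟨(0, 0, v), (DG.mem_tgr_not hx).2 ⟨rfl, rfl, hv⟩, ?_, (0, 0, u),
        (DG.mem_tgr_not hx).2 ⟨rfl, rfl, hu⟩, ?_⟩
      · show V.td x (0, 0, v) = 0
        rw [DG.td_apply, hdv]
        simp
      · show W.td x (0, 0, u) = (0, 0, v') - φ.tf x (0, 0, v)
        rw [DG.td_apply, hu', tf_apply]
        refine Prod.ext ?_ (Prod.ext ?_ rfl)
        · show W.d x 0 = 0 - φ.f x 0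
          simp
        · show W.j x 0 + W.dN x 0 = 0 - φ.nf x 0
          simp

/-- `twistInv` preserves quasi-isomorphisms. -/
theorem twistInv_QI [CharP k 2] (hP : Indep Γ P) {φ : HomS V W} (h : φ.QI) :
    (φ.twistInv P hP).QI := by
  intro x
  by_cases hx : P x
  · constructor
    · rintro n ⟨g, ν, v⟩ hz hd ⟨⟨g', ν', v'⟩, hz', hd'⟩
      obtain ⟨h1, h2, rfl⟩ := (DG.mem_ugr_of hx).1 hz
      obtain ⟨h1', h2', rfl⟩ := (DG.mem_ugr_of hx).1 hz'
      have hd0 : V.ud x (g, ν, 0) = 0 := hd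
      have hd1 : W.ud x (g', ν', 0) = φ.tf x (g, ν, 0) := hd'
      rw [DG.ud_apply] at hd0 hd1
      rw [tf_apply] at hd1
      obtain ⟨u, hu, w, hw, hu', hw'⟩ := cone_inj (m := n) (n := n - 1)
        (φ.i_nf x) (V.d_i x) (W.d_i x) (φ.dN_nf x)
        (φ.d_f x) (fun n a => DG.gr_i) (fun n a => DG.gr_i) (fun n a => φ.gr_nf)
        (fun n a => φ.gr_f) (nf_QIc fun p => h p.1.1) (qiAt_iff.1 (h x)) (by ring) h2 h1
        (congrArg (fun z => z.2.1) hd0) (congrArg Prod.fst hd0) h2' h1'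
        (congrArg (fun z => z.2.1) hd1) (congrArg Prod.fst hd1)
      refine ⟨(w, u, 0), (DG.mem_ugr_of hx).2 ⟨hw, hu, rfl⟩, ?_⟩
      show V.ud x (w, u, 0) = _
      rw [DG.ud_apply, hu', hw', map_zero]
    · rintro n ⟨g', ν', v'⟩ hz' hd'
      obtain ⟨h1', h2', rfl⟩ := (DG.mem_ugr_of hx).1 hz'
      have hd1 : W.ud x (g', ν', 0) = 0 := hd'
      rw [DG.ud_apply] at hd1
      obtain ⟨a, ha, b, hb, hda, hdb, u, hu, w, hw, hu', hw'⟩ := cone_surj (m := n) (n := n - 1)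
        (φ.i_nf x) (V.d_i x) (W.d_i x) (φ.dN_nf x)
        (φ.d_f x) (fun n a => DG.gr_i) (fun n a => DG.gr_i) (fun n a => φ.gr_nf)
        (fun n a => φ.gr_f) (nf_QIc fun p => h p.1.1) (qiAt_iff.1 (h x)) (by ring) h2' h1'
        (congrArg (fun z => z.2.1) hd1) (congrArg Prod.fst hd1)
      refine ⟨(b, a, 0), (DG.mem_ugr_of hx).2 ⟨hb, ha, rfl⟩, ?_, (w, u, 0),
        (DG.mem_ugr_of hx).2 ⟨hw, hu, rfl⟩, ?_⟩
      · show V.ud x (b, a, 0) = 0
        rw [DG.ud_apply, hda, hdb, map_zero]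
        rfl
      · show W.ud x (w, u, 0) = (g', ν', 0) - φ.tf x (b, a, 0)
        rw [DG.ud_apply, hu', hw', tf_apply, map_zero, map_zero]
        exact Prod.ext rfl (Prod.ext rfl (sub_zero _).symm)
  · constructor
    · rintro n ⟨g, ν, v⟩ hz hd ⟨⟨g', ν', v'⟩, hz', hd'⟩
      obtain ⟨rfl, rfl, h3⟩ := (DG.mem_ugr_not hx).1 hz
      obtain ⟨rfl, rfl, h3'⟩ := (DG.mem_ugr_not hx).1 hz'
      have hd0 : V.ud x (0, 0, v) = 0 := hd
      have hd1 : W.ud x (0, 0, v') = φ.tf x (0, 0, v) := hd'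
      rw [DG.ud_apply] at hd0 hd1
      obtain ⟨u, hu, hu'⟩ := (h x).inj n v h3 (congrArg (fun z => z.2.2) hd0)
        ⟨v', h3', congrArg (fun z => z.2.2) hd1⟩
      refine ⟨(0, 0, u), (DG.mem_ugr_not hx).2 ⟨rfl, rfl, hu⟩, ?_⟩
      show V.ud x (0, 0, u) = _
      rw [DG.ud_apply, hu']
      simp
    · rintro n ⟨g', ν', v'⟩ hz' hd'
      obtain ⟨rfl, rfl, h3'⟩ := (DG.mem_ugr_not hx).1 hz'
      have hd1 : W.ud x (0, 0, v') = 0 := hd'
      rw [DG.ud_apply] at hd1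
      obtain ⟨v, hv, hdv, u, hu, hu'⟩ := (h x).surj n v' h3' (congrArg (fun z => z.2.2) hd1)
      refine ⟨(0, 0, v), (DG.mem_ugr_not hx).2 ⟨rfl, rfl, hv⟩, ?_, (0, 0, u),
        (DG.mem_ugr_not hx).2 ⟨rfl, rfl, hu⟩, ?_⟩
      · show V.ud x (0, 0, v) = 0
        rw [DG.ud_apply, hdv]
        simp
      · show W.ud x (0, 0, u) = (0, 0, v') - φ.tf x (0, 0, v)
        rw [DG.ud_apply, hu', tf_apply]
        refine Prod.ext ?_ (Prod.ext ?_ rfl)
        · show W.i x 0 + W.d x 0 = 0 - φ.f x 0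
          simp
        · show W.dN x 0 = 0 - φ.nf x 0
          simp

end HomS

/-! ### Quasi-isomorphism classes -/

theorem Sim.lift {V W : DG k Γ} {F : DG k Γ → DG k Γ}
    (hF : ∀ V W : DG k Γ, ∀ φ : HomS V W, φ.QI → Sim (F V) (F W)) (h : Sim V W) :
    Sim (F V) (F W) := by
  induction h with
  | rel V W h => obtain ⟨φ, hφ⟩ := h; exact hF V W φ hφ
  | refl V => exact Sim.refl _
  | symm V W _ ih => exact ih.symm
  | trans V W U _ _ ih1 ih2 => exact ih1.trans ih2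

theorem Sim.twist [CharP k 2] {P : X → Prop} [DecidablePred P] (hP : Indep Γ P) {V W : DG k Γ}
    (h : Sim V W) : Sim (V.twist P hP) (W.twist P hP) :=
  h.lift (F := fun V => V.twist P hP) fun _ _ φ hφ => Sim.of_hom _ (φ.twist_QI hP hφ)

theorem Sim.twistInv [CharP k 2] {P : X → Prop} [DecidablePred P] (hP : Indep Γ P)
    {V W : DG k Γ} (h : Sim V W) : Sim (V.twistInv P hP) (W.twistInv P hP) :=
  h.lift (F := fun V => V.twistInv P hP) fun _ _ φ hφ => Sim.of_hom _ (φ.twistInv_QI hP hφ)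

/-- Cohomology vanishing is invariant. -/
theorem Sim.HZero_iff [CharP k 2] {V W : DG k Γ} (h : Sim V W) (n : ℤ) (x : X) :
    V.HZero n x ↔ W.HZero n x := by
  rw [DG.hZero_iff, DG.hZero_iff]
  obtain ⟨f, hf⟩ := h.H_isom n
  constructor
  · intro h1 w
    obtain ⟨v, rfl⟩ := (hf x).2 w
    rw [h1 v, map_zero]
  · intro h1 v
    exact (hf x).1 ((h1 _).trans (map_zero _).symm)

/-- The equivalence relation generated by strict quasi-isomorphisms (same as `Sim`). -/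
abbrev QE (V W : DG k Γ) : Prop := Sim V W

namespace QE

variable {V W U : DG k Γ}

theorem of {φ : HomS V W} (h : φ.QI) : QE V W := Sim.of_hom φ h

theorem refl (V : DG k Γ) : QE V V := Sim.refl _

theorem symm (h : QE V W) : QE W V := Sim.symm h

theorem trans (h : QE V W) (h' : QE W U) : QE V U := Sim.trans h h'

theorem lift {F : DG k Γ → DG k Γ} (hF : ∀ V W : DG k Γ, ∀ φ : HomS V W, φ.QI → QE (F V) (F W))
    (h : QE V W) : QE (F V) (F W) := Sim.lift hF h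

theorem twist [CharP k 2] {P : X → Prop} [DecidablePred P] (hP : Indep Γ P) (h : QE V W) :
    QE (V.twist P hP) (W.twist P hP) := Sim.twist hP h

theorem twistInv [CharP k 2] {P : X → Prop} [DecidablePred P] (hP : Indep Γ P) (h : QE V W) :
    QE (V.twistInv P hP) (W.twistInv P hP) := Sim.twistInv hP h

theorem H_isom [CharP k 2] (h : QE V W) (n : ℤ) : PMod.Isom (DG.H n V) (DG.H n W) :=
  Sim.H_isom h n

theorem HZero_iff [CharP k 2] (h : QE V W) (n : ℤ) (x : X) : V.HZero n x ↔ W.HZero n x :=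
  Sim.HZero_iff h n x

end QE

end Vale.Agent.P203.Dg
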