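import Vale.Agent.P203.Dg.Union
import Vale.Agent.P203.Dg.Fin
import Vale.Agent.P203.Dg.Funct
import Vale.Agent.P203.Dg.CohTwist
import Vale.Agent.P203.Unf.Artin
import Vale.Agent.P203.Unf.Framed
import Vale.Agent.P203.Gar.Lcm
import Vale.Agent.P203.Fold.HSys

/-!
# P203, block ALG-E: the action of the Artin group on quasi-isomorphism classes of dg modules,
and the theorem `algMain` (interface `Fold.AlgMain`), from the facts `TwistFacts` on the twists.
-/

set_option linter.all false

namespace Vale.Agent.P203.Dg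

open Vale.Agent.P203.Mod Vale.Agent.P203.Unf

variable {C X Λ : Type} [Fintype X] [DecidableEq X] [Fintype Λ] [DecidableEq Λ] [DecidableEq C]

theorem indep_single (Γ : FGraph C X Λ) (x : X) : Indep Γ (fun y => y = x) := by
  intro a b l h ha hb
  subst ha
  exact Γ.indep h (by rw [hb])

theorem indep_color (Γ : FGraph C X Λ) (c : C) : Indep Γ (fun y => Γ.π y = c) := by
  intro a b l h ha hb
  exact Γ.indep h (ha.trans hb.symm)

/-- The facts about the twists used for the action. -/
structure TwistFacts (k : Type) [Field k] [CharP k 2] (Γ : FGraph C X Λ) : Prop where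
  inv1 : ∀ (P : X → Prop) [DecidablePred P] (hP : Indep Γ P) (V : DG k Γ),
    Sim ((V.twistInv P hP).twist P hP) V
  inv2 : ∀ (P : X → Prop) [DecidablePred P] (hP : Indep Γ P) (V : DG k Γ),
    Sim ((V.twist P hP).twistInv P hP) V
  braid : ∀ (r s : X) (l0 : Λ), (∀ l, Γ.adj r s l = true ↔ l = l0) → ∀ V : DG k Γ,
    Sim (((V.twist (fun y => y = r) (indep_single Γ r)).twist (fun y => y = s)
        (indep_single Γ s)).twist (fun y => y = r) (indep_single Γ r))
      (((V.twist (fun y => y = s) (indep_single Γ s)).twist (fun y => y = r)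
        (indep_single Γ r)).twist (fun y => y = s) (indep_single Γ s))

variable {k : Type} [Field k] [CharP k 2] {Γ : FGraph C X Λ}

/-- quasi-isomorphism classes -/
abbrev Cl (k : Type) [Field k] (Γ : FGraph C X Λ) : Type 1 := Quotient (simSetoid k Γ)

/-- the class of a dg module -/
def cl (V : DG k Γ) : Cl k Γ := Quotient.mk _ V

theorem cl_eq {V W : DG k Γ} : cl V = cl W ↔ Sim V W :=
  ⟨fun h => Quotient.exact h, fun h => Quotient.sound h⟩

namespace TwistFacts

variable (F : TwistFacts k Γ)

/-- the twist as a permutation of the classes -/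
def perm (P : X → Prop) [DecidablePred P] (hP : Indep Γ P) : Equiv.Perm (Cl k Γ) where
  toFun := Quotient.map (fun V => V.twist P hP) fun V W h => Sim.twist hP h
  invFun := Quotient.map (fun V => V.twistInv P hP) fun V W h => Sim.twistInv hP h
  left_inv c := by
    induction c using Quotient.inductionOn with
    | _ V => exact Quotient.sound (F.inv2 P hP V)
  right_inv c := by
    induction c using Quotient.inductionOn with
    | _ V => exact Quotient.sound (F.inv1 P hP V)

theorem perm_cl (P : X → Prop) [DecidablePred P] (hP : Indep Γ P) (V : DG k Γ) :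
    F.perm P hP (cl V) = cl (V.twist P hP) := rfl

theorem perm_inv_cl (P : X → Prop) [DecidablePred P] (hP : Indep Γ P) (V : DG k Γ) :
    (F.perm P hP)⁻¹ (cl V) = cl (V.twistInv P hP) := rfl

theorem ext_cl {f g : Equiv.Perm (Cl k Γ)} (h : ∀ V, f (cl V) = g (cl V)) : f = g := by
  ext c
  induction c using Quotient.inductionOn with
  | _ V => exact h V

/-- the twist at one vertex -/
def vperm (x : X) : Equiv.Perm (Cl k Γ) := F.perm (fun y => y = x) (indep_single Γ x)

theorem vperm_comm {x y : X} (h : ∀ l, Γ.adj x y l = false) : Commute (F.vperm x) (F.vperm y) := by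
  by_cases hxy : x = y
  · subst hxy; exact Commute.refl _
  refine ext_cl fun V => ?_
  change cl ((V.twist _ _).twist _ _) = cl ((V.twist _ _).twist _ _)
  rw [cl_eq]
  refine V.sim_comm (indep_single Γ x) (indep_single Γ y) ?_ ?_
  · intro a b l hab ha hb
    rcases ha with rfl | rfl <;> rcases hb with rfl | rfl
    · exact Γ.indep hab rfl
    · rw [h l] at hab; exact absurd hab (by simp)
    · have := Γ.symm hab
      rw [h l] at this
      exact absurd this (by simp)
    · exact Γ.indep hab rfl
  · rintro z rfl h'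
    exact hxy h'

theorem vperm_braid {x y : X} {l0 : Λ} (h : ∀ l, Γ.adj x y l = true ↔ l = l0) :
    F.vperm x * F.vperm y * F.vperm x = F.vperm y * F.vperm x * F.vperm y := by
  refine ext_cl fun V => ?_
  change cl (((V.twist _ _).twist _ _).twist _ _) = cl (((V.twist _ _).twist _ _).twist _ _)
  rw [cl_eq]
  exact F.braid x y l0 h V

theorem prod_vperm (l : List X) (hl : l.Nodup) (hP : Indep Γ (fun y => y ∈ l)) :
    (l.map F.vperm).prod = F.perm (fun y => y ∈ l) hP := by
  induction l with
  | nil =>
    refine ext_cl fun V => ?_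
    rw [List.map_nil, List.prod_nil, perm_cl]
    change cl V = _
    rw [cl_eq]
    exact V.sim_empty hP (by simp)
  | cons x l ih =>
    have hP' : Indep Γ (fun y => y ∈ l) := fun a b m h ha hb =>
      hP a b m h (List.mem_cons_of_mem _ ha) (List.mem_cons_of_mem _ hb)
    have hR : Indep Γ (fun y => y = x ∨ y ∈ l) := fun a b m h ha hb =>
      hP a b m h (by simpa using ha) (by simpa using hb)
    rw [List.map_cons, List.prod_cons, ih (List.nodup_cons.1 hl).2 hP']
    refine ext_cl fun V => ?_
    change cl ((V.twist _ _).twist _ _) = cl (V.twist _ _)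
    rw [cl_eq, V.twist_congr hP hR (fun y => by simp)]
    refine (V.sim_union (indep_single Γ x) hP' hR ?_).symm
    rintro z rfl h'
    exact (List.nodup_cons.1 hl).1 h'

theorem perm_congr {P P' : X → Prop} [DecidablePred P] [DecidablePred P']
    (hP : Indep Γ P) (hP' : Indep Γ P') (h : ∀ x, P x ↔ P' x) :
    F.perm P hP = F.perm P' hP' := by
  refine ext_cl fun V => ?_
  rw [perm_cl, perm_cl, V.twist_congr hP hP' h]

end TwistFacts

/-- the unfolding graph of `M` embedded in `Γ` -/
structure UnfEmb {S : Type} (M : CoxeterMatrix S) (Γ : FGraph C X Λ) (col : S → C) where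
  /-- the embedding -/
  ι : Vtx M → X
  inj : Function.Injective ι
  fib : ∀ y s, Γ.π y = col s ↔ ∃ i, y = ι (s, i)
  zero : ∀ x y, nadj x y = 0 → ∀ l, Γ.adj (ι x) (ι y) l = false
  one : ∀ x y, nadj x y = 1 → ∃ l0, ∀ l, Γ.adj (ι x) (ι y) l = true ↔ l = l0

section

variable {S : Type} {M : CoxeterMatrix S} {col : S → C} [Fintype (Idx M)]
  (F : TwistFacts k Γ) (E : UnfEmb M Γ col)

theorem slRel : SLRel (fun x : Vtx M => F.vperm (E.ι x)) where
  comm x y h := F.vperm_comm (E.zero x y h)
  braid x y h := by
    obtain ⟨l0, hl⟩ := E.one x y h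
    exact F.vperm_braid hl

/-- the homomorphism from the Artin group to the permutations of the classes -/
noncomputable def actHom : ArtinGroup M →* Equiv.Perm (Cl k Γ) := toHom (slRel F E)

theorem actHom_gen (s : S) :
    actHom F E (artinGen M s) = F.perm (fun y => Γ.π y = col s) (indep_color Γ (col s)) := by
  classical
  have hl : ((Finset.univ : Finset (Idx M)).toList.map fun i => E.ι (s, i)).Nodup := by
    refine List.Nodup.map ?_ (Finset.nodup_toList _)
    intro i j hij
    have := E.inj hij
    simpa using this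
  have hmem : ∀ y, y ∈ ((Finset.univ : Finset (Idx M)).toList.map fun i => E.ι (s, i)) ↔
      Γ.π y = col s := by
    intro y
    rw [E.fib]
    simp [eq_comm]
  have hP : Indep Γ (fun y => y ∈ ((Finset.univ : Finset (Idx M)).toList.map
      fun i => E.ι (s, i))) := fun a b l h ha hb =>
    indep_color Γ (col s) a b l h ((hmem a).1 ha) ((hmem b).1 hb)
  rw [actHom, toHom_gen, FF_eq_list (slRel F E), ← F.perm_congr hP (indep_color Γ (col s)) hmem,
    ← F.prod_vperm _ hl hP, List.map_map]
  rfl

/-- the class of `g⁻¹ G` -/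
noncomputable def cls (G : DG k Γ) (g : ArtinGroup M) : Cl k Γ := actHom F E (Gar.rev g) (cl G)

theorem cls_one (G : DG k Γ) : cls F E G 1 = cl G := by
  rw [cls, Gar.rev_one, map_one]; rfl

theorem cls_mul (G : DG k Γ) (g : ArtinGroup M) (s : S) :
    cls F E G (g * artinGen M s) =
      F.perm (fun y => Γ.π y = col s) (indep_color Γ (col s)) (cls F E G g) := by
  rw [cls, cls, Gar.rev_mul, Gar.rev_gen, map_mul, actHom_gen]
  rfl

theorem cls_mul_inv (G : DG k Γ) (g : ArtinGroup M) (s : S) :
    cls F E G (g * (artinGen M s)⁻¹) =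
      (F.perm (fun y => Γ.π y = col s) (indep_color Γ (col s)))⁻¹ (cls F E G g) := by
  rw [cls, cls, Gar.rev_mul, Gar.rev_inv, Gar.rev_gen, map_mul, map_inv, actHom_gen]
  rfl

omit [Fintype (Idx M)] in
theorem artin_induction {p : ArtinGroup M → Prop} (one : p 1)
    (mul : ∀ a x, p a → p (a * artinGen M x))
    (mul_inv : ∀ a x, p a → p (a * (artinGen M x)⁻¹)) (a : ArtinGroup M) : p a := by
  have h : a ∈ Subgroup.closure (Set.range (artinGen M)) := by
    have : Subgroup.closure (Set.range (artinGen M)) = ⊤ := PresentedGroup.closure_range_of _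
    rw [this]; exact Subgroup.mem_top a
  refine Subgroup.closure_induction_right (p := fun a _ => p a) one ?_ ?_ h
  · rintro a _ _ ⟨x, rfl⟩ h
    exact mul a x h
  · rintro a _ _ ⟨x, rfl⟩ h
    exact mul_inv a x h

theorem exists_rep {G : DG k Γ} (hG : G.Fine) (g : ArtinGroup M) :
    ∃ W : DG k Γ, W.Fine ∧ cl W = cls F E G g := by
  induction g using artin_induction with
  | one => exact ⟨G, hG, (cls_one F E G).symm⟩
  | mul a x ih =>
    obtain ⟨W, hW, hc⟩ := ih
    exact ⟨W.twist _ (indep_color Γ (col x)), hW.twist, by rw [cls_mul, ← hc, F.perm_cl]⟩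
  | mul_inv a x ih =>
    obtain ⟨W, hW, hc⟩ := ih
    exact ⟨W.twistInv _ (indep_color Γ (col x)), hW.twistInv, by
      rw [cls_mul_inv, ← hc, F.perm_inv_cl]⟩

end

theorem cohOff (c : C) (V : DG k Γ) (n : ℤ) (x : X) (hx : Γ.π x ≠ c) :
    (DG.H n (V.twist (fun y => Γ.π y = c) (indep_color Γ c))).dim x = (DG.H n V).dim x :=
  LinearEquiv.finrank_eq (LinearEquiv.ofBijective _
    (DG.Htval_bij (P := fun y => Γ.π y = c) (indep_color Γ c) V hx))

open Fold in
/-- **Main theorem of ALG.** -/
theorem algMain {S : Type} [Fintype S] [DecidableEq S] {M : CoxeterMatrix S} {col : S → C}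
    [Fintype (Idx M)] (F : TwistFacts k Γ) (E : UnfEmb M Γ col) : AlgMain k M Γ col := by
  intro V hfd hn
  have hG : (DG.ofPMod V).Fine := DG.ofPMod_fine (fun x => hfd.out x) hn
  choose W hW hc using exists_rep F E hG
  have hstep : ∀ a s, Sim (W (a * artinGen M s))
      ((W a).twist (fun y => Γ.π y = col s) (indep_color Γ (col s))) := by
    intro a s
    rw [← cl_eq, hc, cls_mul, ← hc, F.perm_cl]
  have hone : Sim (W 1) (DG.ofPMod V) := by
    rw [← cl_eq, hc, cls_one]
  refine ⟨fun a n => DG.H n (W a), ⟨?_, ?_, ?_, ?_, ?_⟩, ?_, ?_⟩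
  · exact fun a n => ⟨fun x => (hW a).H_fd n x⟩
  · exact fun a n => (hW a).H_nilp n
  · intro a
    obtain ⟨N, hN⟩ := (hW a).H_bdd
    exact ⟨N, fun n hn x => hN n (Or.inr hn) x⟩
  · intro a n s h
    refine ((hstep a s).H_isom n).trans (DG.twist_isom (col s) (W a) fun x hx => ?_)
    rw [DG.hZero_iff]
    intro v
    haveI := h x hx
    exact Subsingleton.elim _ _
  · intro a n s x hx
    rw [PMod.dim_eq_of_isom ((hstep a s).H_isom n) x, cohOff (col s) (W a) n x hx]
  · exact (hone.H_isom 0).trans (DG.H_ofPMod_isom V)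
  · intro n hn x
    rw [subsingleton_iff_of_isom (hone.H_isom n) x]
    exact DG.H_ofPMod_subsingleton V hn x

end Vale.Agent.P203.Dg
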