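import Vale.Agent.P203.Dg.BObj

/-!
# The object `B(V; r, s)` as a dg module
-/

set_option linter.all false

namespace Vale.Agent.P203.Dg

open Vale.Agent.P203.Mod

variable {S X Λ : Type} [Fintype X] [DecidableEq X] [Fintype Λ] [DecidableEq Λ] [DecidableEq S]
variable {k : Type} [Field k] {Γ : FGraph S X Λ}

namespace DG

/-- `d` commutes with the outer map `y → r` -/
theorem Bd_sg_r (V : DG k Γ) {r s y : X} {l m : Λ} (v : V.V y) :
    V.Bd r s l r (0, 0, V.sg y r m v, 0, 0) = (0, 0, V.sg y r m (V.d y v), 0, 0) := by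
  rw [Bd_r]
  simp only [map_zero, zero_add, V.dN_sg]

theorem Bd_sg_s (V : DG k Γ) {r s y : X} {l m : Λ} (hne : r ≠ s) (v : V.V y) :
    V.Bd r s l s (0, 0, 0, V.sg y s m v, 0) = (0, 0, 0, V.sg y s m (V.d y v), 0) := by
  rw [Bd_s hne]
  simp only [map_zero, zero_add, V.dN_sg]

/-- `κ_r` and `q` : the identity behind `d q^B = q^B d` -/
theorem out_kap [CharP k 2] (V : DG k Γ) {r s : X} {l : Λ} (hl : Single Γ r s l) (g : V.V r)
    (ξ : V.N r) :
    V.cut r s (V.j r (V.a s r l (V.a r s l g))) + V.dN r (V.cut r s (V.j r (V.kap r s (g, ξ)))) =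
      V.cut r s (V.j r (V.kap r s (V.d r g, V.cut r s (V.j r g) + V.dN r ξ))) := by
  rw [← V.kap_d hl g ξ, V.dN_cut, V.dN_j, map_add, map_add, add_assoc,
    add_self_char2 (k := k), add_zero]

theorem B_d_a [CharP k 2] (V : DG k Γ) {r s : X} {l : Λ} (hl : Single Γ r s l) {x y : X} {m : Λ}
    (hxy : Γ.adj x y m = true) (z : V.BV r s x) :
    V.Bd r s l y (V.Ba r s l x y m z) = V.Ba r s l x y m (V.Bd r s l x z) := by
  obtain ⟨g, u, ξ, η, v⟩ := z
  have hne := hl.ne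
  have hxyne : x ≠ y := fun h => Γ.indep hxy (by rw [h])
  by_cases hxr : x = r
  · subst hxr
    by_cases hys : y = s
    · subst hys
      rw [Ba_rs, Bd_s hne, Bd_r, Ba_rs]
      have h1 : V.d x (V.a y x l u) = V.a y x l (V.d y u) := V.d_a (Γ.symm hl.adj) u
      have h2 := V.out_kap hl.symm u η
      rw [h1, h2, map_zero]
    · rw [Ba_ry hys, Bd_r, Ba_ry hys, V.Bor_d hl,
        Bd_x (Ne.symm hxyne) hys]
      simp only [map_zero, V.d_a hxy]
  · by_cases hxs : x = s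
    · subst hxs
      by_cases hyr : y = r
      · subst hyr
        rw [Ba_sr hne, Bd_r, Bd_s hne, Ba_sr hne]
        have h1 : V.d x (V.a y x l g) = V.a y x l (V.d y g) := V.d_a hl.adj g
        have h2 := V.out_kap hl g ξ
        rw [h1, h2, map_zero]
      · rw [Ba_sy hne hyr, Bd_s hne, Ba_sy hne hyr, V.Bor_d hl.symm,
          Bd_x hyr (Ne.symm hxyne)]
        simp only [map_zero, V.d_a hxy]
    · by_cases hyr : y = r
      · subst hyr
        rw [Ba_yr hxr hxs, Bd_x hxr hxs, Ba_yr hxr hxs, Bd_sg_r]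
      · by_cases hys : y = s
        · subst hys
          rw [Ba_ys hne hxr hxs, Bd_x hxr hxs,
            Ba_ys hne hxr hxs, Bd_sg_s V hne]
        · rw [Ba_yz hxr hxs hyr hys, Bd_x hxr hxs,
            Ba_yz hxr hxs hyr hys, Bd_x hyr hys]
          simp only [map_zero, V.d_a hxy]

/-- the inclusion of the outer part at `r` -/
def Ein3 (V : DG k Γ) (r s x : X) : V.N r →ₗ[k] V.BV r s x :=
  (LinearMap.inr k _ _).comp ((LinearMap.inr k _ _).comp (LinearMap.inl k _ _))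

/-- the inclusion of the outer part at `s` -/
def Ein4 (V : DG k Γ) (r s x : X) : V.N s →ₗ[k] V.BV r s x :=
  (LinearMap.inr k _ _).comp ((LinearMap.inr k _ _).comp
    ((LinearMap.inr k _ _).comp (LinearMap.inl k _ _)))

/-- the inclusion of the last component -/
def Ein5 (V : DG k Γ) (r s x : X) : V.V x →ₗ[k] V.BV r s x :=
  (LinearMap.inr k _ _).comp ((LinearMap.inr k _ _).comp
    ((LinearMap.inr k _ _).comp (LinearMap.inr k _ _)))

theorem B_rel [CharP k 2] (V : DG k Γ) {r s : X} {l : Λ} (hl : Single Γ r s l) (x : X)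
    (z : V.BV r s x) : ∑ p : Γ.Nb x, V.Ba r s l p.1.1 x p.1.2 (V.Ba r s l x p.1.1 p.1.2 z) =
      V.Bd r s l x (V.Bh r s x z) + V.Bh r s x (V.Bd r s l x z) := by
  obtain ⟨g, u, ξ, η, v⟩ := z
  have hne := hl.ne
  by_cases hxr : x = r
  · subst hxr
    rw [hl.sum]
    have h1 : ∀ p : Γ.Nb x, (if p.1.1 = s then 0 else V.Ba x s l p.1.1 x p.1.2
        (V.Ba x s l x p.1.1 p.1.2 (g, u, ξ, η, v))) =
        V.Ein3 x s x (if p.1.1 = s then 0 else
          V.sg p.1.1 x p.1.2 (V.j x (V.Bor x s l (u, ξ, η)) p)) := by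
      intro p
      split_ifs with hp
      · rw [map_zero]
      · rw [Ba_ry hp, Ba_yr (nb_ne p) hp]
        rfl
    rw [Finset.sum_congr rfl fun p _ => h1 p, ← map_sum, sum_cut]
    have h2 : V.Ba x s l s x l (V.Ba x s l x s l (g, u, ξ, η, v)) =
        (0, V.a x s l (V.a s x l u), V.cut x s (V.j x (V.kap x s (V.a s x l u, ξ))),
          V.cut s x (V.j s (V.kap s x (u, η))), 0) := by
      rw [Ba_rs, Ba_sr hne]
    have h3 : V.Ein3 x s x (V.cut x s (V.j x (V.Bor x s l (u, ξ, η)))) =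
        (0, 0, V.cut x s (V.j x (V.kap x s (V.a s x l u, ξ))) +
          V.cut x s (V.j x (V.a s x l (V.kap s x (u, η)))), 0, 0) := by
      rw [Bor_apply, map_add, map_add]; rfl
    rw [show V.Ba x s l hl.p.1.1 x hl.p.1.2 (V.Ba x s l x hl.p.1.1 hl.p.1.2 (g, u, ξ, η, v)) =
      V.Ba x s l s x l (V.Ba x s l x s l (g, u, ξ, η, v)) from rfl, h2, h3,
      Bh_r hne, Bd_r, Bd_r, Bh_r hne, ← V.kap_d hl.symm u η]
    simp only [Prod.mk_add_mk, map_zero, add_zero, zero_add]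
    refine Prod.ext rfl (Prod.ext (add_comm _ _) (Prod.ext ?_ rfl))
    change _ + (_ + _) = _
    rw [← add_assoc, add_self_char2 (k := k), zero_add]
  · by_cases hxs : x = s
    · subst hxs
      rw [hl.symm.sum]
      have h1 : ∀ p : Γ.Nb x, (if p.1.1 = r then 0 else V.Ba r x l p.1.1 x p.1.2
          (V.Ba r x l x p.1.1 p.1.2 (g, u, ξ, η, v))) =
          V.Ein4 r x x (if p.1.1 = r then 0 else
            V.sg p.1.1 x p.1.2 (V.j x (V.Bor x r l (g, η, ξ)) p)) := by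
        intro p
        split_ifs with hp
        · rw [map_zero]
        · rw [Ba_sy hne hp, Ba_ys hne hp (nb_ne p)]
          rfl
      rw [Finset.sum_congr rfl fun p _ => h1 p, ← map_sum, sum_cut]
      have h2 : V.Ba r x l r x l (V.Ba r x l x r l (g, u, ξ, η, v)) =
          (V.a x r l (V.a r x l g), 0, V.cut r x (V.j r (V.kap r x (g, ξ))),
            V.cut x r (V.j x (V.kap x r (V.a r x l g, η))), 0) := by
        rw [Ba_sr hne, Ba_rs]
      have h3 : V.Ein4 r x x (V.cut x r (V.j x (V.Bor x r l (g, η, ξ)))) =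
          (0, 0, 0, V.cut x r (V.j x (V.kap x r (V.a r x l g, η))) +
            V.cut x r (V.j x (V.a r x l (V.kap r x (g, ξ)))), 0) := by
        rw [Bor_apply, map_add, map_add]; rfl
      rw [show V.Ba r x l hl.symm.p.1.1 x hl.symm.p.1.2
        (V.Ba r x l x hl.symm.p.1.1 hl.symm.p.1.2 (g, u, ξ, η, v)) =
        V.Ba r x l r x l (V.Ba r x l x r l (g, u, ξ, η, v)) from rfl, h2, h3,
        Bh_s hne, Bd_s hne, Bd_s hne, Bh_s hne, ← V.kap_d hl g ξ]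
      simp only [Prod.mk_add_mk, map_zero, add_zero, zero_add]
      refine Prod.ext (add_comm _ _) (Prod.ext rfl (Prod.ext rfl (Prod.ext ?_ rfl)))
      change _ + (_ + _) = _
      rw [← add_assoc, add_self_char2 (k := k), zero_add]
    · have h1 : ∀ p : Γ.Nb x, V.Ba r s l p.1.1 x p.1.2
          (V.Ba r s l x p.1.1 p.1.2 (g, u, ξ, η, v)) =
          V.Ein5 r s x (V.a p.1.1 x p.1.2 (V.a x p.1.1 p.1.2 v)) := by
        intro p
        obtain ⟨⟨y, m⟩, hm⟩ := p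
        simp only
        by_cases hyr : y = r
        · subst hyr
          rw [Ba_yr hxr hxs, Ba_ry hxs, V.Bor_sg₁ hxs hm]
          rfl
        · by_cases hys : y = s
          · subst hys
            rw [Ba_ys hne hxr hxs, Ba_sy hne hxr, V.Bor_sg₁ hxr hm]
            rfl
          · rw [Ba_yz hxr hxs hyr hys, Ba_yz hyr hys hxr hxs]
            rfl
      rw [Finset.sum_congr rfl fun p _ => h1 p, ← map_sum, V.rel, Bh_x hxr hxs,
        Bd_x hxr hxs, Bd_x hxr hxs, Bh_x hxr hxs]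
      simp only [Prod.mk_add_mk, map_zero, add_zero]
      rfl

/-- The grading of `B`. -/
def Bgr (V : DG k Γ) (r s x : X) (n : ℤ) : Submodule k (V.BV r s x) :=
  if x = r then (⊥ : Submodule k (V.V r)).prod ((V.gr s (n + 1)).prod
    ((V.xgr r s n).prod ((V.xgr s r n).prod ⊥)))
  else if x = s then (V.gr r (n + 1)).prod ((⊥ : Submodule k (V.V s)).prod
    ((V.xgr r s n).prod ((V.xgr s r n).prod ⊥)))
  else (⊥ : Submodule k (V.V r)).prod ((⊥ : Submodule k (V.V s)).prod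
    ((⊥ : Submodule k (V.N r)).prod ((⊥ : Submodule k (V.N s)).prod (V.gr x n))))

theorem mem_Bgr_r {V : DG k Γ} {r s : X} {n : ℤ} {g : V.V r} {u : V.V s} {ξ : V.N r}
    {η : V.N s} {v : V.V r} : ((g, u, ξ, η, v) : V.BV r s r) ∈ V.Bgr r s r n ↔
      g = 0 ∧ u ∈ V.gr s (n + 1) ∧ ξ ∈ V.xgr r s n ∧ η ∈ V.xgr s r n ∧ v = 0 := by
  simp [Bgr]

theorem mem_Bgr_s {V : DG k Γ} {r s : X} (hne : r ≠ s) {n : ℤ} {g : V.V r} {u : V.V s}
    {ξ : V.N r} {η : V.N s} {v : V.V s} : ((g, u, ξ, η, v) : V.BV r s s) ∈ V.Bgr r s s n ↔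
      g ∈ V.gr r (n + 1) ∧ u = 0 ∧ ξ ∈ V.xgr r s n ∧ η ∈ V.xgr s r n ∧ v = 0 := by
  simp [Bgr, hne.symm]

theorem mem_Bgr_x {V : DG k Γ} {r s x : X} (hr : x ≠ r) (hs : x ≠ s) {n : ℤ} {g : V.V r}
    {u : V.V s} {ξ : V.N r} {η : V.N s} {v : V.V x} :
    ((g, u, ξ, η, v) : V.BV r s x) ∈ V.Bgr r s x n ↔
      g = 0 ∧ u = 0 ∧ ξ = 0 ∧ η = 0 ∧ v ∈ V.gr x n := by
  simp [Bgr, hr, hs]

theorem gr_Bor {V : DG k Γ} {r s : X} {l : Λ} (hl : Single Γ r s l) {n : ℤ} {u : V.V s}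
    {ξ : V.N r} {η : V.N s} (hu : u ∈ V.gr s (n + 1)) (hξ : ξ ∈ V.grN r n)
    (hη : η ∈ V.grN s n) : V.Bor r s l (u, ξ, η) ∈ V.gr r n := by
  rw [Bor_apply]
  exact Submodule.add_mem _ (gr_kap (V.gr_a (Γ.symm hl.adj) hu) hξ)
    (V.gr_a (Γ.symm hl.adj) (gr_kap hu hη))

theorem B_gr_d {V : DG k Γ} {r s : X} {l : Λ} (hl : Single Γ r s l) {x : X} {n : ℤ}
    {z : V.BV r s x} (hz : z ∈ V.Bgr r s x n) : V.Bd r s l x z ∈ V.Bgr r s x (n + 1) := by
  obtain ⟨g, u, ξ, η, v⟩ := z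
  have hne := hl.ne
  by_cases hxr : x = r
  · subst hxr
    obtain ⟨rfl, hu, hξ, hη, rfl⟩ := mem_Bgr_r.1 hz
    rw [Bd_r, mem_Bgr_r]
    refine ⟨map_zero _, V.gr_d hu, Submodule.add_mem _ (xgr_cut (gr_j
      (V.gr_a (Γ.symm hl.adj) hu))) (xgr_dN hξ), Submodule.add_mem _ (xgr_cut (gr_j hu))
      (xgr_dN hη), map_zero _⟩
  · by_cases hxs : x = s
    · subst hxs
      obtain ⟨hg, rfl, hξ, hη, rfl⟩ := (mem_Bgr_s hne).1 hz
      rw [Bd_s hne, mem_Bgr_s hne]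
      refine ⟨V.gr_d hg, map_zero _, Submodule.add_mem _ (xgr_cut (gr_j hg)) (xgr_dN hξ),
        Submodule.add_mem _ (xgr_cut (gr_j (V.gr_a hl.adj hg))) (xgr_dN hη), map_zero _⟩
    · obtain ⟨rfl, rfl, rfl, rfl, hv⟩ := (mem_Bgr_x hxr hxs).1 hz
      rw [Bd_x hxr hxs, mem_Bgr_x hxr hxs]
      exact ⟨map_zero _, map_zero _, map_zero _, map_zero _, V.gr_d hv⟩

theorem B_gr_h {V : DG k Γ} {r s : X} {l : Λ} (hl : Single Γ r s l) {x : X} {n : ℤ}
    {z : V.BV r s x} (hz : z ∈ V.Bgr r s x n) : V.Bh r s x z ∈ V.Bgr r s x (n - 1) := by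
  obtain ⟨g, u, ξ, η, v⟩ := z
  have hne := hl.ne
  by_cases hxr : x = r
  · subst hxr
    obtain ⟨rfl, hu, hξ, hη, rfl⟩ := mem_Bgr_r.1 hz
    rw [Bh_r hne, mem_Bgr_r, sub_add_cancel]
    exact ⟨rfl, gr_kap hu (mem_xgr.1 hη).1, Submodule.zero_mem _, Submodule.zero_mem _, rfl⟩
  · by_cases hxs : x = s
    · subst hxs
      obtain ⟨hg, rfl, hξ, hη, rfl⟩ := (mem_Bgr_s hne).1 hz
      rw [Bh_s hne, mem_Bgr_s hne, sub_add_cancel]
      exact ⟨gr_kap hg (mem_xgr.1 hξ).1, rfl, Submodule.zero_mem _, Submodule.zero_mem _, rfl⟩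
    · obtain ⟨rfl, rfl, rfl, rfl, hv⟩ := (mem_Bgr_x hxr hxs).1 hz
      rw [Bh_x hxr hxs, mem_Bgr_x hxr hxs]
      exact ⟨rfl, rfl, rfl, rfl, V.gr_h hv⟩

theorem B_gr_a {V : DG k Γ} {r s : X} {l : Λ} (hl : Single Γ r s l) {x y : X} {m : Λ} {n : ℤ}
    {z : V.BV r s x} (hxy : Γ.adj x y m = true) (hz : z ∈ V.Bgr r s x n) :
    V.Ba r s l x y m z ∈ V.Bgr r s y n := by
  obtain ⟨g, u, ξ, η, v⟩ := z
  have hne := hl.ne
  have hxyne : x ≠ y := fun h => Γ.indep hxy (by rw [h])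
  by_cases hxr : x = r
  · subst hxr
    obtain ⟨rfl, hu, hξ, hη, rfl⟩ := mem_Bgr_r.1 hz
    by_cases hys : y = s
    · subst hys
      rw [Ba_rs, mem_Bgr_s hne]
      exact ⟨V.gr_a (Γ.symm hl.adj) hu, rfl, hξ, xgr_cut (gr_j (gr_kap hu (mem_xgr.1 hη).1)), rfl⟩
    · rw [Ba_ry hys, mem_Bgr_x (Ne.symm hxyne) hys]
      exact ⟨rfl, rfl, rfl, rfl, V.gr_a hxy (gr_Bor hl hu (mem_xgr.1 hξ).1 (mem_xgr.1 hη).1)⟩
  · by_cases hxs : x = s
    · subst hxs
      obtain ⟨hg, rfl, hξ, hη, rfl⟩ := (mem_Bgr_s hne).1 hz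
      by_cases hyr : y = r
      · subst hyr
        rw [Ba_sr hne, mem_Bgr_r]
        exact ⟨rfl, V.gr_a hl.adj hg, xgr_cut (gr_j (gr_kap hg (mem_xgr.1 hξ).1)), hη, rfl⟩
      · rw [Ba_sy hne hyr, mem_Bgr_x hyr (Ne.symm hxyne)]
        exact ⟨rfl, rfl, rfl, rfl,
          V.gr_a hxy (gr_Bor hl.symm hg (mem_xgr.1 hη).1 (mem_xgr.1 hξ).1)⟩
    · obtain ⟨rfl, rfl, rfl, rfl, hv⟩ := (mem_Bgr_x hxr hxs).1 hz
      by_cases hyr : y = r
      · subst hyr
        rw [Ba_yr hxr hxs, mem_Bgr_r]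
        exact ⟨rfl, Submodule.zero_mem _, mem_xgr.2 ⟨gr_sg hv, cut_sg V hxs v⟩,
          Submodule.zero_mem _, rfl⟩
      · by_cases hys : y = s
        · subst hys
          rw [Ba_ys hne hxr hxs, mem_Bgr_s hne]
          exact ⟨Submodule.zero_mem _, rfl, Submodule.zero_mem _,
            mem_xgr.2 ⟨gr_sg hv, cut_sg V hxr v⟩, rfl⟩
        · rw [Ba_yz hxr hxs hyr hys, mem_Bgr_x hyr hys]
          exact ⟨rfl, rfl, rfl, rfl, V.gr_a hxy hv⟩

/-- **The object `B(V; r, s)`**. -/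
def BB [CharP k 2] (V : DG k Γ) (r s : X) (l : Λ) (hl : Single Γ r s l) : DG k Γ where
  V x := V.BV r s x
  d := V.Bd r s l
  h := V.Bh r s
  a := V.Ba r s l
  gr := V.Bgr r s
  d_d := V.Bd_Bd hl
  d_a h z := V.B_d_a hl h z
  rel := V.B_rel hl
  gr_d := B_gr_d hl
  gr_h := B_gr_h hl
  gr_a := B_gr_a hl

end DG

end Vale.Agent.P203.Dg
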