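import Vale.Agent.P203.Dg.Twist

/-!
# The symmetric object `B(V; r, s)` for the braid relation

Let `r, s` be joined by exactly one edge (label `l`); `p = a r s l`, `q = a s r l`, and let
`out_r = cut ∘ j_r`, `in_r = i_r ∘ cut` be the outer parts of `j_r`, `i_r` (the neighbour `s`
removed).  The underlying space at every vertex `x` is
`V_r × V_s × N_r × N_s × V_x ∋ (g, u, ξ, η, v)`; at `r` only `(0, u, ξ, η, 0)` with outer `ξ, η` are
homogeneous, at `s` only `(g, 0, ξ, η, 0)`, at the other vertices only `(0, 0, 0, 0, v)`.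

* at `r`: `d (u; ξ; η) = (d u; out_r q u + d ξ; out_s u + d η)`, `h (u; ξ; η) = (κ_s(u, η); 0; 0)`,
  `κ_s(u, η) = h u + in_s η`;
* at `s`: `d (g; ξ; η) = (d g; out_r g + d ξ; out_s p g + d η)`, `h (g; ξ; η) = (κ_r(g, ξ); 0; 0)`;
* `r → s`: `(u; ξ; η) ↦ (q u; ξ; out_s κ_s(u, η))`, `s → r`: `(g; ξ; η) ↦ (p g; out_r κ_r(g, ξ); η)`;
* `r → y`: `a (κ_r(q u, ξ) + q κ_s(u, η))`, `s → y`: `a (κ_s(p g, η) + p κ_r(g, ξ))`;
* `y → r`: `(0; sg v; 0)`, `y → s`: `(0; 0; sg v)`.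
-/

set_option linter.all false

namespace Vale.Agent.P203.Dg

open Vale.Agent.P203.Mod

variable {S X Λ : Type} [Fintype X] [DecidableEq X] [Fintype Λ] [DecidableEq Λ] [DecidableEq S]
variable {k : Type} [Field k] {Γ : FGraph S X Λ}

/-- `r` and `s` are joined by exactly one edge, with label `l`. -/
structure Single (Γ : FGraph S X Λ) (r s : X) (l : Λ) : Prop where
  adj : Γ.adj r s l = true
  uniq : ∀ m, Γ.adj r s m = true → m = l

theorem Single.symm {r s : X} {l : Λ} (h : Single Γ r s l) : Single Γ s r l :=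
  ⟨Γ.symm h.adj, fun m hm => h.uniq m (Γ.symm hm)⟩

theorem Single.ne {r s : X} {l : Λ} (h : Single Γ r s l) : r ≠ s := by
  rintro rfl
  exact Γ.indep h.adj rfl

/-- The dart from `r` to `s`. -/
abbrev Single.p {r s : X} {l : Λ} (h : Single Γ r s l) : Γ.Nb r := ⟨(s, l), h.adj⟩

theorem Single.eq_p {r s : X} {l : Λ} (h : Single Γ r s l) {p : Γ.Nb r} :
    p.1.1 = s ↔ p = h.p := by
  constructor
  · intro hp
    obtain ⟨⟨x, m⟩, hm⟩ := p
    simp only at hp
    subst hp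
    have := h.uniq m hm
    subst this
    rfl
  · intro hp; rw [hp]

theorem nb_ne {x : X} (p : Γ.Nb x) : p.1.1 ≠ x := by
  intro h
  exact Γ.indep p.2 (by rw [h])

/-- splitting off the dart `r → s` from a sum over the darts at `r` -/
theorem Single.sum {r s : X} {l : Λ} (h : Single Γ r s l) {A : Type*} [AddCommMonoid A]
    (F : Γ.Nb r → A) : ∑ p, F p = F h.p + ∑ p, if p.1.1 = s then 0 else F p := by
  have h1 : ∀ p : Γ.Nb r, F p = (if p = h.p then F p else 0) + (if p.1.1 = s then 0 else F p) := by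
    intro p
    by_cases hp : p.1.1 = s
    · rw [if_pos (h.eq_p.1 hp), if_pos hp, add_zero]
    · rw [if_neg fun h' => hp (h.eq_p.2 h'), if_neg hp, zero_add]
  rw [Finset.sum_congr rfl fun p _ => h1 p, Finset.sum_add_distrib]
  congr 1
  rw [Finset.sum_ite_eq' Finset.univ h.p F, if_pos (Finset.mem_univ _)]

namespace DG

/-- removing the component at the neighbour `s` -/
def cut (V : DG k Γ) (r s : X) : V.N r →ₗ[k] V.N r :=
  LinearMap.pi fun p => if p.1.1 = s then 0 else LinearMap.proj p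

theorem cut_apply (V : DG k Γ) (r s : X) (ν : V.N r) (p : Γ.Nb r) :
    V.cut r s ν p = if p.1.1 = s then 0 else ν p := by
  unfold cut
  rw [LinearMap.pi_apply]
  split_ifs <;> simp

theorem cut_cut (V : DG k Γ) (r s : X) (ν : V.N r) : V.cut r s (V.cut r s ν) = V.cut r s ν := by
  funext p
  rw [cut_apply, cut_apply]
  split_ifs <;> rfl

theorem dN_cut (V : DG k Γ) (r s : X) (ν : V.N r) :
    V.dN r (V.cut r s ν) = V.cut r s (V.dN r ν) := by
  funext p
  rw [dN_apply, cut_apply, cut_apply, dN_apply]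
  split_ifs
  · rw [map_zero]
  · rfl

theorem cut_sg (V : DG k Γ) {r s y : X} {l : Λ} (hy : y ≠ s) (v : V.V y) :
    V.cut r s (V.sg y r l v) = V.sg y r l v := by
  by_cases h : Γ.adj r y l = true
  · rw [sg_of V h]
    funext p
    rw [cut_apply]
    split_ifs with hp
    · rw [Pi.single_eq_of_ne]
      rintro rfl
      exact hy hp
    · rfl
  · simp [sg, h]

theorem sum_cut (V : DG k Γ) (r s : X) (ν : V.N r) :
    (∑ p : Γ.Nb r, if p.1.1 = s then 0 else V.sg p.1.1 r p.1.2 (ν p)) = V.cut r s ν := by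
  conv_rhs => rw [← V.sum_sg r (V.cut r s ν)]
  refine Finset.sum_congr rfl fun p _ => ?_
  rw [cut_apply]
  split_ifs
  · rw [map_zero]
  · rfl

theorem i_split (V : DG k Γ) {r s : X} {l : Λ} (hl : Single Γ r s l) (ν : V.N r) :
    V.i r ν = V.a s r l (ν hl.p) + V.i r (V.cut r s ν) := by
  rw [i_apply, hl.sum, i_apply]
  congr 1
  refine Finset.sum_congr rfl fun p _ => ?_
  rw [cut_apply]
  split_ifs
  · rw [map_zero]
  · rfl

/-- `q p g + in_r out_r g = d h g + h d g` -/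
theorem qp_add (V : DG k Γ) {r s : X} {l : Λ} (hl : Single Γ r s l) (g : V.V r) :
    V.a s r l (V.a r s l g) + V.i r (V.cut r s (V.j r g)) = V.d r (V.h r g) + V.h r (V.d r g) := by
  rw [← V.i_j, V.i_split hl (V.j r g)]
  rfl

/-- `κ_r(g, ξ) = h g + in_r ξ` -/
def kap (V : DG k Γ) (r s : X) : V.V r × V.N r →ₗ[k] V.V r :=
  (V.h r).comp (LinearMap.fst k _ _) + (V.i r).comp ((V.cut r s).comp (LinearMap.snd k _ _))

theorem kap_apply (V : DG k Γ) (r s : X) (g : V.V r) (ξ : V.N r) :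
    V.kap r s (g, ξ) = V.h r g + V.i r (V.cut r s ξ) := rfl

theorem kap_add (V : DG k Γ) (r s : X) (g g' : V.V r) (ξ ξ' : V.N r) :
    V.kap r s (g + g', ξ + ξ') = V.kap r s (g, ξ) + V.kap r s (g', ξ') := by
  rw [← map_add]; rfl

theorem kap_smul (V : DG k Γ) (r s : X) (c : k) (g : V.V r) (ξ : V.N r) :
    V.kap r s (c • g, c • ξ) = c • V.kap r s (g, ξ) := by
  rw [← map_smul]; rfl

/-- `κ_r(d g, out_r g + d ξ) + d κ_r(g, ξ) = q p g` -/
theorem kap_d [CharP k 2] (V : DG k Γ) {r s : X} {l : Λ} (hl : Single Γ r s l) (g : V.V r)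
    (ξ : V.N r) : V.kap r s (V.d r g, V.cut r s (V.j r g) + V.dN r ξ) +
      V.d r (V.kap r s (g, ξ)) = V.a s r l (V.a r s l g) := by
  have h1 := V.qp_add hl g
  have h2 := V.d_i r (V.cut r s ξ)
  have e1 := add_self_char2 (k := k) (V.i r (V.cut r s (V.j r g)))
  have e2 := add_self_char2 (k := k) (V.i r (V.dN r (V.cut r s ξ)))
  rw [kap_apply, kap_apply, map_add, map_add, map_add, cut_cut, h2, ← dN_cut]
  calc V.h r (V.d r g) + (V.i r (V.cut r s (V.j r g)) + V.i r (V.dN r (V.cut r s ξ))) +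
        (V.d r (V.h r g) + V.i r (V.dN r (V.cut r s ξ)))
      = (V.d r (V.h r g) + V.h r (V.d r g)) + V.i r (V.cut r s (V.j r g)) +
        (V.i r (V.dN r (V.cut r s ξ)) + V.i r (V.dN r (V.cut r s ξ))) := by abel
    _ = V.a s r l (V.a r s l g) + (V.i r (V.cut r s (V.j r g)) + V.i r (V.cut r s (V.j r g))) := by
        rw [e2, add_zero, ← h1, add_assoc]
    _ = _ := by rw [e1, add_zero]

/-- The homogeneous outer vectors. -/
def xgr (V : DG k Γ) (r s : X) (n : ℤ) : Submodule k (V.N r) :=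
  V.grN r n ⊓ LinearMap.eqLocus (V.cut r s) LinearMap.id

theorem mem_xgr {V : DG k Γ} {r s : X} {n : ℤ} {ξ : V.N r} :
    ξ ∈ V.xgr r s n ↔ ξ ∈ V.grN r n ∧ V.cut r s ξ = ξ := by
  simp [xgr]

theorem gr_cut {V : DG k Γ} {r s : X} {n : ℤ} {ξ : V.N r} (h : ξ ∈ V.grN r n) :
    V.cut r s ξ ∈ V.grN r n := by
  rw [mem_grN] at h ⊢
  intro p
  rw [cut_apply]
  split_ifs
  · exact Submodule.zero_mem _
  · exact h p

theorem xgr_cut {V : DG k Γ} {r s : X} {n : ℤ} {ξ : V.N r} (h : ξ ∈ V.grN r n) :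
    V.cut r s ξ ∈ V.xgr r s n := mem_xgr.2 ⟨gr_cut h, V.cut_cut r s ξ⟩

theorem xgr_dN {V : DG k Γ} {r s : X} {n : ℤ} {ξ : V.N r} (h : ξ ∈ V.xgr r s n) :
    V.dN r ξ ∈ V.xgr r s (n + 1) := by
  rw [mem_xgr] at h ⊢
  exact ⟨gr_dN h.1, by rw [← dN_cut, h.2]⟩

theorem gr_kap {V : DG k Γ} {r s : X} {n : ℤ} {g : V.V r} {ξ : V.N r} (hg : g ∈ V.gr r (n + 1))
    (hξ : ξ ∈ V.grN r n) : V.kap r s (g, ξ) ∈ V.gr r n := by
  rw [kap_apply]
  have := V.gr_h hg
  rw [add_sub_cancel_right] at this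
  exact Submodule.add_mem _ this (gr_i (gr_cut hξ))

/-! ### The spaces and the maps of `B` -/

/-- The common type of the spaces of `B`. -/
abbrev BV (V : DG k Γ) (r s x : X) : Type := V.V r × V.V s × V.N r × V.N s × V.V x

/-- The differential. -/
def Bd (V : DG k Γ) (r s : X) (l : Λ) (x : X) : V.BV r s x →ₗ[k] V.BV r s x where
  toFun z := (V.d r z.1, V.d s z.2.1,
    (if x = r then V.cut r s (V.j r (V.a s r l z.2.1)) else
      if x = s then V.cut r s (V.j r z.1) else 0) + V.dN r z.2.2.1,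
    (if x = r then V.cut s r (V.j s z.2.1) else
      if x = s then V.cut s r (V.j s (V.a r s l z.1)) else 0) + V.dN s z.2.2.2.1,
    V.d x z.2.2.2.2)
  map_add' z w := by
    split_ifs <;> simp only [Prod.fst_add, Prod.snd_add, map_add, Prod.mk_add_mk, Prod.mk.injEq] <;>
      refine ⟨trivial, trivial, ?_, ?_, trivial⟩ <;> abel
  map_smul' c z := by
    split_ifs <;> simp only [Prod.smul_fst, Prod.smul_snd, map_smul, RingHom.id_apply,
      Prod.smul_mk, smul_add, smul_zero]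

/-- The homotopy. -/
def Bh (V : DG k Γ) (r s x : X) : V.BV r s x →ₗ[k] V.BV r s x where
  toFun z := (if x = s then V.kap r s (z.1, z.2.2.1) else 0,
    if x = r then V.kap s r (z.2.1, z.2.2.2.1) else 0, 0, 0,
    if x = r then 0 else if x = s then 0 else V.h x z.2.2.2.2)
  map_add' z w := by
    split_ifs <;> simp only [Prod.fst_add, Prod.snd_add, map_add, kap_add, Prod.mk_add_mk,
      add_zero]
  map_smul' c z := by
    split_ifs <;> simp only [Prod.smul_fst, Prod.smul_snd, map_smul, kap_smul, Prod.smul_mk,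
      smul_zero, RingHom.id_apply]

/-- The value at `r` of the outgoing map. -/
def Bor (V : DG k Γ) (r s : X) (l : Λ) : V.V s × V.N r × V.N s →ₗ[k] V.V r where
  toFun z := V.kap r s (V.a s r l z.1, z.2.1) + V.a s r l (V.kap s r (z.1, z.2.2))
  map_add' z w := by
    have h1 : ((V.a s r l (z + w).1, (z + w).2.1) : V.V r × V.N r) =
      (V.a s r l z.1, z.2.1) + (V.a s r l w.1, w.2.1) := by simp
    have h2 : (((z + w).1, (z + w).2.2) : V.V s × V.N s) = (z.1, z.2.2) + (w.1, w.2.2) := by simp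
    rw [h1, h2, map_add, map_add, map_add]
    abel
  map_smul' c z := by
    have h1 : ((V.a s r l (c • z).1, (c • z).2.1) : V.V r × V.N r) =
      c • (V.a s r l z.1, z.2.1) := by simp
    have h2 : (((c • z).1, (c • z).2.2) : V.V s × V.N s) = c • (z.1, z.2.2) := by simp
    rw [h1, h2, map_smul, map_smul, map_smul, RingHom.id_apply, smul_add]

theorem Bor_add (V : DG k Γ) (r s : X) (l : Λ) (u u' : V.V s) (ξ ξ' : V.N r) (η η' : V.N s) :
    V.Bor r s l (u + u', ξ + ξ', η + η') = V.Bor r s l (u, ξ, η) + V.Bor r s l (u', ξ', η') := by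
  rw [← map_add]; rfl

theorem Bor_smul (V : DG k Γ) (r s : X) (l : Λ) (c : k) (u : V.V s) (ξ : V.N r) (η : V.N s) :
    V.Bor r s l (c • u, c • ξ, c • η) = c • V.Bor r s l (u, ξ, η) := by
  rw [← map_smul]; rfl

theorem Bor_apply (V : DG k Γ) (r s : X) (l : Λ) (u : V.V s) (ξ : V.N r) (η : V.N s) :
    V.Bor r s l (u, ξ, η) = V.kap r s (V.a s r l u, ξ) + V.a s r l (V.kap s r (u, η)) := rfl

/-- The arrows. -/
def Ba (V : DG k Γ) (r s : X) (l : Λ) (x y : X) (m : Λ) : V.BV r s x →ₗ[k] V.BV r s y where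
  toFun z :=
    if x = r then
      if y = s then (V.a s r l z.2.1, 0, z.2.2.1,
        V.cut s r (V.j s (V.kap s r (z.2.1, z.2.2.2.1))), 0)
      else (0, 0, 0, 0, V.a r y m (V.Bor r s l (z.2.1, z.2.2.1, z.2.2.2.1)))
    else if x = s then
      if y = r then (0, V.a r s l z.1, V.cut r s (V.j r (V.kap r s (z.1, z.2.2.1))),
        z.2.2.2.1, 0)
      else (0, 0, 0, 0, V.a s y m (V.Bor s r l (z.1, z.2.2.2.1, z.2.2.1)))
    else if y = r then (0, 0, V.sg x r m z.2.2.2.2, 0, 0)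
    else if y = s then (0, 0, 0, V.sg x s m z.2.2.2.2, 0)
    else (0, 0, 0, 0, V.a x y m z.2.2.2.2)
  map_add' z w := by
    split_ifs <;> simp only [Prod.fst_add, Prod.snd_add, map_add, kap_add, Bor_add,
      Prod.mk_add_mk, add_zero]
  map_smul' c z := by
    split_ifs <;> simp only [Prod.smul_fst, Prod.smul_snd, map_smul, kap_smul, Bor_smul,
      Prod.smul_mk, smul_zero, RingHom.id_apply]

section Formulas

variable {V : DG k Γ} {r s : X} {l : Λ} (hne : r ≠ s)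
  {g : V.V r} {u : V.V s} {ξ : V.N r} {η : V.N s}
include hne

omit hne in
theorem Bd_r {v : V.V r} : V.Bd r s l r (g, u, ξ, η, v) =
    (V.d r g, V.d s u, V.cut r s (V.j r (V.a s r l u)) + V.dN r ξ,
      V.cut s r (V.j s u) + V.dN s η, V.d r v) := by
  simp [Bd]

theorem Bd_s {v : V.V s} : V.Bd r s l s (g, u, ξ, η, v) =
    (V.d r g, V.d s u, V.cut r s (V.j r g) + V.dN r ξ,
      V.cut s r (V.j s (V.a r s l g)) + V.dN s η, V.d s v) := by
  simp [Bd, hne.symm]

omit hne in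
theorem Bd_x {x : X} (hr : x ≠ r) (hs : x ≠ s) {v : V.V x} : V.Bd r s l x (g, u, ξ, η, v) =
    (V.d r g, V.d s u, V.dN r ξ, V.dN s η, V.d x v) := by
  simp [Bd, hr, hs]

theorem Bh_r {v : V.V r} : V.Bh r s r (g, u, ξ, η, v) = (0, V.kap s r (u, η), 0, 0, 0) := by
  simp [Bh, hne]

theorem Bh_s {v : V.V s} : V.Bh r s s (g, u, ξ, η, v) = (V.kap r s (g, ξ), 0, 0, 0, 0) := by
  simp [Bh, hne.symm]

omit hne in
theorem Bh_x {x : X} (hr : x ≠ r) (hs : x ≠ s) {v : V.V x} :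
    V.Bh r s x (g, u, ξ, η, v) = (0, 0, 0, 0, V.h x v) := by
  simp [Bh, hr, hs]

omit hne in
theorem Ba_rs {m : Λ} {v : V.V r} : V.Ba r s l r s m (g, u, ξ, η, v) =
    (V.a s r l u, 0, ξ, V.cut s r (V.j s (V.kap s r (u, η))), 0) := by
  simp [Ba]

theorem Ba_sr {m : Λ} {v : V.V s} : V.Ba r s l s r m (g, u, ξ, η, v) =
    (0, V.a r s l g, V.cut r s (V.j r (V.kap r s (g, ξ))), η, 0) := by
  simp [Ba, hne.symm]

omit hne in
theorem Ba_ry {y : X} (hs : y ≠ s) {m : Λ} {v : V.V r} : V.Ba r s l r y m (g, u, ξ, η, v) =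
    (0, 0, 0, 0, V.a r y m (V.Bor r s l (u, ξ, η))) := by
  simp [Ba, hs]

theorem Ba_sy {y : X} (hr : y ≠ r) {m : Λ} {v : V.V s} : V.Ba r s l s y m (g, u, ξ, η, v) =
    (0, 0, 0, 0, V.a s y m (V.Bor s r l (g, η, ξ))) := by
  simp [Ba, hne.symm, hr]

omit hne in
theorem Ba_yr {y : X} (hr : y ≠ r) (hs : y ≠ s) {m : Λ} {v : V.V y} :
    V.Ba r s l y r m (g, u, ξ, η, v) = (0, 0, V.sg y r m v, 0, 0) := by
  simp [Ba, hr, hs]

theorem Ba_ys {y : X} (hr : y ≠ r) (hs : y ≠ s) {m : Λ} {v : V.V y} :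
    V.Ba r s l y s m (g, u, ξ, η, v) = (0, 0, 0, V.sg y s m v, 0) := by
  simp [Ba, hr, hs, hne.symm]

omit hne in
theorem Ba_yz {y z : X} (hr : y ≠ r) (hs : y ≠ s) (hr' : z ≠ r) (hs' : z ≠ s) {m : Λ}
    {v : V.V y} : V.Ba r s l y z m (g, u, ξ, η, v) = (0, 0, 0, 0, V.a y z m v) := by
  simp [Ba, hr, hs, hr', hs']

end Formulas

/-! ### The axioms -/

theorem Bd_Bd [CharP k 2] (V : DG k Γ) {r s : X} {l : Λ} (hl : Single Γ r s l) (x : X)
    (z : V.BV r s x) : V.Bd r s l x (V.Bd r s l x z) = 0 := by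
  obtain ⟨g, u, ξ, η, v⟩ := z
  by_cases hr : x = r
  · subst hr
    rw [Bd_r, Bd_r]
    simp only [V.d_d, map_add, V.dN_dN, V.dN_cut, V.dN_j, V.d_a (Γ.symm hl.adj), add_zero]
    rw [add_self_char2 (k := k), add_self_char2 (k := k)]
    rfl
  · by_cases hs : x = s
    · subst hs
      rw [Bd_s hl.ne, Bd_s hl.ne]
      simp only [V.d_d, map_add, V.dN_dN, V.dN_cut, V.dN_j, V.d_a hl.adj, add_zero]
      rw [add_self_char2 (k := k), add_self_char2 (k := k)]
      rfl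
    · rw [Bd_x hr hs, Bd_x hr hs]
      simp only [V.d_d, V.dN_dN]
      rfl

theorem kap_sg (V : DG k Γ) {r s y : X} {m : Λ} (hy : y ≠ s) (h : Γ.adj y r m = true)
    (v : V.V y) : V.kap r s (0, V.sg y r m v) = V.a y r m v := by
  rw [kap_apply, map_zero, zero_add, cut_sg V hy, V.i_sg (Γ.symm h)]

theorem kap_zero (V : DG k Γ) (r s : X) : V.kap r s (0, 0) = 0 := map_zero _

theorem Bor_sg₁ (V : DG k Γ) {r s y : X} {l m : Λ} (hy : y ≠ s) (h : Γ.adj y r m = true)
    (v : V.V y) : V.Bor r s l (0, V.sg y r m v, 0) = V.a y r m v := by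
  rw [Bor_apply, map_zero, kap_sg V hy h, kap_zero, map_zero, add_zero]

/-- The relation at `r` for the differential of the outgoing map. -/
theorem Bor_d [CharP k 2] (V : DG k Γ) {r s : X} {l : Λ} (hl : Single Γ r s l) (u : V.V s)
    (ξ : V.N r) (η : V.N s) :
    V.Bor r s l (V.d s u, V.cut r s (V.j r (V.a s r l u)) + V.dN r ξ,
      V.cut s r (V.j s u) + V.dN s η) = V.d r (V.Bor r s l (u, ξ, η)) := by
  have h1 := V.kap_d hl (V.a s r l u) ξ
  have h2 := congrArg (V.a s r l) (V.kap_d hl.symm u η)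
  rw [map_add] at h2
  rw [Bor_apply, Bor_apply, map_add, ← V.d_a (Γ.symm hl.adj), V.d_a (Γ.symm hl.adj)]
  apply eq_of_add_eq_zero_char2 (k := k)
  have e3 := add_self_char2 (k := k) (V.a s r l (V.a r s l (V.a s r l u)))
  have e4 : V.d r (V.a s r l u) = V.a s r l (V.d s u) := V.d_a (Γ.symm hl.adj) u
  rw [e4] at h1
  rw [V.d_a (Γ.symm hl.adj) (V.kap s r (u, η))]
  calc _ = (V.kap r s (V.a s r l (V.d s u), V.cut r s (V.j r (V.a s r l u)) + V.dN r ξ) +
          V.d r (V.kap r s (V.a s r l u, ξ))) +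
        (V.a s r l (V.kap s r (V.d s u, V.cut s r (V.j s u) + V.dN s η)) +
          V.a s r l (V.d s (V.kap s r (u, η)))) := by abel
    _ = 0 := by rw [h1, h2, e3]

end DG

end Vale.Agent.P203.Dg
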