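import Vale.Agent.P203.Dg.BDG
import Vale.Agent.P203.Dg.Strict

/-!
# The symmetry `BB V r s ≅ BB V s r`
-/

set_option linter.all false

namespace Vale.Agent.P203.Dg

open Vale.Agent.P203.Mod

variable {S X Λ : Type} [Fintype X] [DecidableEq X] [Fintype Λ] [DecidableEq Λ] [DecidableEq S]
variable {k : Type} [Field k] {Γ : FGraph S X Λ}

namespace DG

/-- The swap `(g, u, ξ, η, v) ↦ (u, g, η, ξ, v)`. -/
def swp (V : DG k Γ) (r s x : X) : V.BV r s x →ₗ[k] V.BV s r x where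
  toFun z := (z.2.1, z.1, z.2.2.2.1, z.2.2.1, z.2.2.2.2)
  map_add' _ _ := rfl
  map_smul' _ _ := rfl

theorem swp_apply {V : DG k Γ} {r s x : X} (g : V.V r) (u : V.V s) (ξ : V.N r) (η : V.N s)
    (v : V.V x) : V.swp r s x (g, u, ξ, η, v) = (u, g, η, ξ, v) := rfl

theorem swp_d (V : DG k Γ) {r s : X} {l : Λ} (hne : r ≠ s) (x : X) (z : V.BV r s x) :
    V.Bd s r l x (V.swp r s x z) = V.swp r s x (V.Bd r s l x z) := by
  obtain ⟨g, u, ξ, η, v⟩ := z
  rw [swp_apply]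
  by_cases hr : x = r
  · subst hr; rw [Bd_s hne.symm, Bd_r, swp_apply]
  · by_cases hs : x = s
    · subst hs; rw [Bd_r, Bd_s hne, swp_apply]
    · rw [Bd_x hs hr, Bd_x hr hs, swp_apply]

theorem swp_h (V : DG k Γ) {r s : X} (hne : r ≠ s) (x : X) (z : V.BV r s x) :
    V.Bh s r x (V.swp r s x z) = V.swp r s x (V.Bh r s x z) := by
  obtain ⟨g, u, ξ, η, v⟩ := z
  rw [swp_apply]
  by_cases hr : x = r
  · subst hr; rw [Bh_s hne.symm, Bh_r hne, swp_apply]
  · by_cases hs : x = s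
    · subst hs; rw [Bh_r hne.symm, Bh_s hne, swp_apply]
    · rw [Bh_x hs hr, Bh_x hr hs, swp_apply]

theorem swp_a (V : DG k Γ) {r s : X} {l : Λ} (hne : r ≠ s) {x y : X} {m : Λ} (hxy : x ≠ y)
    (z : V.BV r s x) :
    V.Ba s r l x y m (V.swp r s x z) = V.swp r s y (V.Ba r s l x y m z) := by
  obtain ⟨g, u, ξ, η, v⟩ := z
  rw [swp_apply]
  by_cases hxr : x = r
  · subst hxr
    by_cases hys : y = s
    · subst hys; rw [Ba_sr hne.symm, Ba_rs, swp_apply]
    · rw [Ba_sy hne.symm hys, Ba_ry hys, swp_apply]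
  · by_cases hxs : x = s
    · subst hxs
      by_cases hyr : y = r
      · subst hyr; rw [Ba_rs, Ba_sr hne, swp_apply]
      · rw [Ba_ry hyr, Ba_sy hne hyr, swp_apply]
    · by_cases hyr : y = r
      · subst hyr; rw [Ba_ys hne.symm hxs hxr, Ba_yr hxr hxs, swp_apply]
      · by_cases hys : y = s
        · subst hys; rw [Ba_yr hxs hxr, Ba_ys hne hxr hxs, swp_apply]
        · rw [Ba_yz hxs hxr hys hyr, Ba_yz hxr hxs hyr hys, swp_apply]

theorem swp_gr (V : DG k Γ) {r s : X} (hne : r ≠ s) {x : X} {n : ℤ} {z : V.BV r s x}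
    (hz : z ∈ V.Bgr r s x n) : V.swp r s x z ∈ V.Bgr s r x n := by
  obtain ⟨g, u, ξ, η, v⟩ := z
  rw [swp_apply]
  by_cases hr : x = r
  · subst hr
    obtain ⟨h1, h2, h3, h4, h5⟩ := mem_Bgr_r.1 hz
    exact (mem_Bgr_s hne.symm).2 ⟨h2, h1, h4, h3, h5⟩
  · by_cases hs : x = s
    · subst hs
      obtain ⟨h1, h2, h3, h4, h5⟩ := (mem_Bgr_s hne).1 hz
      exact mem_Bgr_r.2 ⟨h2, h1, h4, h3, h5⟩
    · obtain ⟨h1, h2, h3, h4, h5⟩ := (mem_Bgr_x hr hs).1 hz
      exact (mem_Bgr_x hs hr).2 ⟨h2, h1, h4, h3, h5⟩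

theorem swp_swp (V : DG k Γ) (r s x : X) (z : V.BV r s x) :
    V.swp s r x (V.swp r s x z) = z := rfl

/-- The symmetry as a strict morphism. -/
def swpHom [CharP k 2] (V : DG k Γ) (r s : X) (l : Λ) (hl : Single Γ r s l) :
    HomS (V.BB r s l hl) (V.BB s r l hl.symm) where
  f := V.swp r s
  d_f x z := V.swp_d hl.ne x z
  a_f h z := V.swp_a hl.ne (fun h' => Γ.indep h (by rw [h'])) z
  h_f x z := V.swp_h hl.ne x z
  gr_f h := V.swp_gr hl.ne h

theorem swpHom_qi [CharP k 2] (V : DG k Γ) (r s : X) (l : Λ) (hl : Single Γ r s l) :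
    (V.swpHom r s l hl).QI := by
  intro x
  constructor
  · rintro n v hv hd ⟨w, hw, hw'⟩
    refine ⟨V.swp s r x w, V.swp_gr hl.symm.ne hw, ?_⟩
    have h1 := V.swp_d (l := l) hl.symm.ne x w
    have h2 : V.swp s r x (V.Bd s r l x w) = v := by
      have : V.Bd s r l x w = V.swp r s x v := hw'
      rw [this]; rfl
    exact h1.trans h2
  · intro n w hw hd
    refine ⟨V.swp s r x w, V.swp_gr hl.symm.ne hw, ?_, 0, Submodule.zero_mem _, ?_⟩
    · have h1 := V.swp_d (l := l) hl.symm.ne x w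
      have h2 : V.Bd s r l x w = 0 := hd
      rw [h2, map_zero] at h1
      exact h1
    · have : (V.swpHom r s l hl).f x (V.swp s r x w) = w := rfl
      rw [map_zero, this, sub_self]

/-- `BB V r s ~ BB V s r`. -/
theorem sim_swap [CharP k 2] (V : DG k Γ) (r s : X) (l : Λ) (hl : Single Γ r s l) :
    Sim (V.BB r s l hl) (V.BB s r l hl.symm) :=
  Sim.of_hom _ (V.swpHom_qi r s l hl)

end DG

end Vale.Agent.P203.Dg
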