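import Vale.Agent.P203.Dg.IotaF
import Vale.Agent.P203.Dg.Funct

/-!
# The maps `ι : B(V; r, s) → σ_r⁻¹ σ_s⁻¹ σ_r⁻¹ V` are quasi-isomorphisms at every vertex
-/

set_option linter.all false

namespace Vale.Agent.P203.Dg

open Vale.Agent.P203.Mod

variable {S X Λ : Type} [Fintype X] [DecidableEq X] [Fintype Λ] [DecidableEq Λ] [DecidableEq S]
variable {k : Type} [Field k] {Γ : FGraph S X Λ}

namespace DG

variable [CharP k 2]

/-- homogeneous elements of `N_x` of the twisted object, outside `r` -/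
theorem exists_eN {V : DG k Γ} {r x : X} {n : ℤ} {μ : (V.tw1 r).N x}
    (hμ : μ ∈ (V.tw1 r).grN x n) :
    ∃ η ∈ V.xgr x r n, (V.tw1 r).cut x r μ = V.eN r x η := by
  have h1 : ∀ p : Γ.Nb x, ∃ v ∈ V.gr p.1.1 n, (p.1.1 = r → v = 0) ∧
      (p.1.1 ≠ r → μ p = V.e r p.1.1 v) := by
    intro p
    by_cases hp : p.1.1 = r
    · exact ⟨0, Submodule.zero_mem _, fun _ => rfl, fun h => absurd hp h⟩
    · obtain ⟨v, hv, hv'⟩ := exists_of_gr_ne hp (mem_grN.1 hμ p)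
      exact ⟨v, hv, fun h => absurd h hp, fun _ => hv'⟩
  choose η h2 h3 h4 using h1
  refine ⟨η, mem_xgr.2 ⟨mem_grN.2 h2, ?_⟩, ?_⟩
  · funext p
    by_cases hp : p.1.1 = r
    · rw [cut_of _ _ hp, h3 p hp]
    · rw [cut_ne _ _ hp]
  · funext p
    by_cases hp : p.1.1 = r
    · rw [cut_of _ _ hp, eN_apply, h3 p hp, map_zero]
    · rw [cut_ne _ _ hp, eN_apply, h4 p hp]

/-- homogeneous elements of `N_r` of the twisted object -/
theorem exists_eN_self {V : DG k Γ} {r : X} {n : ℤ} {μ : (V.tw1 r).N r}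
    (hμ : μ ∈ (V.tw1 r).grN r n) : ∃ η ∈ V.grN r n, μ = V.eN r r η := by
  have h1 : ∀ p : Γ.Nb r, ∃ v ∈ V.gr p.1.1 n, μ p = V.e r p.1.1 v := fun p =>
    exists_of_gr_ne (nb_ne p) (mem_grN.1 hμ p)
  choose η h2 h3 using h1
  exact ⟨η, mem_grN.2 h2, funext h3⟩

theorem eN_inj (V : DG k Γ) (r x : X) {η η' : V.N x} (h : V.eN r x η = V.eN r x η') : η = η' := by
  funext p
  have h1 := congrFun h p
  rw [eN_apply, eN_apply, e_def, e_def] at h1
  exact congrArg (fun z : V.TV p.1.1 => z.2.2) h1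

theorem xgr_at {V : DG k Γ} {r s : X} {l : Λ} (h : Γ.adj s r l = true) {η : V.N s}
    (hη : V.cut s r η = η) : η ⟨(r, l), h⟩ = 0 := by
  rw [← hη, cut_at]

section level2

variable (V : DG k Γ) (r s : X) (l : Λ)

/-- `u ↦ (u; 0; 0)` -/
def ya : V.V s →ₗ[k] ((V.tw1 r).tw1 s).V s := (V.tw1 r).eg s s ∘ₗ V.e r s

/-- `η ↦ (0; η; 0)` -/
def yb : V.N s →ₗ[k] ((V.tw1 r).tw1 s).V s := (V.tw1 r).en s s ∘ₗ V.eN r s

/-- `ρ ↦ (0; 0; ρ)` -/
def yc : (V.tw1 r).V r →ₗ[k] ((V.tw1 r).tw1 s).V s := (V.tw1 r).en s s ∘ₗ (V.tw1 r).sg r s l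

variable {r s l}

theorem d_ya (hl : Single Γ r s l) (u : V.V s) : ((V.tw1 r).tw1 s).d s (V.ya r s u) =
    V.ya r s (V.d s u) + V.yb r s (V.cut s r (V.j s u)) +
      V.yc r s l (V.en r r (V.sg s r l u)) := by
  change ((V.tw1 r).tw1 s).d s ((V.tw1 r).eg s s (V.e r s u)) = _
  rw [tw_d_eg, tw_d_e, tw_j_e V hl.symm.adj hl.symm.uniq, map_add, ← add_assoc]
  rfl

theorem d_yb (η : V.N s) : ((V.tw1 r).tw1 s).d s (V.yb r s η) = V.yb r s (V.dN s η) := by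
  change ((V.tw1 r).tw1 s).d s ((V.tw1 r).en s s (V.eN r s η)) = _
  rw [tw_d_en, tw_dN_eN]
  rfl

theorem d_yc (ρ : (V.tw1 r).V r) : ((V.tw1 r).tw1 s).d s (V.yc r s l ρ) =
    V.yc r s l ((V.tw1 r).d r ρ) := by
  change ((V.tw1 r).tw1 s).d s ((V.tw1 r).en s s ((V.tw1 r).sg r s l ρ)) = _
  rw [tw_d_en, dN_sg]
  rfl

theorem exists_y {n : ℤ} (hl : Single Γ r s l) {y : ((V.tw1 r).tw1 s).V s}
    (hy : y ∈ ((V.tw1 r).tw1 s).gr s n) : ∃ u ∈ V.gr s (n + 1), ∃ η ∈ V.xgr s r n,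
      ∃ ρ ∈ (V.tw1 r).gr r n, y = V.ya r s u + V.yb r s η + V.yc r s l ρ := by
  obtain ⟨y1, hy1, μ, hμ, rfl⟩ := exists_of_gr hy
  obtain ⟨u, hu, rfl⟩ := exists_of_gr_ne hl.symm.ne hy1
  obtain ⟨η, hη, hη'⟩ := exists_eN hμ
  refine ⟨u, hu, η, hη, μ ⟨(r, l), hl.symm.adj⟩, mem_grN.1 hμ ⟨(r, l), hl.symm.adj⟩, ?_⟩
  have h1 := (V.tw1 r).cut_add_sg hl.symm.adj hl.symm.uniq μ
  rw [hη'] at h1
  conv_lhs => rw [← h1]
  rw [map_add, ← add_assoc]
  rfl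

theorem y_inj (hl : Single Γ r s l) {u u' : V.V s} {η η' : V.N s} {ρ ρ' : (V.tw1 r).V r}
    (hη : V.cut s r η = η) (hη' : V.cut s r η' = η')
    (h : V.ya r s u + V.yb r s η + V.yc r s l ρ = V.ya r s u' + V.yb r s η' + V.yc r s l ρ') :
    u = u' ∧ η = η' ∧ ρ = ρ' := by
  have h1 : ∀ (u : V.V s) (η : V.N s) (ρ : (V.tw1 r).V r),
      V.ya r s u + V.yb r s η + V.yc r s l ρ =
      ((V.e r s u, V.eN r s η + (V.tw1 r).sg r s l ρ, 0) : (V.tw1 r).TV s) := by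
    intro u η ρ
    change (((V.e r s u + 0) + 0, (0 + V.eN r s η) + (V.tw1 r).sg r s l ρ, (0 + 0) + 0) :
      (V.tw1 r).TV s) = _
    simp
  rw [h1, h1] at h
  have h2 : V.e r s u = V.e r s u' := congrArg (fun z : (V.tw1 r).TV s => z.1) h
  have h3 : V.eN r s η + (V.tw1 r).sg r s l ρ = V.eN r s η' + (V.tw1 r).sg r s l ρ' :=
    congrArg (fun z : (V.tw1 r).TV s => z.2.1) h
  have h4 : ρ = ρ' := by
    have h5 := congrFun h3 ⟨(r, l), hl.symm.adj⟩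
    rw [Pi.add_apply, Pi.add_apply, eN_apply, eN_apply, xgr_at _ hη, xgr_at _ hη', map_zero,
      sg_of _ hl.symm.adj, sg_of _ hl.symm.adj, Pi.single_eq_same, Pi.single_eq_same, zero_add,
      zero_add] at h5
    exact h5
  subst h4
  exact ⟨congrArg (fun z : V.TV s => z.2.2) h2, V.eN_inj r s (add_right_cancel h3), rfl⟩

end level2

section atS

variable (V : DG k Γ) {r s : X} {l : Λ}

theorem iof_s_eq (hl : Single Γ r s l) {g : V.V r} {ξ : V.N r} {η : V.N s} {v : V.V s}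
    (hξ : V.cut r s ξ = ξ) (hη : V.cut s r η = η) :
    V.iof r s l s (g, 0, ξ, η, v) = ((V.tw1 r).tw1 s).e r s
      (V.ya r s (V.a r s l g) + V.yb r s η + V.yc r s l (V.eg r r g + V.en r r ξ)) := by
  rw [iof_s V hl.ne, iotaS_apply, hξ, hη, map_add ((V.tw1 r).en s s)]
  congr 1
  change (V.tw1 r).eg s s (V.e r s (V.a r s l g)) +
    ((V.tw1 r).en s s ((V.tw1 r).sg r s l (V.eg r r g + V.en r r ξ)) +
      (V.tw1 r).en s s (V.eN r s η)) = (V.tw1 r).eg s s (V.e r s (V.a r s l g)) +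
      (V.tw1 r).en s s (V.eN r s η) +
      (V.tw1 r).en s s ((V.tw1 r).sg r s l (V.eg r r g + V.en r r ξ))
  abel

theorem d_s_eq (hl : Single Γ r s l) (u : V.V s) (η : V.N s) (g : V.V r) (ν : V.N r) :
    (V.tw3 r s).d s (((V.tw1 r).tw1 s).e r s
      (V.ya r s u + V.yb r s η + V.yc r s l (V.eg r r g + V.en r r ν))) =
    ((V.tw1 r).tw1 s).e r s (V.ya r s (V.d s u) + V.yb r s (V.cut s r (V.j s u) + V.dN s η) +
      V.yc r s l (V.eg r r (V.d r g) + V.en r r (V.j r g + V.dN r ν + V.sg s r l u))) := by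
  rw [tw_d_e]
  congr 1
  rw [map_add, map_add, V.d_ya hl, V.d_yb, V.d_yc, map_add ((V.tw1 r).d r), tw_d_eg, tw_d_en]
  simp only [map_add]
  abel

theorem rho_inj {g g' : V.V r} {ν ν' : V.N r}
    (h : V.eg r r g + V.en r r ν = V.eg r r g' + V.en r r ν') : g = g' ∧ ν = ν' := by
  constructor
  · have := congrArg (fun z : V.TV r => z.1) h
    change g + 0 = g' + 0 at this
    simpa using this
  · have := congrArg (fun z : V.TV r => z.2.1) h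
    change 0 + ν = 0 + ν' at this
    simpa using this

theorem e_inj (V : DG k Γ) (r x : X) {v v' : V.V x} (h : V.e r x v = V.e r x v') : v = v' :=
  congrArg (fun z : V.TV x => z.2.2) h

theorem iof_qic_s (hl : Single Γ r s l) :
    QIc (V.Bd r s l s) (V.Bgr r s s) ((V.tw3 r s).d s) ((V.tw3 r s).gr s) (V.iof r s l s) := by
  have hne := hl.ne
  constructor
  · rintro n ⟨g, u, ξ, η, v⟩ hz hd0 ⟨w, hw, hwz⟩
    obtain ⟨hg, rfl, hξ, hη, rfl⟩ := (mem_Bgr_s hne).1 hz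
    obtain ⟨y, hy, rfl⟩ := exists_of_gr_ne hne.symm hw
    obtain ⟨u', hu', η', hη', ρ', hρ', rfl⟩ := V.exists_y hl hy
    obtain ⟨g', hg', ν', hν', rfl⟩ := exists_of_gr hρ'
    rw [V.d_s_eq hl, V.iof_s_eq hl (mem_xgr.1 hξ).2 (mem_xgr.1 hη).2] at hwz
    obtain ⟨e1, e2, e3⟩ := V.y_inj hl (by
      rw [map_add, cut_cut, ← dN_cut, (mem_xgr.1 hη').2]) (mem_xgr.1 hη).2 (e_inj _ _ _ hwz)
    obtain ⟨e4, e5⟩ := V.rho_inj e3
    have hσ := mem_grN.1 hν' ⟨(s, l), hl.adj⟩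
    set σ : V.V s := ν' ⟨(s, l), hl.adj⟩ with hσ'
    have e6 : u' = V.a r s l g' + V.d s σ := by
      have := congrFun e5 ⟨(s, l), hl.adj⟩
      rw [xgr_at _ (mem_xgr.1 hξ).2, Pi.add_apply, Pi.add_apply, j_apply, dN_apply,
        sg_of V hl.adj, Pi.single_eq_same] at this
      exact (eq_of_add_eq_zero_char2 (k := k) this).symm
    refine ⟨(g', 0, V.cut r s ν', η' + V.cut s r (V.j s σ), 0),
      (mem_Bgr_s hne).2 ⟨hg', rfl, xgr_cut hν', Submodule.add_mem _ hη' (xgr_cut (gr_j hσ)),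
        rfl⟩, ?_⟩
    rw [Bd_s hne]
    refine Prod.ext e4 (Prod.ext (map_zero _) (Prod.ext ?_ (Prod.ext ?_ (map_zero _))))
    · change V.cut r s (V.j r g') + V.dN r (V.cut r s ν') = ξ
      rw [← (mem_xgr.1 hξ).2, ← e5, map_add, map_add, cut_sg_self, dN_cut, add_zero]
    · change V.cut s r (V.j s (V.a r s l g')) + V.dN s (η' + V.cut s r (V.j s σ)) = η
      rw [← e2, e6, map_add (V.dN s), dN_cut, dN_j, map_add (V.j s), map_add (V.cut s r)]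
      abel
  · intro n w hw hdw
    obtain ⟨y, hy, rfl⟩ := exists_of_gr_ne hne.symm hw
    obtain ⟨u, hu, η, hη, ρ, hρ, rfl⟩ := V.exists_y hl hy
    obtain ⟨g, hg, ν, hν, rfl⟩ := exists_of_gr hρ
    have h0 : (V.tw3 r s).d s (((V.tw1 r).tw1 s).e r s
      (V.ya r s u + V.yb r s η + V.yc r s l (V.eg r r g + V.en r r ν))) =
      ((V.tw1 r).tw1 s).e r s (V.ya r s 0 + V.yb r s 0 + V.yc r s l (V.eg r r 0 + V.en r r 0)) := by
      rw [hdw]; simp only [map_zero, add_zero]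
    rw [V.d_s_eq hl] at h0
    obtain ⟨e1, e2, e3⟩ := V.y_inj hl (by
      rw [map_add, cut_cut, ← dN_cut, (mem_xgr.1 hη).2]) (map_zero _) (e_inj _ _ _ h0)
    obtain ⟨e4, e5⟩ := V.rho_inj e3
    have hσ := mem_grN.1 hν ⟨(s, l), hl.adj⟩
    set σ : V.V s := ν ⟨(s, l), hl.adj⟩ with hσ'
    have e6 : V.d s σ = u + V.a r s l g := by
      have := congrFun e5 ⟨(s, l), hl.adj⟩
      rw [Pi.add_apply, Pi.add_apply, j_apply, dN_apply,
        sg_of V hl.adj, Pi.single_eq_same] at this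
      change V.a r s l g + V.d s σ + u = 0 at this
      apply eq_of_add_eq_zero_char2 (k := k)
      rw [← this]; abel
    refine ⟨(g, 0, V.cut r s ν, η + V.cut s r (V.j s σ), 0),
      (mem_Bgr_s hne).2 ⟨hg, rfl, xgr_cut hν, Submodule.add_mem _ hη (xgr_cut (gr_j hσ)),
        rfl⟩, ?_, ((V.tw1 r).tw1 s).e r s (V.ya r s σ), ?_, ?_⟩
    · rw [Bd_s hne]
      refine Prod.ext e4 (Prod.ext (map_zero _) (Prod.ext ?_ (Prod.ext ?_ (map_zero _))))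
      · change V.cut r s (V.j r g) + V.dN r (V.cut r s ν) = 0
        have := congrArg (V.cut r s) e5
        rw [map_add, map_add, cut_sg_self, add_zero, map_zero] at this
        rw [dN_cut, this]
      · change V.cut s r (V.j s (V.a r s l g)) + V.dN s (η + V.cut s r (V.j s σ)) = 0
        rw [map_add (V.dN s), dN_cut, dN_j, e6, map_add (V.j s), map_add (V.cut s r)]
        have h1 := add_self_char2 (k := k) (V.cut s r (V.j s (V.a r s l g)))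
        calc V.cut s r (V.j s (V.a r s l g)) + (V.dN s η +
              (V.cut s r (V.j s u) + V.cut s r (V.j s (V.a r s l g))))
            = (V.cut s r (V.j s (V.a r s l g)) + V.cut s r (V.j s (V.a r s l g))) +
              (V.cut s r (V.j s u) + V.dN s η) := by abel
          _ = 0 := by rw [h1, e2, add_zero]
    · refine e_gr _ hne.symm ?_
      exact eg_gr _ _ (e_gr _ hne.symm (by rwa [sub_add_cancel]))
    · rw [V.iof_s_eq hl (cut_cut _ _ _ _) (by rw [map_add, (mem_xgr.1 hη).2, cut_cut])]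
      rw [tw_d_e, V.d_ya hl, ← map_sub]
      congr 1
      have h1 : ν = V.cut r s ν + V.sg s r l σ := (V.cut_add_sg hl.adj hl.uniq ν).symm
      conv_rhs => rw [h1]
      rw [e6]
      simp only [map_add]
      have h2 : V.cut r s (V.sg s r l σ) = 0 := cut_sg_self V σ
      apply eq_of_add_eq_zero_char2 (k := k)
      rw [cut_cut, h2, map_zero, map_zero, add_zero]
      have c1 := add_self_char2 (k := k) (V.ya r s u)
      have c2 := add_self_char2 (k := k) (V.yc r s l (V.en r r (V.sg s r l σ)))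
      calc _ = (V.ya r s u + V.ya r s u) + (V.yc r s l (V.en r r (V.sg s r l σ)) +
            V.yc r s l (V.en r r (V.sg s r l σ))) := by abel
        _ = 0 := by rw [c1, c2, add_zero]

end atS

section atR

variable (V : DG k Γ) {r s : X} {l : Λ}

/-- `ρ' ↦ (ρ'; 0; 0)` -/
def rA (V : DG k Γ) (r s : X) : (V.tw1 r).V r →ₗ[k] (V.tw3 r s).V r :=
  ((V.tw1 r).tw1 s).eg r r ∘ₗ (V.tw1 r).e s r

/-- `ξ ↦ (0; ξ; 0)` -/
def rX (V : DG k Γ) (r s : X) : V.N r →ₗ[k] (V.tw3 r s).V r :=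
  ((V.tw1 r).tw1 s).en r r ∘ₗ (V.tw1 r).eN s r ∘ₗ V.eN r r

/-- `y ↦ (0; 0; y)` -/
def rY (V : DG k Γ) (r s : X) (l : Λ) : ((V.tw1 r).tw1 s).V s →ₗ[k] (V.tw3 r s).V r :=
  ((V.tw1 r).tw1 s).en r r ∘ₗ ((V.tw1 r).tw1 s).sg s r l

theorem iof_r_eq {u : V.V s} {ξ : V.N r} {η : V.N s} {v : V.V r}
    (hξ : V.cut r s ξ = ξ) (hη : V.cut s r η = η) :
    V.iof r s l r (0, u, ξ, η, v) = V.rA r s (V.en r r (V.sg s r l u)) + V.rX r s ξ +
      V.rY r s l (V.ya r s u + V.yb r s η) := by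
  rw [iof_r V, iotaR_apply, hξ, hη, map_add (((V.tw1 r).tw1 s).en r r)]
  change V.rA r s (V.en r r (V.sg s r l u)) + (V.rY r s l (V.ya r s u + V.yb r s η) +
    V.rX r s ξ) = _
  abel

theorem d_rA (hl : Single Γ r s l) (ρ : (V.tw1 r).V r) : (V.tw3 r s).d r (V.rA r s ρ) =
    V.rA r s ((V.tw1 r).d r ρ) + V.rX r s (V.cut r s (V.j r (V.tv r r ρ))) +
      V.rY r s l (V.yc r s l ρ) := by
  change (((V.tw1 r).tw1 s).tw1 r).d r (((V.tw1 r).tw1 s).eg r r ((V.tw1 r).e s r ρ)) = _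
  rw [tw_d_eg, tw_d_e, tw_j_e (V.tw1 r) hl.adj hl.uniq, tw_j_self, cut_eN, map_add, ← add_assoc]
  rfl

theorem d_rX (ξ : V.N r) : (V.tw3 r s).d r (V.rX r s ξ) = V.rX r s (V.dN r ξ) := by
  change (((V.tw1 r).tw1 s).tw1 r).d r (((V.tw1 r).tw1 s).en r r ((V.tw1 r).eN s r (V.eN r r ξ))) = _
  rw [tw_d_en, tw_dN_eN, tw_dN_eN]
  rfl

theorem d_rY (y : ((V.tw1 r).tw1 s).V s) : (V.tw3 r s).d r (V.rY r s l y) =
    V.rY r s l (((V.tw1 r).tw1 s).d s y) := by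
  change (((V.tw1 r).tw1 s).tw1 r).d r (((V.tw1 r).tw1 s).en r r (((V.tw1 r).tw1 s).sg s r l y)) = _
  rw [tw_d_en, dN_sg]
  rfl

theorem d_r_eq (hl : Single Γ r s l) (ρ' : (V.tw1 r).V r) (ξ : V.N r) (u : V.V s) (η : V.N s)
    (ρ : (V.tw1 r).V r) :
    (V.tw3 r s).d r (V.rA r s ρ' + V.rX r s ξ + V.rY r s l
      (V.ya r s u + V.yb r s η + V.yc r s l ρ)) =
    V.rA r s ((V.tw1 r).d r ρ') + V.rX r s (V.cut r s (V.j r (V.tv r r ρ')) + V.dN r ξ) +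
      V.rY r s l (V.ya r s (V.d s u) + V.yb r s (V.cut s r (V.j s u) + V.dN s η) +
        V.yc r s l (ρ' + V.en r r (V.sg s r l u) + (V.tw1 r).d r ρ)) := by
  rw [map_add, map_add, V.d_rA hl, V.d_rX, V.d_rY, map_add (((V.tw1 r).tw1 s).d s),
    map_add (((V.tw1 r).tw1 s).d s), V.d_ya hl, V.d_yb, V.d_yc]
  simp only [map_add]
  abel

theorem exists_r {n : ℤ} (hl : Single Γ r s l) {w : (V.tw3 r s).V r}
    (hw : w ∈ (V.tw3 r s).gr r n) : ∃ ρ' ∈ (V.tw1 r).gr r (n + 1), ∃ ξ ∈ V.xgr r s n,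
      ∃ u ∈ V.gr s (n + 1), ∃ η ∈ V.xgr s r n, ∃ ρ ∈ (V.tw1 r).gr r n,
      w = V.rA r s ρ' + V.rX r s ξ + V.rY r s l (V.ya r s u + V.yb r s η + V.yc r s l ρ) := by
  obtain ⟨y', hy', M, hM, rfl⟩ := exists_of_gr hw
  obtain ⟨ρ', hρ', rfl⟩ := exists_of_gr_ne hl.ne hy'
  obtain ⟨M', hM', hM''⟩ := exists_eN hM
  obtain ⟨ξ, hξ, hξ'⟩ := exists_eN_self (mem_xgr.1 hM').1
  obtain ⟨u, hu, η, hη, ρ, hρ, hy⟩ := V.exists_y hl (mem_grN.1 hM ⟨(s, l), hl.adj⟩)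
  have h2 : M' = V.eN r r (V.cut r s ξ) := by
    rw [← cut_eN, ← hξ', (mem_xgr.1 hM').2]
  refine ⟨ρ', hρ', V.cut r s ξ, xgr_cut hξ, u, hu, η, hη, ρ, hρ, ?_⟩
  rw [← hy]
  have h1 := ((V.tw1 r).tw1 s).cut_add_sg hl.adj hl.uniq M
  rw [hM'', h2] at h1
  conv_lhs => rw [← h1]
  rw [map_add, ← add_assoc]
  rfl

theorem r_inj (hl : Single Γ r s l) {ρ ρ' : (V.tw1 r).V r} {ξ ξ' : V.N r}
    {y y' : ((V.tw1 r).tw1 s).V s} (hξ : V.cut r s ξ = ξ) (hξ' : V.cut r s ξ' = ξ')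
    (h : V.rA r s ρ + V.rX r s ξ + V.rY r s l y = V.rA r s ρ' + V.rX r s ξ' + V.rY r s l y') :
    ρ = ρ' ∧ ξ = ξ' ∧ y = y' := by
  have h1 : ∀ (ρ : (V.tw1 r).V r) (ξ : V.N r) (y : ((V.tw1 r).tw1 s).V s),
      V.rA r s ρ + V.rX r s ξ + V.rY r s l y =
      (((V.tw1 r).e s r ρ, (V.tw1 r).eN s r (V.eN r r ξ) + ((V.tw1 r).tw1 s).sg s r l y, 0) :
        ((V.tw1 r).tw1 s).TV r) := by
    intro ρ ξ y
    change ((((V.tw1 r).e s r ρ + 0) + 0, (0 + (V.tw1 r).eN s r (V.eN r r ξ)) +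
      ((V.tw1 r).tw1 s).sg s r l y, (0 + 0) + 0) : ((V.tw1 r).tw1 s).TV r) = _
    simp
  rw [h1, h1] at h
  have h2 : (V.tw1 r).e s r ρ = (V.tw1 r).e s r ρ' :=
    congrArg (fun z : ((V.tw1 r).tw1 s).TV r => z.1) h
  have h3 : (V.tw1 r).eN s r (V.eN r r ξ) + ((V.tw1 r).tw1 s).sg s r l y =
      (V.tw1 r).eN s r (V.eN r r ξ') + ((V.tw1 r).tw1 s).sg s r l y' :=
    congrArg (fun z : ((V.tw1 r).tw1 s).TV r => z.2.1) h
  have h4 : y = y' := by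
    have h5 := congrFun h3 ⟨(s, l), hl.adj⟩
    rw [Pi.add_apply, Pi.add_apply, eN_apply, eN_apply, eN_apply, eN_apply, xgr_at _ hξ,
      xgr_at _ hξ', map_zero, map_zero,
      sg_of _ hl.adj, sg_of _ hl.adj, Pi.single_eq_same, Pi.single_eq_same, zero_add,
      zero_add] at h5
    exact h5
  subst h4
  exact ⟨e_inj _ _ _ h2, V.eN_inj r r ((V.tw1 r).eN_inj s r (add_right_cancel h3)), rfl⟩

theorem iof_qic_r (hl : Single Γ r s l) :
    QIc (V.Bd r s l r) (V.Bgr r s r) ((V.tw3 r s).d r) ((V.tw3 r s).gr r) (V.iof r s l r) := by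
  have hne := hl.ne
  have htv : ∀ u : V.V s, V.tv r r (V.en r r (V.sg s r l u)) = V.a s r l u := fun u => by
    rw [tv_en, V.i_sg hl.adj]
  have htvd : ∀ ρ : (V.tw1 r).V r, V.d r (V.tv r r ρ) = V.tv r r ((V.tw1 r).d r ρ) := fun ρ =>
    (tval_td (P := fun y => y = r) r ρ).symm
  constructor
  · rintro n ⟨g, u, ξ, η, v⟩ hz hd0 ⟨w, hw, hwz⟩
    obtain ⟨rfl, hu, hξ, hη, rfl⟩ := mem_Bgr_r.1 hz
    obtain ⟨ρ', hρ', ξ', hξ', u', hu', η', hη', ρ, hρ, rfl⟩ := V.exists_r hl hw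
    rw [V.d_r_eq hl, V.iof_r_eq (mem_xgr.1 hξ).2 (mem_xgr.1 hη).2] at hwz
    obtain ⟨e1, e2, e3⟩ := V.r_inj hl (by
      rw [map_add, cut_cut, ← dN_cut, (mem_xgr.1 hξ').2]) (mem_xgr.1 hξ).2 hwz
    rw [← add_zero (V.ya r s u + V.yb r s η), ← map_zero (V.yc r s l)] at e3
    obtain ⟨e4, e5, e6⟩ := V.y_inj hl (by
      rw [map_add, cut_cut, ← dN_cut, (mem_xgr.1 hη').2]) (mem_xgr.1 hη).2 e3
    have htρ : V.tv r r ρ ∈ V.gr r (n - 1) := by
      obtain ⟨g1, hg1, ν1, hν1, rfl⟩ := exists_of_gr hρ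
      rw [map_add, tv_eg, tv_en]
      have := V.gr_h hg1
      rw [add_sub_cancel_right] at this
      exact Submodule.add_mem _ this (gr_i hν1)
    refine ⟨(0, u', ξ' + V.cut r s (V.j r (V.tv r r ρ)), η', 0),
      mem_Bgr_r.2 ⟨rfl, hu', Submodule.add_mem _ hξ' (xgr_cut (gr_j htρ)), hη', rfl⟩, ?_⟩
    rw [Bd_r]
    refine Prod.ext (map_zero _) (Prod.ext e4 (Prod.ext ?_ (Prod.ext e5 (map_zero _))))
    change V.cut r s (V.j r (V.a s r l u')) +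
      V.dN r (ξ' + V.cut r s (V.j r (V.tv r r ρ))) = ξ
    have e7 : V.tv r r ρ' = V.a s r l u' + V.d r (V.tv r r ρ) := by
      have := congrArg (V.tv r r) e6
      rw [map_add, map_add, htv, ← htvd, map_zero, add_assoc] at this
      exact eq_of_add_eq_zero_char2 (k := k) this
    rw [← e2, e7, map_add (V.dN r), dN_cut, dN_j, map_add (V.j r), map_add (V.cut r s)]
    abel
  · intro n w hw hdw
    obtain ⟨ρ', hρ', ξ, hξ, u, hu, η, hη, ρ, hρ, rfl⟩ := V.exists_r hl hw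
    have h0 : (V.tw3 r s).d r (V.rA r s ρ' + V.rX r s ξ + V.rY r s l
        (V.ya r s u + V.yb r s η + V.yc r s l ρ)) =
      V.rA r s 0 + V.rX r s 0 + V.rY r s l (V.ya r s 0 + V.yb r s 0 + V.yc r s l 0) := by
      rw [hdw]; simp only [map_zero, add_zero]
    rw [V.d_r_eq hl] at h0
    obtain ⟨e1, e2, e3⟩ := V.r_inj hl (by
      rw [map_add, cut_cut, ← dN_cut, (mem_xgr.1 hξ).2]) (map_zero _) h0
    obtain ⟨e4, e5, e6⟩ := V.y_inj hl (by
      rw [map_add, cut_cut, ← dN_cut, (mem_xgr.1 hη).2]) (map_zero _) e3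
    have htρ : V.tv r r ρ ∈ V.gr r n := by
      obtain ⟨g1, hg1, ν1, hν1, rfl⟩ := exists_of_gr hρ
      rw [map_add, tv_eg, tv_en]
      have := V.gr_h hg1
      rw [add_sub_cancel_right] at this
      exact Submodule.add_mem _ this (gr_i hν1)
    have e7 : V.tv r r ρ' = V.a s r l u + V.d r (V.tv r r ρ) := by
      have := congrArg (V.tv r r) e6
      rw [map_add, map_add, htv, ← htvd, map_zero, add_assoc] at this
      exact eq_of_add_eq_zero_char2 (k := k) this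
    have e8 : (V.tw1 r).d r ρ = ρ' + V.en r r (V.sg s r l u) := by
      apply eq_of_add_eq_zero_char2 (k := k)
      rw [← e6]; abel
    refine ⟨(0, u, ξ + V.cut r s (V.j r (V.tv r r ρ)), η, 0),
      mem_Bgr_r.2 ⟨rfl, hu, Submodule.add_mem _ hξ (xgr_cut (gr_j htρ)), hη, rfl⟩, ?_,
      V.rA r s ρ, ?_, ?_⟩
    · rw [Bd_r]
      refine Prod.ext (map_zero _) (Prod.ext e4 (Prod.ext ?_ (Prod.ext e5 (map_zero _))))
      change V.cut r s (V.j r (V.a s r l u)) +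
        V.dN r (ξ + V.cut r s (V.j r (V.tv r r ρ))) = 0
      rw [← e2, e7, map_add (V.dN r), dN_cut, dN_j, map_add (V.j r), map_add (V.cut r s)]
      abel
    · refine eg_gr _ _ (e_gr _ hne ?_)
      rwa [sub_add_cancel]
    · rw [V.iof_r_eq (by rw [map_add, (mem_xgr.1 hξ).2, cut_cut]) (mem_xgr.1 hη).2,
        V.d_rA hl, e8]
      simp only [map_add]
      apply c2_eq k
      abel_nf
      simp only [c2_int k, c2_neg_two k, add_zero, zero_add]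

end atR

section atX

variable (V : DG k Γ) {r s : X} {l : Λ}

theorem iof_qic_x {x : X} (hr : x ≠ r) (hs : x ≠ s) :
    QIc (V.Bd r s l x) (V.Bgr r s x) ((V.tw3 r s).d x) ((V.tw3 r s).gr x) (V.iof r s l x) := by
  constructor
  · rintro n ⟨g, u, ξ, η, v⟩ hz hd0 ⟨w, hw, hwz⟩
    obtain ⟨rfl, rfl, rfl, rfl, hv⟩ := (mem_Bgr_x hr hs).1 hz
    obtain ⟨w2, hw2, rfl⟩ := exists_of_gr_ne hr hw
    obtain ⟨w1, hw1, rfl⟩ := exists_of_gr_ne hs hw2
    obtain ⟨w0, hw0, rfl⟩ := exists_of_gr_ne hr hw1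
    rw [iof_x V hr hs, iotaX_apply, tw_d_e, tw_d_e, tw_d_e] at hwz
    have h1 := e_inj _ _ _ (e_inj _ _ _ (e_inj _ _ _ hwz))
    refine ⟨(0, 0, 0, 0, w0), (mem_Bgr_x hr hs).2 ⟨rfl, rfl, rfl, rfl, hw0⟩, ?_⟩
    rw [Bd_x hr hs, h1]
    simp only [map_zero]
  · intro n w hw hdw
    obtain ⟨w2, hw2, rfl⟩ := exists_of_gr_ne hr hw
    obtain ⟨w1, hw1, rfl⟩ := exists_of_gr_ne hs hw2
    obtain ⟨w0, hw0, rfl⟩ := exists_of_gr_ne hr hw1
    have h0 : (V.tw3 r s).d x (((V.tw1 r).tw1 s).e r x ((V.tw1 r).e s x (V.e r x w0))) =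
        ((V.tw1 r).tw1 s).e r x ((V.tw1 r).e s x (V.e r x 0)) := by
      rw [hdw]; simp only [map_zero]
    rw [tw_d_e, tw_d_e, tw_d_e] at h0
    have h1 := e_inj _ _ _ (e_inj _ _ _ (e_inj _ _ _ h0))
    refine ⟨(0, 0, 0, 0, w0), (mem_Bgr_x hr hs).2 ⟨rfl, rfl, rfl, rfl, hw0⟩, ?_, 0,
      Submodule.zero_mem _, ?_⟩
    · rw [Bd_x hr hs, h1]
      simp only [map_zero]
      rfl
    · rw [iof_x V hr hs, iotaX_apply, sub_self]
      exact LinearMap.map_zero _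

end atX

/-- **All the maps of `ι` are quasi-isomorphisms.** -/
theorem iof_qic (V : DG k Γ) {r s : X} {l : Λ} (hl : Single Γ r s l) (x : X) :
    QIc (V.Bd r s l x) (V.Bgr r s x) ((V.tw3 r s).d x) ((V.tw3 r s).gr x) (V.iof r s l x) := by
  by_cases hr : x = r
  · subst hr; exact V.iof_qic_r hl
  · by_cases hs : x = s
    · subst hs; exact V.iof_qic_s hl
    · exact V.iof_qic_x hr hs

end DG

end Vale.Agent.P203.Dg
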