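import Vale.Agent.P203.Dg.Iota
import Vale.Agent.P203.Dg.IotaQI
import Vale.Agent.P203.Dg.BSwap

/-!
# The braid relation for the twists at two vertices joined by exactly one edge
-/

set_option linter.all false

namespace Vale.Agent.P203.Dg

open Vale.Agent.P203.Mod

variable {S X Λ : Type} [Fintype X] [DecidableEq X] [Fintype Λ] [DecidableEq Λ] [DecidableEq S]
variable {k : Type} [Field k] [CharP k 2] {Γ : FGraph S X Λ}

namespace DG

theorem iota_qi (V : DG k Γ) {r s : X} {l : Λ} (hl : Single Γ r s l) : (V.iota hl).QI :=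
  fun x => ⟨(V.iof_qic hl x).inj, (V.iof_qic hl x).surj⟩

theorem sim_tw3 (V : DG k Γ) {r s : X} {l : Λ} (hl : Single Γ r s l) :
    Sim (V.tw3 r s) (V.tw3 s r) :=
  ((V.iota hl).sim (V.iota_qi hl)).symm.trans
    ((V.sim_swap r s l hl).trans ((V.iota hl.symm).sim (V.iota_qi hl.symm)))

/-- **The braid relation.** -/
theorem sim_braid (r s : X) (l0 : Λ) (h : ∀ l, Γ.adj r s l = true ↔ l = l0) (V : DG k Γ)
    (hr : Indep Γ (fun y => y = r)) (hs : Indep Γ (fun y => y = s)) :
    Sim (((V.twist (fun y => y = r) hr).twist (fun y => y = s) hs).twist (fun y => y = r) hr)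
      (((V.twist (fun y => y = s) hs).twist (fun y => y = r) hr).twist (fun y => y = s) hs) :=
  V.sim_tw3 (r := r) (s := s) (l := l0) ⟨(h l0).2 rfl, fun m hm => (h m).1 hm⟩

end DG

end Vale.Agent.P203.Dg
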