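import Vale.Agent.P203.Dg.Defs

/-!
# Cohomology of dg modules: the functor `H n : DG k Γ → PMod k Γ`
-/

set_option linter.all false

namespace Vale.Agent.P203.Dg

open Vale.Agent.P203.Mod

variable {S X Λ : Type} [Fintype X] [DecidableEq X] [Fintype Λ] [DecidableEq Λ] [DecidableEq S]
variable {k : Type} [Field k] {Γ : FGraph S X Λ}

namespace DG

/-- Cocycles of degree `n` at `x`. -/
def Z (V : DG k Γ) (n : ℤ) (x : X) : Submodule k (V.V x) := V.gr x n ⊓ LinearMap.ker (V.d x)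

/-- Coboundaries of degree `n` at `x`. -/
def B (V : DG k Γ) (n : ℤ) (x : X) : Submodule k (V.V x) := (V.gr x (n - 1)).map (V.d x)

theorem mem_Z {V : DG k Γ} {n : ℤ} {x : X} {v : V.V x} :
    v ∈ V.Z n x ↔ v ∈ V.gr x n ∧ V.d x v = 0 := by
  simp [Z]

theorem mem_B {V : DG k Γ} {n : ℤ} {x : X} {v : V.V x} :
    v ∈ V.B n x ↔ ∃ u ∈ V.gr x (n - 1), V.d x u = v := by
  simp [B]

theorem B_le_Z (V : DG k Γ) (n : ℤ) (x : X) : V.B n x ≤ V.Z n x := by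
  intro v hv
  obtain ⟨u, hu, rfl⟩ := mem_B.1 hv
  refine mem_Z.2 ⟨?_, V.d_d _ _⟩
  have := V.gr_d hu
  rwa [sub_add_cancel] at this

theorem a_Z {V : DG k Γ} {n : ℤ} {x y : X} {l : Λ} (h : Γ.adj x y l = true) {v : V.V x}
    (hv : v ∈ V.Z n x) : V.a x y l v ∈ V.Z n y := by
  obtain ⟨h1, h2⟩ := mem_Z.1 hv
  exact mem_Z.2 ⟨V.gr_a h h1, by rw [V.d_a h, h2, map_zero]⟩

theorem a_B {V : DG k Γ} {n : ℤ} {x y : X} {l : Λ} (h : Γ.adj x y l = true) {v : V.V x}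
    (hv : v ∈ V.B n x) : V.a x y l v ∈ V.B n y := by
  obtain ⟨u, hu, rfl⟩ := mem_B.1 hv
  exact mem_B.2 ⟨V.a x y l u, V.gr_a h hu, V.d_a h u⟩

/-- The cohomology space. -/
abbrev HV (V : DG k Γ) (n : ℤ) (x : X) : Type := V.Z n x ⧸ (V.B n x).submoduleOf (V.Z n x)

/-- The class of a cocycle. -/
def cls (V : DG k Γ) (n : ℤ) (x : X) : V.Z n x →ₗ[k] V.HV n x := Submodule.mkQ _

theorem cls_surj (V : DG k Γ) (n : ℤ) (x : X) : Function.Surjective (V.cls n x) :=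
  Submodule.mkQ_surjective _

theorem cls_eq_zero {V : DG k Γ} {n : ℤ} {x : X} (v : V.Z n x) :
    V.cls n x v = 0 ↔ (v : V.V x) ∈ V.B n x := by
  rw [cls, Submodule.mkQ_apply, Submodule.Quotient.mk_eq_zero]
  rfl

theorem cls_eq {V : DG k Γ} {n : ℤ} {x : X} (v w : V.Z n x) :
    V.cls n x v = V.cls n x w ↔ (v : V.V x) - w ∈ V.B n x := by
  rw [← sub_eq_zero, ← map_sub, cls_eq_zero]
  rfl

/-- The arrow on cohomology. -/
def Ha (V : DG k Γ) (n : ℤ) (x y : X) (l : Λ) : V.HV n x →ₗ[k] V.HV n y :=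
  if h : Γ.adj x y l = true then
    Submodule.mapQ _ _ ((V.a x y l).restrict (p := V.Z n x) (q := V.Z n y) fun v hv => a_Z h hv)
      (by
        rintro ⟨v, hv⟩ hv'
        exact a_B h hv')
  else 0

theorem Ha_cls (V : DG k Γ) {n : ℤ} {x y : X} {l : Λ} (h : Γ.adj x y l = true) (v : V.Z n x) :
    V.Ha n x y l (V.cls n x v) = V.cls n y ⟨V.a x y l v, a_Z h v.2⟩ := by
  simp only [Ha, h, dif_pos]
  rfl

/-- The cohomology module in degree `n`. -/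
def H (n : ℤ) (V : DG k Γ) : PMod k Γ where
  V x := V.HV n x
  a x y l := V.Ha n x y l
  rel x v := by
    obtain ⟨v, rfl⟩ := V.cls_surj n x v
    have h1 : ∀ p : Γ.Nb x, V.Ha n p.1.1 x p.1.2 (V.Ha n x p.1.1 p.1.2 (V.cls n x v)) =
        V.cls n x ⟨V.a p.1.1 x p.1.2 (V.a x p.1.1 p.1.2 v), a_Z (Γ.symm p.2) (a_Z p.2 v.2)⟩ := by
      intro p
      rw [Ha_cls V p.2, Ha_cls V (Γ.symm p.2)]
    simp only [h1]
    rw [← map_sum, cls_eq_zero]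
    have h2 : ((∑ p : Γ.Nb x, (⟨V.a p.1.1 x p.1.2 (V.a x p.1.1 p.1.2 v),
        a_Z (Γ.symm p.2) (a_Z p.2 v.2)⟩ : V.Z n x) : V.Z n x) : V.V x) =
        V.d x (V.h x v) := by
      rw [Submodule.coe_sum]
      have := V.rel x v
      rw [(mem_Z.1 v.2).2, map_zero, add_zero] at this
      exact this
    rw [h2]
    exact mem_B.2 ⟨_, V.gr_h (mem_Z.1 v.2).1, rfl⟩

/-- The class of a cocycle, as an element of the module `H n V`. -/
def Hc (V : DG k Γ) (n : ℤ) (x : X) : V.Z n x →ₗ[k] (H n V).V x := V.cls n x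

theorem Hc_surj (V : DG k Γ) (n : ℤ) (x : X) : Function.Surjective (V.Hc n x) :=
  Submodule.mkQ_surjective _

theorem Hc_eq_zero {V : DG k Γ} {n : ℤ} {x : X} (v : V.Z n x) :
    V.Hc n x v = 0 ↔ (v : V.V x) ∈ V.B n x := cls_eq_zero v

theorem Hc_eq {V : DG k Γ} {n : ℤ} {x : X} (v w : V.Z n x) :
    V.Hc n x v = V.Hc n x w ↔ (v : V.V x) - w ∈ V.B n x := cls_eq v w

theorem H_a_Hc (V : DG k Γ) {n : ℤ} {x y : X} {l : Λ} (h : Γ.adj x y l = true) (v : V.Z n x) :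
    (H n V).a x y l (V.Hc n x v) = V.Hc n y ⟨V.a x y l v, a_Z h v.2⟩ := Ha_cls V h v

/-- `H^n_x = 0`. -/
def HZero (V : DG k Γ) (n : ℤ) (x : X) : Prop := ∀ v ∈ V.gr x n, V.d x v = 0 →
  ∃ u ∈ V.gr x (n - 1), V.d x u = v

theorem hZero_iff {V : DG k Γ} {n : ℤ} {x : X} : V.HZero n x ↔ ∀ v : (H n V).V x, v = 0 := by
  constructor
  · intro h v
    obtain ⟨v, rfl⟩ := V.Hc_surj n x v
    rw [Hc_eq_zero]
    exact mem_B.2 (h v (mem_Z.1 v.2).1 (mem_Z.1 v.2).2)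
  · intro h v hv hd
    have := h (V.Hc n x ⟨v, mem_Z.2 ⟨hv, hd⟩⟩)
    rw [Hc_eq_zero] at this
    exact mem_B.1 this

end DG

/-- Homotopy morphisms (characteristic 2): `f` is a chain map, `fa` a homotopy for the
compatibility with the arrows, `fh` a second order homotopy for the compatibility with `h`. -/
structure Mor (V W : DG k Γ) where
  /-- the chain map -/
  f : ∀ x, V.V x →ₗ[k] W.V x
  /-- the homotopies along the arrows -/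
  fa : ∀ x y, Λ → (V.V x →ₗ[k] W.V y)
  /-- the second order homotopies -/
  fh : ∀ x, V.V x →ₗ[k] W.V x
  d_f : ∀ x v, W.d x (f x v) = f x (V.d x v)
  a_f : ∀ {x y l}, Γ.adj x y l = true → ∀ v,
    W.a x y l (f x v) + f y (V.a x y l v) = W.d y (fa x y l v) + fa x y l (V.d x v)
  h_f : ∀ x v, W.h x (f x v) + f x (V.h x v) +
    ∑ p : Γ.Nb x, (W.a p.1.1 x p.1.2 (fa x p.1.1 p.1.2 v) + fa p.1.1 x p.1.2 (V.a x p.1.1 p.1.2 v))
      = W.d x (fh x v) + fh x (V.d x v)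
  gr_f : ∀ {x n v}, v ∈ V.gr x n → f x v ∈ W.gr x n
  gr_fa : ∀ {x y l n v}, Γ.adj x y l = true → v ∈ V.gr x n → fa x y l v ∈ W.gr y (n - 1)
  gr_fh : ∀ {x n v}, v ∈ V.gr x n → fh x v ∈ W.gr x (n - 2)

/-- Quasi-isomorphism at the vertex `x`, elementary form. -/
structure Mor.QIat {V W : DG k Γ} (φ : Mor V W) (x : X) : Prop where
  inj : ∀ n, ∀ v ∈ V.gr x n, V.d x v = 0 → (∃ w ∈ W.gr x (n - 1), W.d x w = φ.f x v) →
    ∃ u ∈ V.gr x (n - 1), V.d x u = v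
  surj : ∀ n, ∀ w ∈ W.gr x n, W.d x w = 0 →
    ∃ v ∈ V.gr x n, V.d x v = 0 ∧ ∃ u ∈ W.gr x (n - 1), W.d x u = w - φ.f x v

/-- Quasi-isomorphisms. -/
def Mor.QI {V W : DG k Γ} (φ : Mor V W) : Prop := ∀ x, φ.QIat x

namespace Mor

variable {V W : DG k Γ}

theorem f_Z (φ : Mor V W) {n : ℤ} {x : X} {v : V.V x} (hv : v ∈ V.Z n x) :
    φ.f x v ∈ W.Z n x := by
  obtain ⟨h1, h2⟩ := DG.mem_Z.1 hv
  exact DG.mem_Z.2 ⟨φ.gr_f h1, by rw [φ.d_f, h2, map_zero]⟩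

theorem f_B (φ : Mor V W) {n : ℤ} {x : X} {v : V.V x} (hv : v ∈ V.B n x) :
    φ.f x v ∈ W.B n x := by
  obtain ⟨u, hu, rfl⟩ := DG.mem_B.1 hv
  exact DG.mem_B.2 ⟨φ.f x u, φ.gr_f hu, φ.d_f x u⟩

/-- The map on cohomology spaces. -/
def Hf (φ : Mor V W) (n : ℤ) (x : X) : (DG.H n V).V x →ₗ[k] (DG.H n W).V x :=
  Submodule.mapQ _ _ ((φ.f x).restrict (p := V.Z n x) (q := W.Z n x) fun v hv => φ.f_Z hv)
    (by
      rintro ⟨v, hv⟩ hv'
      exact φ.f_B hv')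

theorem Hf_Hc (φ : Mor V W) (n : ℤ) (x : X) (v : V.Z n x) :
    φ.Hf n x (V.Hc n x v) = W.Hc n x ⟨φ.f x v, φ.f_Z v.2⟩ := rfl

/-- The homomorphism of modules induced on cohomology (characteristic 2). -/
def H [CharP k 2] (φ : Mor V W) (n : ℤ) : PMod.Hom (DG.H n V) (DG.H n W) where
  f x := φ.Hf n x
  comm {x y l} h v := by
    obtain ⟨v, rfl⟩ := V.Hc_surj n x v
    rw [V.H_a_Hc h, Hf_Hc, Hf_Hc, W.H_a_Hc h, DG.Hc_eq]
    have h1 := φ.a_f h (v : V.V x)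
    rw [(DG.mem_Z.1 v.2).2, map_zero, add_zero] at h1
    refine DG.mem_B.2 ⟨φ.fa x y l v, φ.gr_fa h (DG.mem_Z.1 v.2).1, ?_⟩
    rw [← h1]
    show _ = φ.f y (V.a x y l v) - W.a x y l (φ.f x v)
    have h2 : ∀ w : W.V y, w = -w := by
      intro w
      have h3 : (2 : k) = 0 := CharP.cast_eq_zero k 2
      have h4 : w + w = 0 := by
        rw [← two_smul k w, h3, zero_smul]
      exact eq_neg_of_add_eq_zero_left h4
    rw [sub_eq_add_neg, ← h2, add_comm]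

theorem H_bij [CharP k 2] (φ : Mor V W) (hφ : φ.QI) (n : ℤ) : (φ.H n).Bij := by
  intro x
  constructor
  · rw [injective_iff_map_eq_zero]
    intro v hv
    obtain ⟨v, rfl⟩ := V.Hc_surj n x v
    have hv' : W.Hc n x ⟨φ.f x v, φ.f_Z v.2⟩ = 0 := hv
    rw [DG.Hc_eq_zero] at hv' ⊢
    exact DG.mem_B.2 ((hφ x).inj n v (DG.mem_Z.1 v.2).1 (DG.mem_Z.1 v.2).2 (DG.mem_B.1 hv'))
  · intro w
    obtain ⟨w, rfl⟩ := W.Hc_surj n x w
    obtain ⟨v, hv, hv', u, hu, huv⟩ := (hφ x).surj n w (DG.mem_Z.1 w.2).1 (DG.mem_Z.1 w.2).2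
    refine ⟨V.Hc n x ⟨v, DG.mem_Z.2 ⟨hv, hv'⟩⟩, ?_⟩
    symm
    show W.Hc n x w = W.Hc n x ⟨φ.f x v, _⟩
    rw [DG.Hc_eq]
    exact DG.mem_B.2 ⟨u, hu, huv⟩

theorem H_isom [CharP k 2] (φ : Mor V W) (hφ : φ.QI) (n : ℤ) :
    PMod.Isom (DG.H n V) (DG.H n W) := ⟨φ.H n, φ.H_bij hφ n⟩

end Mor

end Vale.Agent.P203.Dg
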