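import Vale.Agent.P203.Dg.Strict

/-!
# The cylinder of a homotopy morphism

A homotopy morphism `φ : Mor V W` gives a dg module `φ.cyl` with spaces `V x × W x × W x` and strict
morphisms `φ.cyl → V` (always a quasi-isomorphism) and `φ.cyl → W` (a quasi-isomorphism iff `φ` is).
Hence a homotopy morphism which is a quasi-isomorphism gives `Sim V W`.
-/

set_option linter.all false

namespace Vale.Agent.P203.Dg

open Vale.Agent.P203.Mod

variable {S X Λ : Type} [Fintype X] [DecidableEq X] [Fintype Λ] [DecidableEq Λ] [DecidableEq S]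
variable {k : Type} [Field k] [CharP k 2] {Γ : FGraph S X Λ}

namespace Mor

variable {V W : DG k Γ} (φ : Mor V W)

/-- The cylinder object of a homotopy morphism. -/
def cyl : DG k Γ where
  V x := V.V x × W.V x × W.V x
  a x y l := LinearMap.prod (V.a x y l ∘ₗ LinearMap.fst _ _ _)
    (LinearMap.prod (W.a x y l ∘ₗ LinearMap.fst _ _ _ ∘ₗ LinearMap.snd _ _ _)
      (W.a x y l ∘ₗ LinearMap.snd _ _ _ ∘ₗ LinearMap.snd _ _ _ + φ.fa x y l ∘ₗ LinearMap.fst _ _ _))
  d x := LinearMap.prod (V.d x ∘ₗ LinearMap.fst _ _ _)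
    (LinearMap.prod (W.d x ∘ₗ LinearMap.fst _ _ _ ∘ₗ LinearMap.snd _ _ _)
      (φ.f x ∘ₗ LinearMap.fst _ _ _ + LinearMap.fst _ _ _ ∘ₗ LinearMap.snd _ _ _ +
        W.d x ∘ₗ LinearMap.snd _ _ _ ∘ₗ LinearMap.snd _ _ _))
  h x := LinearMap.prod (V.h x ∘ₗ LinearMap.fst _ _ _)
    (LinearMap.prod (W.h x ∘ₗ LinearMap.fst _ _ _ ∘ₗ LinearMap.snd _ _ _)
      (W.h x ∘ₗ LinearMap.snd _ _ _ ∘ₗ LinearMap.snd _ _ _ + φ.fh x ∘ₗ LinearMap.fst _ _ _))
  gr x n := (V.gr x n).prod ((W.gr x n).prod (W.gr x (n - 1)))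
  d_d x v := by
    obtain ⟨v, w, c⟩ := v
    change ((V.d x (V.d x v), W.d x (W.d x w),
      φ.f x (V.d x v) + W.d x w + W.d x (φ.f x v + w + W.d x c)) : V.V x × W.V x × W.V x) = 0
    simp only [V.d_d, W.d_d, map_add, φ.d_f, Prod.mk_eq_zero, true_and]
    (apply c2_eq k; abel_nf; try simp only [c2_int k, c2_neg_one k, c2_neg_two k, add_zero, zero_add])
  d_a {x y l} hxy v := by
    obtain ⟨v, w, c⟩ := v
    change ((V.d y (V.a x y l v), W.d y (W.a x y l w), φ.f y (V.a x y l v) + W.a x y l w +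
      W.d y (W.a x y l c + φ.fa x y l v)) : V.V y × W.V y × W.V y) =
      (V.a x y l (V.d x v), W.a x y l (W.d x w), W.a x y l (φ.f x v + w + W.d x c) + φ.fa x y l (V.d x v))
    simp only [V.d_a hxy, W.d_a hxy, map_add, Prod.mk.injEq, true_and]
    linear_combination (norm := (apply c2_eq k; abel_nf; try simp only [c2_int k, c2_neg_one k, c2_neg_two k, add_zero, zero_add])) φ.a_f hxy v
  rel x v := by
    obtain ⟨v, w, c⟩ := v
    have hs : ∀ (g : Γ.Nb x → V.V x × W.V x × W.V x),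
        ∑ p, g p = (∑ p, (g p).1, ∑ p, (g p).2.1, ∑ p, (g p).2.2) := by
      intro g
      refine Prod.ext (by simp [Prod.fst_sum]) (Prod.ext (by simp [Prod.fst_sum, Prod.snd_sum]) (by simp [Prod.snd_sum]))
    rw [hs]
    change ((∑ p : Γ.Nb x, V.a p.1.1 x p.1.2 (V.a x p.1.1 p.1.2 v),
      ∑ p : Γ.Nb x, W.a p.1.1 x p.1.2 (W.a x p.1.1 p.1.2 w),
      ∑ p : Γ.Nb x, (W.a p.1.1 x p.1.2 (W.a x p.1.1 p.1.2 c + φ.fa x p.1.1 p.1.2 v) +
        φ.fa p.1.1 x p.1.2 (V.a x p.1.1 p.1.2 v))) : V.V x × W.V x × W.V x) =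
      (V.d x (V.h x v) + V.h x (V.d x v), W.d x (W.h x w) + W.h x (W.d x w),
        (φ.f x (V.h x v) + W.h x w + W.d x (W.h x c + φ.fh x v)) +
        (W.h x (φ.f x v + w + W.d x c) + φ.fh x (V.d x v)))
    have h1 := φ.h_f x v
    have h2 := W.rel x c
    rw [Finset.sum_add_distrib] at h1
    simp only [V.rel, W.rel, map_add, Prod.mk.injEq, true_and, Finset.sum_add_distrib]
    linear_combination (norm := (apply c2_eq k; abel_nf; try simp only [c2_int k, c2_neg_one k, c2_neg_two k, add_zero, zero_add])) h1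
  gr_d {x n v} hv := by
    obtain ⟨v, w, c⟩ := v
    obtain ⟨h0, h1, h2⟩ := hv
    refine ⟨V.gr_d h0, W.gr_d h1, ?_⟩
    have h3 := W.gr_d h2
    rw [show n - 1 + 1 = n + 1 - 1 by ring] at h3
    have h4 : n + 1 - 1 = n := by ring
    refine add_mem (add_mem ?_ ?_) h3
    · rw [h4]; exact φ.gr_f h0
    · rw [h4]; exact h1
  gr_h {x n v} hv := by
    obtain ⟨v, w, c⟩ := v
    obtain ⟨h0, h1, h2⟩ := hv
    refine ⟨V.gr_h h0, W.gr_h h1, add_mem (W.gr_h h2) ?_⟩
    have := φ.gr_fh h0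
    rw [show n - 2 = n - 1 - 1 by ring] at this
    exact this
  gr_a {x y l n v} hxy hv := by
    obtain ⟨v, w, c⟩ := v
    obtain ⟨h0, h1, h2⟩ := hv
    exact ⟨V.gr_a hxy h0, W.gr_a hxy h1, add_mem (W.gr_a hxy h2) (φ.gr_fa hxy h0)⟩

/-- The projection of the cylinder to the source. -/
def cylFst : HomS φ.cyl V where
  f x := LinearMap.fst _ _ _
  d_f x v := rfl
  a_f h v := rfl
  h_f x v := rfl
  gr_f hv := hv.1

/-- The projection of the cylinder to the target. -/
def cylSnd : HomS φ.cyl W where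
  f x := LinearMap.fst _ _ _ ∘ₗ LinearMap.snd _ _ _
  d_f x v := rfl
  a_f h v := rfl
  h_f x v := rfl
  gr_f hv := hv.2.1

theorem cyl_d_eq (x : X) (v v' : V.V x) (w c w' c' : W.V x) (h1 : V.d x v = v') (h2 : W.d x w = w')
    (h3 : φ.f x v + w + W.d x c = c') :
    φ.cyl.d x (v, w, c) = (v', w', c') := by
  subst h1 h2 h3; rfl

theorem cylFst_qi : φ.cylFst.QI := fun x =>
  { inj := by
      intro n v hv hd
      rintro ⟨w, hw, hdw⟩
      obtain ⟨v, y, c⟩ := v
      have hdw' : V.d x w = v := hdw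
      have hd' : ((V.d x v, W.d x y, φ.f x v + y + W.d x c) : V.V x × W.V x × W.V x) = 0 := hd
      simp only [Prod.mk_eq_zero] at hd'
      refine ⟨(w, c + φ.f x w, 0), ⟨hw, add_mem hv.2.2 (φ.gr_f hw), Submodule.zero_mem _⟩, ?_⟩
      apply φ.cyl_d_eq
      · exact hdw'
      · simp only [map_add, φ.d_f, hdw']
        linear_combination (norm := (apply c2_eq k; abel_nf; try simp only [c2_int k, c2_neg_one k, c2_neg_two k, add_zero, zero_add])) hd'.2.2
      · simp only [map_zero, add_zero]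
        (apply c2_eq k; abel_nf; try simp only [c2_int k, c2_neg_one k, c2_neg_two k, add_zero, zero_add])
    surj := by
      intro n w hw hd
      refine ⟨(w, φ.f x w, 0), ⟨hw, φ.gr_f hw, Submodule.zero_mem _⟩, ?_, 0,
        Submodule.zero_mem _, ?_⟩
      · apply φ.cyl_d_eq
        · exact hd
        · rw [φ.d_f, hd, map_zero]
        · simp only [map_zero, add_zero]
          (apply c2_eq k; abel_nf; try simp only [c2_int k, c2_neg_one k, c2_neg_two k, add_zero, zero_add])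
      · rw [map_zero]
        exact (sub_self w).symm }

theorem cylSnd_qi (hφ : φ.QI) : φ.cylSnd.QI := fun x =>
  { inj := by
      intro n v hv hd
      rintro ⟨w, hw, hdw⟩
      obtain ⟨v, y, c⟩ := v
      have hdw' : W.d x w = y := hdw
      have hd' : ((V.d x v, W.d x y, φ.f x v + y + W.d x c) : V.V x × W.V x × W.V x) = 0 := hd
      simp only [Prod.mk_eq_zero] at hd'
      obtain ⟨u, hu, hdu⟩ := (hφ x).inj n v hv.1 hd'.1 ⟨w + c, add_mem hw hv.2.2, by
        rw [map_add, hdw']; linear_combination (norm := (apply c2_eq k; abel_nf; try simp only [c2_int k, c2_neg_one k, c2_neg_two k, add_zero, zero_add])) hd'.2.2⟩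
      have hcyc : W.d x (φ.f x u + w + c) = 0 := by
        simp only [map_add, φ.d_f, hdu, hdw']
        linear_combination (norm := (apply c2_eq k; abel_nf; try simp only [c2_int k, c2_neg_one k, c2_neg_two k, add_zero, zero_add])) hd'.2.2
      obtain ⟨u', hu', hdu', t, ht, htt⟩ := (hφ x).surj (n - 1) (φ.f x u + w + c)
        (add_mem (add_mem (φ.gr_f hu) hw) hv.2.2) hcyc
      refine ⟨(u + u', w, t), ⟨add_mem hu hu', hw, ht⟩, ?_⟩
      apply φ.cyl_d_eq
      · simp only [map_add, hdu, hdu', add_zero]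
      · exact hdw'
      · simp only [map_add]
        linear_combination (norm := (apply c2_eq k; abel_nf; try simp only [c2_int k, c2_neg_one k, c2_neg_two k, add_zero, zero_add])) htt
    surj := by
      intro n w hw hd
      obtain ⟨v, hv, hdv, u, hu, huw⟩ := (hφ x).surj n w hw hd
      refine ⟨(v, w, u), ⟨hv, hw, hu⟩, ?_, 0, Submodule.zero_mem _, ?_⟩
      · apply φ.cyl_d_eq
        · exact hdv
        · exact hd
        · linear_combination (norm := (apply c2_eq k; abel_nf; try simp only [c2_int k, c2_neg_one k, c2_neg_two k, add_zero, zero_add])) huw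
      · rw [map_zero]
        exact (sub_self w).symm }

/-- A homotopy morphism which is a quasi-isomorphism gives an equivalence. -/
theorem sim (hφ : φ.QI) : Sim V W :=
  (Sim.of_hom φ.cylFst φ.cylFst_qi).symm.trans (Sim.of_hom φ.cylSnd (φ.cylSnd_qi hφ))

end Mor

end Vale.Agent.P203.Dg
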