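import Vale.Agent.P203.Mod.CFun
import Mathlib.Algebra.CharP.Two

/-!
# Differential graded modules over the (char 2) derived preprojective algebra of a multigraph

Families of ungraded spaces `V x` with operators `d`, `h`, `a`, all relations holding for all
elements, and submodules `gr x n` (no direct sum decomposition is required).
-/

set_option linter.all false

namespace Vale.Agent.P203.Dg

open Vale.Agent.P203.Mod

variable {S X Λ : Type} [Fintype X] [DecidableEq X] [Fintype Λ] [DecidableEq Λ] [DecidableEq S]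

/-- dg modules over the derived preprojective algebra of `Γ` (characteristic 2). -/
structure DG (k : Type) [Field k] (Γ : FGraph S X Λ) where
  /-- the spaces -/
  V : X → Type
  [acg : ∀ x, AddCommGroup (V x)]
  [mod : ∀ x, Module k (V x)]
  /-- the differential -/
  d : ∀ x, V x →ₗ[k] V x
  /-- the homotopy for the preprojective relation -/
  h : ∀ x, V x →ₗ[k] V x
  /-- the arrows -/
  a : ∀ x y, Λ → (V x →ₗ[k] V y)
  /-- the grading -/
  gr : ∀ x, ℤ → Submodule k (V x)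
  d_d : ∀ x v, d x (d x v) = 0
  d_a : ∀ {x y l}, Γ.adj x y l = true → ∀ v, d y (a x y l v) = a x y l (d x v)
  rel : ∀ x (v : V x), ∑ p : Γ.Nb x, a p.1.1 x p.1.2 (a x p.1.1 p.1.2 v) =
    d x (h x v) + h x (d x v)
  gr_d : ∀ {x n v}, v ∈ gr x n → d x v ∈ gr x (n + 1)
  gr_h : ∀ {x n v}, v ∈ gr x n → h x v ∈ gr x (n - 1)
  gr_a : ∀ {x y l n v}, Γ.adj x y l = true → v ∈ gr x n → a x y l v ∈ gr y n

attribute [instance] DG.acg DG.mod

variable {k : Type} [Field k] {Γ : FGraph S X Λ}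

namespace DG

/-- The sum `N_x` of the neighbouring spaces. -/
abbrev N (V : DG k Γ) (x : X) : Type := (p : Γ.Nb x) → V.V p.1.1

/-- The map `i_x : N_x → V_x`. -/
def i (V : DG k Γ) (x : X) : V.N x →ₗ[k] V.V x :=
  ∑ p : Γ.Nb x, (V.a p.1.1 x p.1.2) ∘ₗ (LinearMap.proj p)

/-- The map `j_x : V_x → N_x`. -/
def j (V : DG k Γ) (x : X) : V.V x →ₗ[k] V.N x :=
  LinearMap.pi fun p => V.a x p.1.1 p.1.2

/-- The differential of `N_x`. -/
def dN (V : DG k Γ) (x : X) : V.N x →ₗ[k] V.N x :=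
  LinearMap.pi fun p => V.d p.1.1 ∘ₗ LinearMap.proj p

/-- The grading of `N_x`. -/
def grN (V : DG k Γ) (x : X) (n : ℤ) : Submodule k (V.N x) :=
  Submodule.pi Set.univ fun p => V.gr p.1.1 n

theorem mem_grN {V : DG k Γ} {x : X} {n : ℤ} {ν : V.N x} :
    ν ∈ V.grN x n ↔ ∀ p, ν p ∈ V.gr p.1.1 n := by
  simp [grN, Submodule.mem_pi]

theorem i_apply (V : DG k Γ) (x : X) (n : V.N x) :
    V.i x n = ∑ p : Γ.Nb x, V.a p.1.1 x p.1.2 (n p) := by
  simp [i]

@[simp] theorem j_apply (V : DG k Γ) (x : X) (v : V.V x) (p : Γ.Nb x) :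
    V.j x v p = V.a x p.1.1 p.1.2 v := rfl

@[simp] theorem dN_apply (V : DG k Γ) (x : X) (n : V.N x) (p : Γ.Nb x) :
    V.dN x n p = V.d p.1.1 (n p) := rfl

theorem i_j (V : DG k Γ) (x : X) (v : V.V x) :
    V.i x (V.j x v) = V.d x (V.h x v) + V.h x (V.d x v) := by
  rw [i_apply]
  exact V.rel x v

theorem d_i (V : DG k Γ) (x : X) (n : V.N x) : V.d x (V.i x n) = V.i x (V.dN x n) := by
  rw [i_apply, i_apply, map_sum]
  exact Finset.sum_congr rfl fun p _ => V.d_a (Γ.symm p.2) _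

theorem dN_j (V : DG k Γ) (x : X) (v : V.V x) : V.dN x (V.j x v) = V.j x (V.d x v) := by
  funext p
  exact V.d_a p.2 v

theorem dN_dN (V : DG k Γ) (x : X) (n : V.N x) : V.dN x (V.dN x n) = 0 := by
  funext p
  exact V.d_d _ _

theorem gr_i {V : DG k Γ} {x : X} {n : ℤ} {ν : V.N x} (h : ν ∈ V.grN x n) :
    V.i x ν ∈ V.gr x n := by
  rw [i_apply]
  exact Submodule.sum_mem _ fun p _ => V.gr_a (Γ.symm p.2) (mem_grN.1 h p)

theorem gr_j {V : DG k Γ} {x : X} {n : ℤ} {v : V.V x} (h : v ∈ V.gr x n) :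
    V.j x v ∈ V.grN x n :=
  mem_grN.2 fun p => V.gr_a p.2 h

theorem gr_dN {V : DG k Γ} {x : X} {n : ℤ} {ν : V.N x} (h : ν ∈ V.grN x n) :
    V.dN x ν ∈ V.grN x (n + 1) :=
  mem_grN.2 fun p => V.gr_d (mem_grN.1 h p)

/-- The vector of `N_y` with the single component `v` at the neighbour `(x, l)`. -/
def sg (V : DG k Γ) (x y : X) (l : Λ) : V.V x →ₗ[k] V.N y :=
  if h : Γ.adj y x l = true then
    LinearMap.single k (fun p : Γ.Nb y => V.V p.1.1) ⟨(x, l), h⟩ else 0

theorem sg_of (V : DG k Γ) {x y : X} {l : Λ} (h : Γ.adj y x l = true) (v : V.V x) :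
    V.sg x y l v = Pi.single (M := fun p : Γ.Nb y => V.V p.1.1) ⟨(x, l), h⟩ v := by
  simp [sg, h]

theorem sum_sg (V : DG k Γ) (x : X) (n : V.N x) :
    ∑ p : Γ.Nb x, V.sg p.1.1 x p.1.2 (n p) = n := by
  have : ∀ p : Γ.Nb x, V.sg p.1.1 x p.1.2 (n p) =
      Pi.single (M := fun p : Γ.Nb x => V.V p.1.1) p (n p) := by
    intro p
    exact V.sg_of p.2 (n p)
  simp only [this]
  exact Finset.univ_sum_single n

theorem i_sg (V : DG k Γ) {x y : X} {l : Λ} (h : Γ.adj y x l = true) (v : V.V x) :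
    V.i y (V.sg x y l v) = V.a x y l v := by
  rw [sg_of V h, i_apply]
  rw [Finset.sum_eq_single (⟨(x, l), h⟩ : Γ.Nb y)]
  · simp
  · intro p _ hp
    rw [Pi.single_eq_of_ne hp, map_zero]
  · intro h'
    exact absurd (Finset.mem_univ _) h'

theorem dN_sg (V : DG k Γ) {x y : X} {l : Λ} (v : V.V x) :
    V.dN y (V.sg x y l v) = V.sg x y l (V.d x v) := by
  by_cases h : Γ.adj y x l = true
  · rw [sg_of V h, sg_of V h]
    funext p
    rw [dN_apply]
    by_cases hp : p = ⟨(x, l), h⟩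
    · subst hp; simp
    · rw [Pi.single_eq_of_ne hp, Pi.single_eq_of_ne hp, map_zero]
  · simp [sg, h]

theorem gr_sg {V : DG k Γ} {x y : X} {l : Λ} {n : ℤ} {v : V.V x} (hv : v ∈ V.gr x n) :
    V.sg x y l v ∈ V.grN y n := by
  by_cases h : Γ.adj y x l = true
  · rw [sg_of V h, mem_grN]
    intro p
    by_cases hp : p = ⟨(x, l), h⟩
    · subst hp; simpa using hv
    · rw [Pi.single_eq_of_ne hp]; exact Submodule.zero_mem _
  · simp [sg, h, Submodule.zero_mem]

end DG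

end Vale.Agent.P203.Dg
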