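import Vale.Agent.P203.Dg.IotaF
import Vale.Agent.P203.Dg.Cyl

/-!
# The homotopy morphism `ι : B(V; r, s) → σ_r⁻¹ σ_s⁻¹ σ_r⁻¹ V`
-/

set_option linter.all false

namespace Vale.Agent.P203.Dg

open Vale.Agent.P203.Mod

variable {S X Λ : Type} [Fintype X] [DecidableEq X] [Fintype Λ] [DecidableEq Λ] [DecidableEq S]
variable {k : Type} [Field k] {Γ : FGraph S X Λ}

namespace DG

variable [CharP k 2]

/-! ### Chain maps -/

theorem iota_d_r (V : DG k Γ) {r s : X} {l : Λ} (hl : Single Γ r s l) (z : V.BV r s r) :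
    (V.tw3 r s).d r (V.iof r s l r z) = V.iof r s l r (V.Bd r s l r z) := by
  obtain ⟨g, u, ξ, η, v⟩ := z
  have hne := hl.ne
  rw [Bd_r, iof_r, iotaR_apply, iotaR_apply]
  rw [map_add, tw_d_eg, tw_d_en, tw_d_e, tw_d_en, V.dN_sg]
  rw [tw_j_e (V.tw1 r) hl.adj hl.uniq, tw_j_self, tv_en, V.i_sg hl.adj, cut_eN]
  rw [map_add (((V.tw1 r).tw1 s).dN r), dN_sg, tw_dN_eN, tw_dN_eN]
  rw [map_add (((V.tw1 r).tw1 s).d s), tw_d_eg, tw_d_en, tw_d_e, tw_j_e V hl.symm.adj hl.symm.uniq,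
    tw_dN_eN]
  simp only [map_add, cut_cut, dN_cut]
  apply c2_eq k
  abel_nf
  simp only [c2_int k, add_zero]

theorem iota_d_s (V : DG k Γ) {r s : X} {l : Λ} (hl : Single Γ r s l) (z : V.BV r s s) :
    (V.tw3 r s).d s (V.iof r s l s z) = V.iof r s l s (V.Bd r s l s z) := by
  obtain ⟨g, u, ξ, η, v⟩ := z
  have hne := hl.ne
  rw [Bd_s hne, iof_s V hne, iotaS_apply, iotaS_apply]
  have hj : V.j r g = V.cut r s (V.j r g) + V.sg s r l (V.a r s l g) :=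
    (V.j_cut hl.adj hl.uniq g).symm
  rw [tw_d_e, map_add (((V.tw1 r).tw1 s).d s), tw_d_eg, tw_d_en, tw_d_e,
    tw_j_e V hl.symm.adj hl.symm.uniq, map_add ((V.tw1 r).dN s), dN_sg, tw_dN_eN,
    map_add ((V.tw1 r).d r), tw_d_eg, tw_d_en, hj, ← V.d_a hl.adj]
  simp only [map_add, cut_cut, dN_cut, cut_sg_self, map_zero]
  apply c2_eq k
  abel_nf
  simp only [c2_int k, add_zero]

theorem iota_d_x (V : DG k Γ) {r s x : X} {l : Λ} (hr : x ≠ r) (hs : x ≠ s) (z : V.BV r s x) :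
    (V.tw3 r s).d x (V.iof r s l x z) = V.iof r s l x (V.Bd r s l x z) := by
  obtain ⟨g, u, ξ, η, v⟩ := z
  rw [Bd_x hr hs, iof_x V hr hs, iotaX_apply, iotaX_apply, tw_d_e, tw_d_e, tw_d_e]

/-! ### The values of the outgoing maps -/

theorem tv_iY (V : DG k Γ) {r s : X} {l : Λ} (hl : Single Γ r s l) (u : V.V s) (η : V.N s) :
    (V.tw1 r).tv s s ((V.tw1 r).eg s s (V.e r s u) + (V.tw1 r).en s s (V.eN r s (V.cut s r η))) =
      V.e r s (V.kap s r (u, η)) := by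
  rw [map_add, tv_eg, tv_en, tw_h_e V hl.ne.symm, tw_i_eN V hl.ne.symm, cut_cut, kap_apply,
    map_add]

theorem tv_iR (V : DG k Γ) {r s : X} (g : V.V r) (ξ : V.N r) :
    V.tv r r (V.eg r r g + V.en r r (V.cut r s ξ)) = V.kap r s (g, ξ) := by
  rw [map_add, tv_eg, tv_en, kap_apply]

theorem tw_h_self (V : DG k Γ) (r : X) (g : V.V r) (ν : V.N r) :
    (V.tw1 r).h r (V.eg r r g + V.en r r ν) = V.eg r r (V.tv r r (V.eg r r g + V.en r r ν)) := by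
  rw [map_add, tw_h_eg, tw_h_en, map_add, tv_eg, tv_en, map_add]

theorem tv_iotaR (V : DG k Γ) {r s : X} {l : Λ} (hl : Single Γ r s l) (g : V.V r) (u : V.V s)
    (ξ : V.N r) (η : V.N s) (v : V.V r) :
    ((V.tw1 r).tw1 s).tv r r (V.iotaR r s l (g, u, ξ, η, v)) =
      (V.tw1 r).e s r (V.eg r r (V.a s r l u) + V.en r r (V.sg s r l (V.kap s r (u, η))) +
        V.en r r (V.cut r s ξ)) := by
  rw [iotaR_apply, map_add, tv_eg, tv_en, tw_h_e _ hl.ne, tw_h_en, V.i_sg hl.adj,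
    map_add (((V.tw1 r).tw1 s).i r), i_sg _ hl.adj, tw_i_eN _ hl.ne, cut_eN, cut_cut,
    tw_i_eN_self, tw_a, ti_ne _ _ hl.ne, V.tv_iY hl, tw_a, tv_e V hl.ne.symm, ti_of]
  simp only [map_add]
  abel

theorem tv_iotaS (V : DG k Γ) {r s : X} {l : Λ} (hl : Single Γ r s l) (g : V.V r) (u : V.V s)
    (ξ : V.N r) (η : V.N s) (v : V.V s) :
    (V.tw1 r).tv s s (((V.tw1 r).tw1 s).tv r s (V.iotaS r s l (g, u, ξ, η, v))) =
      V.e r s (V.Bor s r l (g, η, ξ)) := by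
  rw [iotaS_apply, tv_e _ hl.ne.symm, map_add, tv_eg, tv_en, tw_h_e V hl.ne.symm,
    map_add ((V.tw1 r).i s), i_sg _ hl.symm.adj, tw_i_eN V hl.ne.symm, cut_cut, tw_a,
    ti_ne _ _ hl.ne.symm, V.tv_iR, Bor_apply]
  simp only [map_add, kap_apply]
  abel

theorem eN_sg (V : DG k Γ) (r : X) {x y : X} {m : Λ} (v : V.V y) :
    V.eN r x (V.sg y x m v) = (V.tw1 r).sg y x m (V.e r y v) := by
  by_cases h : Γ.adj x y m = true
  · rw [sg_of V h, sg_of _ h]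
    funext p
    rw [eN_apply]
    by_cases hp : p = ⟨(y, m), h⟩
    · subst hp; simp
    · rw [Pi.single_eq_of_ne hp, Pi.single_eq_of_ne hp, map_zero]
  · simp [sg, h]

/-! ### Compatibility with the arrows -/

theorem iota_a_ry (V : DG k Γ) {r s y : X} {l m : Λ} (hl : Single Γ r s l) (hys : y ≠ s)
    (h : Γ.adj r y m = true) (z : V.BV r s r) :
    (V.tw3 r s).a r y m (V.iof r s l r z) = V.iof r s l y (V.Ba r s l r y m z) := by
  obtain ⟨g, u, ξ, η, v⟩ := z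
  have hyr : y ≠ r := (adj_ne h).symm
  rw [Ba_ry hys, iof_r, iof_x V hyr hys, iotaX_apply, tw_a, ti_ne _ _ hyr, V.tv_iotaR hl, tw_a,
    ti_ne _ _ hys, tv_e _ hl.ne, tw_a, ti_ne _ _ hyr]
  congr 4
  rw [map_add, map_add, tv_eg, tv_en, tv_en, V.i_sg hl.adj, Bor_apply]
  simp only [kap_apply]
  abel

theorem iota_a_sy (V : DG k Γ) {r s y : X} {l m : Λ} (hl : Single Γ r s l) (hyr : y ≠ r)
    (h : Γ.adj s y m = true) (z : V.BV r s s) :
    (V.tw3 r s).a s y m (V.iof r s l s z) = V.iof r s l y (V.Ba r s l s y m z) := by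
  obtain ⟨g, u, ξ, η, v⟩ := z
  have hys : y ≠ s := (adj_ne h).symm
  rw [Ba_sy hl.ne hyr, iof_s V hl.ne, iof_x V hyr hys, iotaX_apply, tw_a, ti_ne _ _ hyr, tw_a,
    V.tv_iotaS hl, ti_ne _ _ hys, tw_a, ti_ne _ _ hyr, tv_e _ hl.ne.symm]

theorem iota_a_yr (V : DG k Γ) {r s y : X} {l m : Λ} (hl : Single Γ r s l) (hys : y ≠ s)
    (h : Γ.adj y r m = true) (z : V.BV r s y) :
    (V.tw3 r s).a y r m (V.iof r s l y z) = V.iof r s l r (V.Ba r s l y r m z) := by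
  obtain ⟨g, u, ξ, η, v⟩ := z
  have hyr : y ≠ r := adj_ne h
  rw [Ba_yr hyr hys, iof_r, iof_x V hyr hys, iotaX_apply, iotaR_apply, tw_a, tv_e _ hyr, ti_of,
    cut_sg V hys, eN_sg, eN_sg]
  simp only [map_zero, zero_add, add_zero]

theorem iota_a_ys (V : DG k Γ) {r s y : X} {l m : Λ} (hl : Single Γ r s l) (hyr : y ≠ r)
    (h : Γ.adj y s m = true) (z : V.BV r s y) :
    (V.tw3 r s).a y s m (V.iof r s l y z) = V.iof r s l s (V.Ba r s l y s m z) := by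
  obtain ⟨g, u, ξ, η, v⟩ := z
  have hys : y ≠ s := adj_ne h
  rw [Ba_ys hl.ne hyr hys, iof_s V hl.ne, iof_x V hyr hys, iotaX_apply, iotaS_apply, tw_a,
    tv_e _ hyr, ti_ne _ _ hl.ne.symm, tw_a, tv_e _ hys, ti_of, cut_sg V hyr, eN_sg]
  simp only [map_zero, zero_add, add_zero]

theorem iota_a_yz (V : DG k Γ) {r s y z : X} {l m : Λ} (hyr : y ≠ r) (hys : y ≠ s) (hzr : z ≠ r)
    (hzs : z ≠ s) (w : V.BV r s y) :
    (V.tw3 r s).a y z m (V.iof r s l y w) = V.iof r s l z (V.Ba r s l y z m w) := by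
  obtain ⟨g, u, ξ, η, v⟩ := w
  rw [Ba_yz hyr hys hzr hzs, iof_x V hyr hys, iof_x V hzr hzs, iotaX_apply, iotaX_apply, tw_a,
    tv_e _ hyr, ti_ne _ _ hzr, tw_a, tv_e _ hys, ti_ne _ _ hzs, tw_a, tv_e _ hyr, ti_ne _ _ hzr]

theorem iota_a_rs (V : DG k Γ) {r s : X} {l : Λ} (hl : Single Γ r s l) (z : V.BV r s r) :
    (V.tw3 r s).a r s l (V.iof r s l r z) + V.iof r s l s (V.Ba r s l r s l z) =
      (V.tw3 r s).d s (V.iFp r s z) + V.iFp r s (V.Bd r s l r z) := by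
  obtain ⟨g, u, ξ, η, v⟩ := z
  rw [Ba_rs, iof_r, iof_s V hl.ne, iotaS_apply, tw_a, ti_ne _ _ hl.ne.symm, V.tv_iotaR hl, tw_a,
    ti_of, tv_e _ hl.ne, iFp_apply, Bd_r, iFp_apply, tw_d_e, tw_d_eg, tw_d_e,
    tw_j_e V hl.symm.adj hl.symm.uniq, ← V.kap_d hl.symm u η]
  simp only [map_add, cut_cut]
  apply c2_eq k
  abel_nf
  simp only [c2_int k, add_zero]

theorem iota_a_sr (V : DG k Γ) {r s : X} {l : Λ} (hl : Single Γ r s l) (z : V.BV r s s) :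
    (V.tw3 r s).a s r l (V.iof r s l s z) + V.iof r s l r (V.Ba r s l s r l z) =
      (V.tw3 r s).d r (V.iFq r s z) + V.iFq r s (V.Bd r s l s z) := by
  obtain ⟨g, u, ξ, η, v⟩ := z
  have hj : V.j r g = V.cut r s (V.j r g) + V.sg s r l (V.a r s l g) :=
    (V.j_cut hl.adj hl.uniq g).symm
  rw [Ba_sr hl.ne, iof_r, iof_s V hl.ne, iotaS_apply, iotaR_apply, tw_a, ti_of, tv_e _ hl.ne.symm,
    iFq_apply, Bd_s hl.ne, iFq_apply, tw_d_eg, tw_d_e, tw_j_e _ hl.adj hl.uniq, tw_j_self,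
    V.tv_iR, cut_eN, map_add ((V.tw1 r).d r), tw_d_eg, tw_d_en, hj]
  simp only [map_add, cut_cut, cut_sg_self, map_zero, dN_cut]
  apply c2_eq k
  abel_nf
  simp only [c2_int k, add_zero]

/-! ### Compatibility with the homotopies -/

theorem tw_h_of_tv (V : DG k Γ) (r : X) (g : V.V r) (ν : V.N r) :
    (V.tw1 r).h r (V.eg r r g + V.en r r ν) = V.eg r r (V.h r g + V.i r ν) := by
  rw [map_add, tw_h_eg, tw_h_en, map_add]

/-- The part of `h_f` at `r`. -/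
theorem iota_h_r (V : DG k Γ) {r s : X} {l : Λ} (hl : Single Γ r s l) (z : V.BV r s r) :
    (V.tw3 r s).h r (V.iof r s l r z) + V.iof r s l r (V.Bh r s r z) +
      ((V.tw3 r s).a s r l (V.iFp r s z) + V.iFq r s (V.Ba r s l r s l z)) = 0 := by
  obtain ⟨g, u, ξ, η, v⟩ := z
  have h1 : (V.tw3 r s).h r (V.iotaR r s l (g, u, ξ, η, v)) = ((V.tw1 r).tw1 s).eg r r
      (((V.tw1 r).tw1 s).tv r r (V.iotaR r s l (g, u, ξ, η, v))) := by
    rw [iotaR_apply]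
    exact tw_h_self _ _ _ _
  rw [iof_r, h1, V.tv_iotaR hl, Bh_r hl.ne, iotaR_apply, Ba_rs, iFp_apply, iFq_apply, tw_a, ti_of,
    tv_e _ hl.ne.symm]
  simp only [map_add, map_zero, cut_cut, add_zero]
  abel_nf
  simp only [c2_int k, add_zero]

/-- The part of `h_f` at `s`. -/
theorem iota_h_s (V : DG k Γ) {r s : X} {l : Λ} (hl : Single Γ r s l) (z : V.BV r s s) :
    (V.tw3 r s).h s (V.iof r s l s z) + V.iof r s l s (V.Bh r s s z) +
      ((V.tw3 r s).a r s l (V.iFq r s z) + V.iFp r s (V.Ba r s l s r l z)) = 0 := by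
  obtain ⟨g, u, ξ, η, v⟩ := z
  have h1 : (V.tw3 r s).h s (V.iotaS r s l (g, u, ξ, η, v)) = ((V.tw1 r).tw1 s).e r s
      ((V.tw1 r).eg s s ((V.tw1 r).tv s s (((V.tw1 r).tw1 s).tv r s
        (V.iotaS r s l (g, u, ξ, η, v))))) := by
    rw [iotaS_apply, tw_h_e _ hl.ne.symm, tv_e _ hl.ne.symm]
    congr 1
    exact tw_h_self _ _ _ _
  rw [iof_s V hl.ne, h1, V.tv_iotaS hl, Bh_s hl.ne, iotaS_apply, Ba_sr hl.ne, iFp_apply,
    iFq_apply, tw_a, ti_ne _ _ hl.ne.symm, tv_eg, tw_h_e _ hl.ne, tw_h_self, V.tv_iR, tw_a,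
    tv_e _ hl.ne, ti_of, Bor_apply]
  simp only [map_add, map_zero, add_zero]
  abel_nf
  simp only [c2_int k, add_zero]

theorem iota_h_x (V : DG k Γ) {r s x : X} {l : Λ} (hr : x ≠ r) (hs : x ≠ s) (z : V.BV r s x) :
    (V.tw3 r s).h x (V.iof r s l x z) = V.iof r s l x (V.Bh r s x z) := by
  obtain ⟨g, u, ξ, η, v⟩ := z
  rw [Bh_x hr hs, iof_x V hr hs, iotaX_apply, iotaX_apply, tw_h_e _ hr, tw_h_e _ hs, tw_h_e _ hr]

/-! ### Gradings -/

theorem eN_gr (V : DG k Γ) {r x : X} {n : ℤ} {ν : V.N x} (h : ν ∈ V.grN x n)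
    (h0 : V.cut x r ν = ν) : V.eN r x ν ∈ (V.tw1 r).grN x n := by
  rw [mem_grN]
  intro p
  rw [eN_apply]
  by_cases hp : p.1.1 = r
  · rw [← h0, cut_of _ _ hp, map_zero]
    exact Submodule.zero_mem _
  · exact V.e_gr hp (mem_grN.1 h p)

theorem cut_self (V : DG k Γ) (r : X) (ν : V.N r) : V.cut r r ν = ν := by
  funext p
  rw [cut_ne _ _ (nb_ne p)]

theorem iR_gr (V : DG k Γ) {r s : X} {n : ℤ} {g : V.V r} {ξ : V.N r} (hg : g ∈ V.gr r (n + 1))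
    (hξ : ξ ∈ V.xgr r s n) : V.eg r r g + V.en r r (V.cut r s ξ) ∈ (V.tw1 r).gr r n := by
  refine Submodule.add_mem _ (V.eg_gr r hg) (V.en_gr r ?_)
  rw [(mem_xgr.1 hξ).2]
  exact (mem_xgr.1 hξ).1

theorem iY_gr (V : DG k Γ) {r s : X} (hne : r ≠ s) {n : ℤ} {u : V.V s} {η : V.N s}
    (hu : u ∈ V.gr s (n + 1)) (hη : η ∈ V.xgr s r n) :
    (V.tw1 r).eg s s (V.e r s u) + (V.tw1 r).en s s (V.eN r s (V.cut s r η)) ∈
      ((V.tw1 r).tw1 s).gr s n := by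
  refine Submodule.add_mem _ ((V.tw1 r).eg_gr s (V.e_gr hne.symm hu)) ((V.tw1 r).en_gr s ?_)
  exact V.eN_gr (gr_cut (mem_xgr.1 hη).1) (cut_cut _ _ _ _)

theorem iota_gr (V : DG k Γ) {r s : X} {l : Λ} (hl : Single Γ r s l) {x : X} {n : ℤ}
    {z : V.BV r s x} (hz : z ∈ V.Bgr r s x n) : V.iof r s l x z ∈ (V.tw3 r s).gr x n := by
  obtain ⟨g, u, ξ, η, v⟩ := z
  have hne := hl.ne
  by_cases hxr : x = r
  · subst hxr
    obtain ⟨rfl, hu, hξ, hη, rfl⟩ := mem_Bgr_r.1 hz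
    rw [iof_r, iotaR_apply]
    refine Submodule.add_mem _ (eg_gr _ _ (e_gr _ hne (en_gr _ _ (gr_sg hu))))
      (en_gr _ _ (Submodule.add_mem _ (gr_sg (V.iY_gr hne hu hη)) ?_))
    refine eN_gr _ (eN_gr _ (gr_cut (mem_xgr.1 hξ).1) (cut_self _ _ _)) ?_
    rw [cut_eN, cut_cut]
  · by_cases hxs : x = s
    · subst hxs
      obtain ⟨hg, rfl, hξ, hη, rfl⟩ := (mem_Bgr_s hne).1 hz
      rw [iof_s V hne, iotaS_apply]
      refine e_gr _ hne.symm (Submodule.add_mem _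
        (eg_gr _ _ (e_gr _ hne.symm (V.gr_a hl.adj hg)))
        (en_gr _ _ (Submodule.add_mem _ (gr_sg (V.iR_gr hg hξ)) ?_)))
      exact eN_gr _ (gr_cut (mem_xgr.1 hη).1) (cut_cut _ _ _ _)
    · obtain ⟨rfl, rfl, rfl, rfl, hv⟩ := (mem_Bgr_x hxr hxs).1 hz
      rw [iof_x V hxr hxs, iotaX_apply]
      exact e_gr _ hxr (e_gr _ hxs (e_gr _ hxr hv))

theorem iFq_gr (V : DG k Γ) {r s : X} (hne : r ≠ s) {n : ℤ} {z : V.BV r s s}
    (hz : z ∈ V.Bgr r s s n) : V.iFq r s z ∈ (V.tw3 r s).gr r (n - 1) := by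
  obtain ⟨g, u, ξ, η, v⟩ := z
  obtain ⟨hg, rfl, hξ, hη, rfl⟩ := (mem_Bgr_s hne).1 hz
  rw [iFq_apply]
  refine eg_gr _ _ (e_gr _ hne ?_)
  rw [sub_add_cancel]
  exact V.iR_gr hg hξ

theorem iFp_gr (V : DG k Γ) {r s : X} (hne : r ≠ s) {n : ℤ} {z : V.BV r s r}
    (hz : z ∈ V.Bgr r s r n) : V.iFp r s z ∈ (V.tw3 r s).gr s (n - 1) := by
  obtain ⟨g, u, ξ, η, v⟩ := z
  obtain ⟨rfl, hu, hξ, hη, rfl⟩ := mem_Bgr_r.1 hz
  rw [iFp_apply]
  refine e_gr _ hne.symm (eg_gr _ _ (e_gr _ hne.symm ?_))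
  rw [sub_add_cancel]
  exact gr_kap hu (mem_xgr.1 hη).1

/-! ### The homotopy morphism -/

/-- The summand of `h_f` at the dart `p`. -/
def iS (V : DG k Γ) (r s : X) (l : Λ) (x : X) (z : V.BV r s x) (p : Γ.Nb x) : (V.tw3 r s).V x :=
  (V.tw3 r s).a p.1.1 x p.1.2 (V.ifa r s x p.1.1 p.1.2 z) +
    V.ifa r s p.1.1 x p.1.2 (V.Ba r s l x p.1.1 p.1.2 z)

theorem iS_zero (V : DG k Γ) {r s x : X} (l : Λ) (z : V.BV r s x) (p : Γ.Nb x)
    (h1 : ¬ (x = s ∧ p.1.1 = r)) (h2 : ¬ (x = r ∧ p.1.1 = s)) : V.iS r s l x z p = 0 := by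
  unfold iS
  rw [ifa_zero V _ h1 h2, ifa_zero V _ (fun h' => h2 ⟨h'.2, h'.1⟩) (fun h' => h1 ⟨h'.2, h'.1⟩)]
  rw [LinearMap.zero_apply, LinearMap.zero_apply, map_zero, add_zero]

theorem iS_r (V : DG k Γ) {r s : X} {l : Λ} (hl : Single Γ r s l) (z : V.BV r s r) :
    V.iS r s l r z hl.p = (V.tw3 r s).a s r l (V.iFp r s z) + V.iFq r s (V.Ba r s l r s l z) := by
  unfold iS
  rw [ifa_rs V hl.ne, ifa_sr V]

theorem iS_s (V : DG k Γ) {r s : X} {l : Λ} (hl : Single Γ r s l) (z : V.BV r s s) :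
    V.iS r s l s z hl.symm.p =
      (V.tw3 r s).a r s l (V.iFq r s z) + V.iFp r s (V.Ba r s l s r l z) := by
  unfold iS
  rw [ifa_rs V hl.ne, ifa_sr V]

theorem sum_iS (V : DG k Γ) {r s : X} {l : Λ} (hl : Single Γ r s l) (x : X) (z : V.BV r s x) :
    (V.tw3 r s).h x (V.iof r s l x z) + V.iof r s l x (V.Bh r s x z) +
      ∑ p : Γ.Nb x, V.iS r s l x z p = 0 := by
  by_cases hxr : x = r
  · subst hxr
    have h1 : ∑ p : Γ.Nb x, V.iS x s l x z p = V.iS x s l x z hl.p := by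
      refine Finset.sum_eq_single hl.p (fun p _ hp => ?_) (fun h => absurd (Finset.mem_univ _) h)
      exact V.iS_zero l z p (fun h' => hl.ne h'.1) (fun h' => hp (hl.eq_p.1 h'.2))
    rw [h1, V.iS_r hl]
    exact V.iota_h_r hl z
  · by_cases hxs : x = s
    · subst hxs
      have h1 : ∑ p : Γ.Nb x, V.iS r x l x z p = V.iS r x l x z hl.symm.p := by
        refine Finset.sum_eq_single hl.symm.p (fun p _ hp => ?_)
          (fun h => absurd (Finset.mem_univ _) h)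
        exact V.iS_zero l z p (fun h' => hp (hl.symm.eq_p.1 h'.2)) (fun h' => hxr h'.1)
      rw [h1, V.iS_s hl]
      exact V.iota_h_s hl z
    · rw [V.iota_h_x hxr hxs z, c2_add k, zero_add]
      exact Finset.sum_eq_zero fun p _ => V.iS_zero l z p (fun h' => hxs h'.1) (fun h' => hxr h'.1)

theorem iota_a (V : DG k Γ) {r s : X} {l : Λ} (hl : Single Γ r s l) {x y : X} {m : Λ}
    (h : Γ.adj x y m = true) (z : V.BV r s x) :
    (V.tw3 r s).a x y m (V.iof r s l x z) + V.iof r s l y (V.Ba r s l x y m z) =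
      (V.tw3 r s).d y (V.ifa r s x y m z) + V.ifa r s x y m (V.Bd r s l x z) := by
  have hxy : x ≠ y := adj_ne h
  have h0 : ∀ {w w' : (V.tw3 r s).V y}, w = w' → ¬ (x = s ∧ y = r) → ¬ (x = r ∧ y = s) →
      w + w' = (V.tw3 r s).d y (V.ifa r s x y m z) + V.ifa r s x y m (V.Bd r s l x z) := by
    intro w w' hw h1 h2
    rw [ifa_zero V m h1 h2, hw, c2_add k, LinearMap.zero_apply, LinearMap.zero_apply, map_zero,
      add_zero]
  by_cases hxr : x = r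
  · subst hxr
    by_cases hys : y = s
    · subst hys
      have hm : m = l := hl.uniq m h
      subst hm
      rw [ifa_rs V hl.ne]
      exact V.iota_a_rs hl z
    · exact h0 (V.iota_a_ry hl hys h z) (fun h' => hl.ne h'.1) (fun h' => hys h'.2)
  · by_cases hxs : x = s
    · subst hxs
      by_cases hyr : y = r
      · subst hyr
        have hm : m = l := hl.symm.uniq m h
        subst hm
        rw [ifa_sr V]
        exact V.iota_a_sr hl z
      · exact h0 (V.iota_a_sy hl hyr h z) (fun h' => hyr h'.2) (fun h' => hxr h'.1)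
    · refine h0 ?_ (fun h' => hxs h'.1) (fun h' => hxr h'.1)
      by_cases hyr : y = r
      · subst hyr; exact V.iota_a_yr hl hxs h z
      · by_cases hys : y = s
        · subst hys; exact V.iota_a_ys hl hxr h z
        · exact V.iota_a_yz hxr hxs hyr hys z

theorem ifa_gr (V : DG k Γ) {r s : X} {l : Λ} (hl : Single Γ r s l) {x y : X} (m : Λ) {n : ℤ}
    {z : V.BV r s x} (hz : z ∈ V.Bgr r s x n) :
    V.ifa r s x y m z ∈ (V.tw3 r s).gr y (n - 1) := by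
  by_cases h1 : x = s ∧ y = r
  · obtain ⟨rfl, rfl⟩ := h1
    rw [ifa_sr V]
    exact V.iFq_gr hl.ne hz
  · by_cases h2 : x = r ∧ y = s
    · obtain ⟨rfl, rfl⟩ := h2
      rw [ifa_rs V hl.ne]
      exact V.iFp_gr hl.ne hz
    · rw [ifa_zero V _ h1 h2]
      exact Submodule.zero_mem _

theorem iota_d (V : DG k Γ) {r s : X} {l : Λ} (hl : Single Γ r s l) (x : X) (z : V.BV r s x) :
    (V.tw3 r s).d x (V.iof r s l x z) = V.iof r s l x (V.Bd r s l x z) := by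
  by_cases hxr : x = r
  · subst hxr; exact V.iota_d_r hl z
  · by_cases hxs : x = s
    · subst hxs; exact V.iota_d_s hl z
    · exact V.iota_d_x hxr hxs z

/-- `iof` with the object `BB` as source. -/
def iB (V : DG k Γ) {r s : X} {l : Λ} (hl : Single Γ r s l) (x : X) :
    (V.BB r s l hl).V x →ₗ[k] (V.tw3 r s).V x := V.iof r s l x

/-- `ifa` with the object `BB` as source. -/
def iBa (V : DG k Γ) {r s : X} {l : Λ} (hl : Single Γ r s l) (x y : X) (m : Λ) :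
    (V.BB r s l hl).V x →ₗ[k] (V.tw3 r s).V y := V.ifa r s x y m

theorem iB_eq (V : DG k Γ) {r s : X} {l : Λ} (hl : Single Γ r s l) (x : X) (z : V.BV r s x) :
    V.iB hl x z = V.iof r s l x z := rfl

theorem iBa_eq (V : DG k Γ) {r s : X} {l : Λ} (hl : Single Γ r s l) (x y : X) (m : Λ)
    (z : V.BV r s x) : V.iBa hl x y m z = V.ifa r s x y m z := rfl

theorem iBs_eq (V : DG k Γ) {r s : X} {l : Λ} (hl : Single Γ r s l) (x : X) (z : V.BV r s x)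
    (p : Γ.Nb x) : (V.tw3 r s).a p.1.1 x p.1.2 (V.iBa hl x p.1.1 p.1.2 z) +
      V.iBa hl p.1.1 x p.1.2 ((V.BB r s l hl).a x p.1.1 p.1.2 z) = V.iS r s l x z p := rfl

theorem iota_h_f (V : DG k Γ) {r s : X} {l : Λ} (hl : Single Γ r s l) (x : X)
    (z : (V.BB r s l hl).V x) :
    (V.tw3 r s).h x (V.iB hl x z) + V.iB hl x ((V.BB r s l hl).h x z) +
      ∑ p : Γ.Nb x, ((V.tw3 r s).a p.1.1 x p.1.2 (V.iBa hl x p.1.1 p.1.2 z) +
        V.iBa hl p.1.1 x p.1.2 ((V.BB r s l hl).a x p.1.1 p.1.2 z)) = 0 := by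
  rw [Finset.sum_congr rfl fun p _ => V.iBs_eq hl x z p]
  exact V.sum_iS hl x z

/-- The homotopy morphism `ι`. -/
def iota (V : DG k Γ) {r s : X} {l : Λ} (hl : Single Γ r s l) :
    Mor (V.BB r s l hl) (V.tw3 r s) where
  f := V.iB hl
  fa := V.iBa hl
  fh _ := 0
  d_f := V.iota_d hl
  a_f h z := V.iota_a hl h z
  h_f x z := by
    rw [V.iota_h_f hl x z, LinearMap.zero_apply, LinearMap.zero_apply, map_zero, add_zero]
  gr_f hz := V.iota_gr hl hz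
  gr_fa h hz := V.ifa_gr hl _ hz
  gr_fh _ := Submodule.zero_mem _

end DG

end Vale.Agent.P203.Dg
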