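import Vale.Agent.P203.Dg.BObj
import Vale.Agent.P203.Dg.Strict

/-!
# The twist at a single vertex: evaluation lemmas

For `T = V.tw1 r` (the twist `σ_r⁻¹ V`): `e x v = (0, 0, v)` (used at `x ≠ r`), `mk x g ν = (g, ν, 0)`
(used at `x = r`), `eN ν = (e ν_p)_p`.
-/

set_option linter.all false

namespace Vale.Agent.P203.Dg

open Vale.Agent.P203.Mod

variable {S X Λ : Type} [Fintype X] [DecidableEq X] [Fintype Λ] [DecidableEq Λ] [DecidableEq S]
variable {k : Type} [Field k] {Γ : FGraph S X Λ}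

theorem adj_ne {x y : X} {l : Λ} (h : Γ.adj x y l = true) : x ≠ y := by
  rintro rfl
  exact Γ.indep h rfl

theorem indep_one (r : X) : Indep Γ (fun y => y = r) := by
  rintro x y l h hx hy
  exact adj_ne h (hx.trans hy.symm)

namespace DG

theorem cut_of (V : DG k Γ) {x y : X} (ν : V.N x) {p : Γ.Nb x} (h : p.1.1 = y) :
    V.cut x y ν p = 0 := by
  simp [cut, h]

theorem cut_at (V : DG k Γ) {x y : X} {l : Λ} (h : Γ.adj x y l = true) (ν : V.N x) :
    V.cut x y ν ⟨(y, l), h⟩ = 0 := V.cut_of ν rfl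

theorem cut_ne (V : DG k Γ) {x y : X} (ν : V.N x) {p : Γ.Nb x} (h : p.1.1 ≠ y) :
    V.cut x y ν p = ν p := by
  simp [cut, h]

theorem cut_sg_self (V : DG k Γ) {x y : X} {l : Λ} (v : V.V x) :
    V.cut y x (V.sg x y l v) = 0 := by
  by_cases h : Γ.adj y x l = true
  · funext p
    rw [sg_of V h]
    by_cases hp : p.1.1 = x
    · rw [cut_of _ _ hp]; rfl
    · rw [cut_ne _ _ hp, Pi.single_eq_of_ne]
      · rfl
      · rintro rfl; exact hp rfl
  · simp [sg, h]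

/-- If `l` is the only label between `x` and `y`, then `ν` is the sum of `cut x y ν` and its
component at `y`. -/
theorem cut_add_sg (V : DG k Γ) {x y : X} {l : Λ} (h : Γ.adj x y l = true)
    (hu : ∀ l', Γ.adj x y l' = true → l' = l) (ν : V.N x) :
    V.cut x y ν + V.sg y x l (ν ⟨(y, l), h⟩) = ν := by
  funext p
  rw [Pi.add_apply, sg_of V h]
  by_cases hp : p.1.1 = y
  · obtain ⟨⟨z, l'⟩, hp'⟩ := p
    change z = y at hp
    subst hp
    have hl : l' = l := hu l' hp'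
    subst hl
    rw [cut_at V h ν, zero_add, Pi.single_eq_same]
  · rw [cut_ne _ _ hp, Pi.single_eq_of_ne, add_zero]
    rintro rfl; exact hp rfl

theorem j_cut (V : DG k Γ) {x y : X} {l : Λ} (h : Γ.adj x y l = true)
    (hu : ∀ l', Γ.adj x y l' = true → l' = l) (v : V.V x) :
    V.cut x y (V.j x v) + V.sg y x l (V.a x y l v) = V.j x v :=
  V.cut_add_sg h hu (V.j x v)

theorem i_j_cut (V : DG k Γ) {x y : X} {l : Λ} (h : Γ.adj x y l = true)
    (hu : ∀ l', Γ.adj x y l' = true → l' = l) (v : V.V x) :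
    V.i x (V.cut x y (V.j x v)) + V.a y x l (V.a x y l v) = V.d x (V.h x v) + V.h x (V.d x v) := by
  rw [← V.i_j, ← V.i_sg h, ← map_add, V.j_cut h hu]

variable [CharP k 2]

/-- The twist at a single vertex (`σ_r⁻¹`). -/
def tw1 (r : X) (V : DG k Γ) : DG k Γ := V.twist (fun y => y = r) (indep_one r)

/-- `(0, 0, v)`. -/
def e (V : DG k Γ) (r x : X) : V.V x →ₗ[k] (V.tw1 r).V x :=
  (LinearMap.inr k (V.V x) (V.N x × V.V x)).comp (LinearMap.inr k (V.N x) (V.V x))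

/-- `(g, 0, 0)`. -/
def eg (V : DG k Γ) (r x : X) : V.V x →ₗ[k] (V.tw1 r).V x :=
  LinearMap.inl k (V.V x) (V.N x × V.V x)

/-- `(0, ν, 0)`. -/
def en (V : DG k Γ) (r x : X) : V.N x →ₗ[k] (V.tw1 r).V x :=
  (LinearMap.inr k (V.V x) (V.N x × V.V x)).comp (LinearMap.inl k (V.N x) (V.V x))

/-- `(e ν_p)_p`. -/
def eN (V : DG k Γ) (r x : X) : V.N x →ₗ[k] (V.tw1 r).N x :=
  LinearMap.pi fun p => (V.e r p.1.1).comp (LinearMap.proj p)

theorem e_def (V : DG k Γ) (r x : X) (v : V.V x) : V.e r x v = ((0, 0, v) : V.TV x) := rfl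

theorem eg_def (V : DG k Γ) (r x : X) (v : V.V x) : V.eg r x v = ((v, 0, 0) : V.TV x) := rfl

theorem en_def (V : DG k Γ) (r x : X) (ν : V.N x) : V.en r x ν = ((0, ν, 0) : V.TV x) := rfl

@[simp] theorem eN_apply (V : DG k Γ) (r x : X) (ν : V.N x) (p : Γ.Nb x) :
    V.eN r x ν p = V.e r p.1.1 (ν p) := rfl

theorem tw_d_e (V : DG k Γ) (r x : X) (v : V.V x) : (V.tw1 r).d x (V.e r x v) = V.e r x (V.d x v) := by
  change V.td x (0, 0, v) = (0, 0, V.d x v)
  rw [td_apply]; simp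

theorem tw_d_eg (V : DG k Γ) (r x : X) (v : V.V x) :
    (V.tw1 r).d x (V.eg r x v) = V.eg r x (V.d x v) + V.en r x (V.j x v) := by
  change V.td x (v, 0, 0) = ((V.d x v + 0, 0 + V.j x v, 0 + 0) : V.TV x)
  rw [td_apply]; simp

theorem tw_d_en (V : DG k Γ) (r x : X) (ν : V.N x) :
    (V.tw1 r).d x (V.en r x ν) = V.en r x (V.dN x ν) := by
  change V.td x (0, ν, 0) = (0, V.dN x ν, 0)
  rw [td_apply]; simp

theorem tw_h_e (V : DG k Γ) {r x : X} (hx : x ≠ r) (v : V.V x) :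
    (V.tw1 r).h x (V.e r x v) = V.e r x (V.h x v) := by
  exact th_not (P := fun y => y = r) hx _ _ _

theorem tw_h_eg (V : DG k Γ) (r : X) (v : V.V r) :
    (V.tw1 r).h r (V.eg r r v) = V.eg r r (V.h r v) := by
  change V.th (fun y => y = r) r (v, 0, 0) = (V.h r v, 0, 0)
  rw [th_of (P := fun y => y = r) rfl]; simp

theorem tw_h_en (V : DG k Γ) (r : X) (ν : V.N r) :
    (V.tw1 r).h r (V.en r r ν) = V.eg r r (V.i r ν) := by
  change V.th (fun y => y = r) r (0, ν, 0) = (V.i r ν, 0, 0)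
  rw [th_of (P := fun y => y = r) rfl]; simp

/-- The value `V.tval` for the single vertex `r`. -/
def tv (V : DG k Γ) (r x : X) : (V.tw1 r).V x →ₗ[k] V.V x := V.tval (fun y => y = r) x

/-- The inclusion `V.tinc` for the single vertex `r`. -/
def ti (V : DG k Γ) (r x y : X) (l : Λ) : V.V x →ₗ[k] (V.tw1 r).V y := V.tinc (fun y => y = r) x y l

theorem tw_a (V : DG k Γ) (r x y : X) (l : Λ) (z : (V.tw1 r).V x) :
    (V.tw1 r).a x y l z = V.ti r x y l (V.tv r x z) := rfl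

theorem tv_e (V : DG k Γ) {r x : X} (hx : x ≠ r) (v : V.V x) : V.tv r x (V.e r x v) = v :=
  tval_not (P := fun y => y = r) hx _ _ _

theorem tv_e_self (V : DG k Γ) (r : X) (v : V.V r) : V.tv r r (V.e r r v) = 0 := by
  change V.tval (fun y => y = r) r (0, 0, v) = 0
  rw [tval_of (P := fun y => y = r) rfl]; simp

theorem tv_eg (V : DG k Γ) (r : X) (v : V.V r) : V.tv r r (V.eg r r v) = V.h r v := by
  change V.tval (fun y => y = r) r (v, 0, 0) = _
  rw [tval_of (P := fun y => y = r) rfl]; simp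

theorem tv_en (V : DG k Γ) (r : X) (ν : V.N r) : V.tv r r (V.en r r ν) = V.i r ν := by
  change V.tval (fun y => y = r) r (0, ν, 0) = _
  rw [tval_of (P := fun y => y = r) rfl]; simp

theorem ti_of (V : DG k Γ) (r x : X) (l : Λ) (v : V.V x) :
    V.ti r x r l v = V.en r r (V.sg x r l v) :=
  tinc_of (P := fun y => y = r) rfl v

theorem ti_ne (V : DG k Γ) {r x y : X} (l : Λ) (hy : y ≠ r) (v : V.V x) :
    V.ti r x y l v = V.e r y (V.a x y l v) :=
  tinc_not (P := fun y => y = r) hy v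

/-- `i_x (eN ν)` at `x ≠ r`. -/
theorem tw_i_eN (V : DG k Γ) {r x : X} (hx : x ≠ r) (ν : V.N x) :
    (V.tw1 r).i x (V.eN r x ν) = V.e r x (V.i x (V.cut x r ν)) := by
  rw [i_apply, i_apply, map_sum]
  refine Finset.sum_congr rfl fun p _ => ?_
  rw [eN_apply, tw_a, ti_ne V _ hx]
  by_cases hp : p.1.1 = r
  · obtain ⟨⟨y, l⟩, hyl⟩ := p
    change y = r at hp
    subst hp
    rw [cut_at V hyl ν, map_zero]
    change V.e y x (V.a y x l (V.tv y y (V.e y y (ν ⟨(y, l), hyl⟩)))) = _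
    rw [tv_e_self, map_zero]
  · rw [cut_ne V ν hp, tv_e V hp]

/-- `i_r (eN ν)`. -/
theorem tw_i_eN_self (V : DG k Γ) (r : X) (ν : V.N r) :
    (V.tw1 r).i r (V.eN r r ν) = V.en r r ν := by
  rw [i_apply]
  have h1 : ∀ p : Γ.Nb r, (V.tw1 r).a p.1.1 r p.1.2 (V.eN r r ν p) =
      V.en r r (V.sg p.1.1 r p.1.2 (ν p)) := by
    intro p
    rw [eN_apply, tw_a, ti_of, tv_e V (adj_ne p.2).symm]
  simp only [h1]
  rw [← map_sum, V.sum_sg]

/-- `j_x (e v)` at `x ≠ r`, where `l` is the only label between `x` and `r`. -/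
theorem tw_j_e (V : DG k Γ) {r x : X} {l : Λ} (h : Γ.adj x r l = true)
    (hu : ∀ l', Γ.adj x r l' = true → l' = l) (v : V.V x) :
    (V.tw1 r).j x (V.e r x v) = V.eN r x (V.cut x r (V.j x v)) +
      (V.tw1 r).sg r x l (V.en r r (V.sg x r l v)) := by
  have hx : x ≠ r := adj_ne h
  funext p
  rw [j_apply, tw_a, tv_e V hx, Pi.add_apply, eN_apply, sg_of _ h]
  by_cases hp : p.1.1 = r
  · obtain ⟨⟨y, l'⟩, hp'⟩ := p
    change y = r at hp
    subst hp
    have hl : l' = l := hu l' hp'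
    subst hl
    rw [Pi.single_eq_same, cut_at V h, map_zero, zero_add]
    exact ti_of V _ _ _ _
  · rw [Pi.single_eq_of_ne, add_zero, cut_ne V _ hp, ti_ne V _ hp]
    · rfl
    · rintro rfl; exact hp rfl

/-- `j_x (e v)` at `x ≠ r` with `x`, `r` not adjacent. -/
theorem tw_j_e_of_not_adj (V : DG k Γ) {r x : X} (hx : x ≠ r) (h : ∀ l, Γ.adj x r l = false)
    (v : V.V x) : (V.tw1 r).j x (V.e r x v) = V.eN r x (V.j x v) := by
  funext p
  rw [j_apply, tw_a, tv_e V hx, eN_apply]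
  have hp : p.1.1 ≠ r := by
    intro hp
    obtain ⟨⟨y, l'⟩, hp'⟩ := p
    change y = r at hp
    subst hp
    have := h l'
    simp_all
  rw [ti_ne V _ hp]
  rfl

/-- `j_r z = eN (j (tv z))`. -/
theorem tw_j_self (V : DG k Γ) (r : X) (z : (V.tw1 r).V r) :
    (V.tw1 r).j r z = V.eN r r (V.j r (V.tv r r z)) := by
  funext p
  rw [j_apply, tw_a, eN_apply, ti_ne V _ (adj_ne p.2).symm]
  rfl

theorem tw_dN_eN (V : DG k Γ) (r x : X) (ν : V.N x) :
    (V.tw1 r).dN x (V.eN r x ν) = V.eN r x (V.dN x ν) := by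
  funext p
  rw [dN_apply, eN_apply, tw_d_e]
  rfl

theorem cut_eN (V : DG k Γ) (r x y : X) (ν : V.N x) :
    (V.tw1 r).cut x y (V.eN r x ν) = V.eN r x (V.cut x y ν) := by
  funext p
  by_cases hp : p.1.1 = y
  · rw [cut_of _ _ hp, eN_apply, cut_of _ _ hp, map_zero]
  · rw [cut_ne _ _ hp, eN_apply, eN_apply, cut_ne _ _ hp]

/-! ### Gradings -/

theorem e_gr (V : DG k Γ) {r x : X} (hx : x ≠ r) {n : ℤ} {v : V.V x} (hv : v ∈ V.gr x n) :
    V.e r x v ∈ (V.tw1 r).gr x n :=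
  (mem_tgr_not (P := fun y => y = r) hx).2 ⟨rfl, rfl, hv⟩

theorem eg_gr (V : DG k Γ) (r : X) {n : ℤ} {v : V.V r} (hv : v ∈ V.gr r (n + 1)) :
    V.eg r r v ∈ (V.tw1 r).gr r n :=
  (mem_tgr_of (P := fun y => y = r) rfl).2 ⟨hv, Submodule.zero_mem _, rfl⟩

theorem en_gr (V : DG k Γ) (r : X) {n : ℤ} {ν : V.N r} (hν : ν ∈ V.grN r n) :
    V.en r r ν ∈ (V.tw1 r).gr r n :=
  (mem_tgr_of (P := fun y => y = r) rfl).2 ⟨Submodule.zero_mem _, hν, rfl⟩

/-- Homogeneous elements at `x ≠ r`. -/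
theorem exists_of_gr_ne {V : DG k Γ} {r x : X} (hx : x ≠ r) {n : ℤ} {z : (V.tw1 r).V x}
    (hz : z ∈ (V.tw1 r).gr x n) : ∃ v ∈ V.gr x n, z = V.e r x v := by
  obtain ⟨g, ν, v⟩ := z
  obtain ⟨rfl, rfl, h3⟩ := (mem_tgr_not (P := fun y => y = r) hx).1 hz
  exact ⟨v, h3, rfl⟩

/-- Homogeneous elements at `r`. -/
theorem exists_of_gr {V : DG k Γ} {r : X} {n : ℤ} {z : (V.tw1 r).V r}
    (hz : z ∈ (V.tw1 r).gr r n) : ∃ g ∈ V.gr r (n + 1), ∃ ν ∈ V.grN r n,
      z = V.eg r r g + V.en r r ν := by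
  obtain ⟨g, ν, v⟩ := z
  obtain ⟨h1, h2, rfl⟩ := (mem_tgr_of (P := fun y => y = r) rfl).1 hz
  refine ⟨g, h1, ν, h2, ?_⟩
  change ((g, ν, 0) : V.TV r) = (g + 0, 0 + ν, 0 + 0)
  simp

end DG

end Vale.Agent.P203.Dg
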