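import Vale.Agent.P203.Dg.BDG
import Vale.Agent.P203.Dg.One

/-!
# The linear maps of the homotopy morphism `ι : B(V; r, s) → σ_r⁻¹ σ_s⁻¹ σ_r⁻¹ V`

* at `r`: `(u; ξ; η) ↦ ((0, 0, u); ξ; (u; η; 0))`;
* at `s`: `(g; ξ; η) ↦ (p g; η; (g, ξ, 0))`;
* at the other vertices: the identity;
* homotopies: `s → r`: `(g; ξ; η) ↦ ((g, ξ, 0); 0; 0)`, `r → s`: `(u; ξ; η) ↦ (κ_s(u, η); 0; 0)`.
-/

set_option linter.all false

namespace Vale.Agent.P203.Dg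

open Vale.Agent.P203.Mod

variable {S X Λ : Type} [Fintype X] [DecidableEq X] [Fintype Λ] [DecidableEq Λ] [DecidableEq S]
variable {k : Type} [Field k] {Γ : FGraph S X Λ}

namespace DG

variable [CharP k 2]

/-- The components of an element of `V.BV r s x`. -/
def bg (V : DG k Γ) (r s x : X) : V.BV r s x →ₗ[k] V.V r := LinearMap.fst k _ _

/-- The second component. -/
def bu (V : DG k Γ) (r s x : X) : V.BV r s x →ₗ[k] V.V s :=
  (LinearMap.fst k _ _).comp (LinearMap.snd k _ _)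

/-- The third component. -/
def bx (V : DG k Γ) (r s x : X) : V.BV r s x →ₗ[k] V.N r :=
  (LinearMap.fst k _ _).comp ((LinearMap.snd k _ _).comp (LinearMap.snd k _ _))

/-- The fourth component. -/
def be (V : DG k Γ) (r s x : X) : V.BV r s x →ₗ[k] V.N s :=
  (LinearMap.fst k _ _).comp ((LinearMap.snd k _ _).comp
    ((LinearMap.snd k _ _).comp (LinearMap.snd k _ _)))

/-- The last component. -/
def bv (V : DG k Γ) (r s x : X) : V.BV r s x →ₗ[k] V.V x :=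
  (LinearMap.snd k _ _).comp ((LinearMap.snd k _ _).comp
    ((LinearMap.snd k _ _).comp (LinearMap.snd k _ _)))

section
variable (V : DG k Γ) (r s x : X) (g : V.V r) (u : V.V s) (ξ : V.N r) (η : V.N s) (v : V.V x)

@[simp] theorem bg_apply : V.bg r s x (g, u, ξ, η, v) = g := rfl
@[simp] theorem bu_apply : V.bu r s x (g, u, ξ, η, v) = u := rfl
@[simp] theorem bx_apply : V.bx r s x (g, u, ξ, η, v) = ξ := rfl
@[simp] theorem be_apply : V.be r s x (g, u, ξ, η, v) = η := rfl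
@[simp] theorem bv_apply : V.bv r s x (g, u, ξ, η, v) = v := rfl

end

/-- The iterated twist `σ_r⁻¹ σ_s⁻¹ σ_r⁻¹ V`. -/
@[reducible] def tw3 (V : DG k Γ) (r s : X) : DG k Γ := ((V.tw1 r).tw1 s).tw1 r

/-- The map `z ↦ (u; η; 0)` from `V.BV r s x` to `(σ_s⁻¹ σ_r⁻¹ V)_s`. -/
def iY (V : DG k Γ) (r s x : X) : V.BV r s x →ₗ[k] ((V.tw1 r).tw1 s).V s :=
  (V.tw1 r).eg s s ∘ₗ V.e r s ∘ₗ V.bu r s x +
    (V.tw1 r).en s s ∘ₗ V.eN r s ∘ₗ V.cut s r ∘ₗ V.be r s x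

/-- The map `z ↦ (g, ξ, 0)` from `V.BV r s x` to `(σ_r⁻¹ V)_r`. -/
def iR (V : DG k Γ) (r s x : X) : V.BV r s x →ₗ[k] (V.tw1 r).V r :=
  V.eg r r ∘ₗ V.bg r s x + V.en r r ∘ₗ V.cut r s ∘ₗ V.bx r s x

/-- `ι` at `r`. -/
def iotaR (V : DG k Γ) (r s : X) (l : Λ) : V.BV r s r →ₗ[k] (V.tw3 r s).V r :=
  ((V.tw1 r).tw1 s).eg r r ∘ₗ (V.tw1 r).e s r ∘ₗ V.en r r ∘ₗ V.sg s r l ∘ₗ V.bu r s r +
    ((V.tw1 r).tw1 s).en r r ∘ₗ (((V.tw1 r).tw1 s).sg s r l ∘ₗ V.iY r s r +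
      (V.tw1 r).eN s r ∘ₗ V.eN r r ∘ₗ V.cut r s ∘ₗ V.bx r s r)

/-- `ι` at `s`. -/
def iotaS (V : DG k Γ) (r s : X) (l : Λ) : V.BV r s s →ₗ[k] (V.tw3 r s).V s :=
  ((V.tw1 r).tw1 s).e r s ∘ₗ ((V.tw1 r).eg s s ∘ₗ V.e r s ∘ₗ V.a r s l ∘ₗ V.bg r s s +
    (V.tw1 r).en s s ∘ₗ ((V.tw1 r).sg r s l ∘ₗ V.iR r s s + V.eN r s ∘ₗ V.cut s r ∘ₗ V.be r s s))

/-- `ι` at the other vertices. -/
def iotaX (V : DG k Γ) (r s x : X) : V.BV r s x →ₗ[k] (V.tw3 r s).V x :=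
  ((V.tw1 r).tw1 s).e r x ∘ₗ (V.tw1 r).e s x ∘ₗ V.e r x ∘ₗ V.bv r s x

/-- The linear maps of `ι`. -/
def iof (V : DG k Γ) (r s : X) (l : Λ) (x : X) : V.BV r s x →ₗ[k] (V.tw3 r s).V x :=
  if h : x = r then
    Eq.rec (motive := fun y _ => V.BV r s y →ₗ[k] (V.tw3 r s).V y) (V.iotaR r s l) h.symm
  else if h : x = s then
    Eq.rec (motive := fun y _ => V.BV r s y →ₗ[k] (V.tw3 r s).V y) (V.iotaS r s l) h.symm
  else V.iotaX r s x

theorem iof_r (V : DG k Γ) (r s : X) (l : Λ) : V.iof r s l r = V.iotaR r s l := by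
  unfold iof
  rw [dif_pos rfl]

theorem iof_s (V : DG k Γ) {r s : X} (h : r ≠ s) (l : Λ) : V.iof r s l s = V.iotaS r s l := by
  unfold iof
  rw [dif_neg h.symm, dif_pos rfl]

theorem iof_x (V : DG k Γ) {r s x : X} (hr : x ≠ r) (hs : x ≠ s) (l : Λ) :
    V.iof r s l x = V.iotaX r s x := by
  unfold iof
  rw [dif_neg hr, dif_neg hs]

section
variable (V : DG k Γ) (r s x : X) (l : Λ) (g : V.V r) (u : V.V s) (ξ : V.N r) (η : V.N s)
  (v : V.V x)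

theorem iY_apply : V.iY r s x (g, u, ξ, η, v) =
    (V.tw1 r).eg s s (V.e r s u) + (V.tw1 r).en s s (V.eN r s (V.cut s r η)) := rfl

theorem iR_apply : V.iR r s x (g, u, ξ, η, v) = V.eg r r g + V.en r r (V.cut r s ξ) := rfl

theorem iotaR_apply (v : V.V r) : V.iotaR r s l (g, u, ξ, η, v) =
    ((V.tw1 r).tw1 s).eg r r ((V.tw1 r).e s r (V.en r r (V.sg s r l u))) +
      ((V.tw1 r).tw1 s).en r r (((V.tw1 r).tw1 s).sg s r l
        ((V.tw1 r).eg s s (V.e r s u) + (V.tw1 r).en s s (V.eN r s (V.cut s r η))) +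
        (V.tw1 r).eN s r (V.eN r r (V.cut r s ξ))) := rfl

theorem iotaS_apply (v : V.V s) : V.iotaS r s l (g, u, ξ, η, v) =
    ((V.tw1 r).tw1 s).e r s ((V.tw1 r).eg s s (V.e r s (V.a r s l g)) +
      (V.tw1 r).en s s ((V.tw1 r).sg r s l (V.eg r r g + V.en r r (V.cut r s ξ)) +
        V.eN r s (V.cut s r η))) := rfl

theorem iotaX_apply : V.iotaX r s x (g, u, ξ, η, v) =
    ((V.tw1 r).tw1 s).e r x ((V.tw1 r).e s x (V.e r x v)) := rfl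

end

/-- The homotopy `s → r`. -/
def iFq (V : DG k Γ) (r s : X) : V.BV r s s →ₗ[k] (V.tw3 r s).V r :=
  ((V.tw1 r).tw1 s).eg r r ∘ₗ (V.tw1 r).e s r ∘ₗ V.iR r s s

/-- The homotopy `r → s`. -/
def iFp (V : DG k Γ) (r s : X) : V.BV r s r →ₗ[k] (V.tw3 r s).V s :=
  ((V.tw1 r).tw1 s).e r s ∘ₗ (V.tw1 r).eg s s ∘ₗ V.e r s ∘ₗ V.kap s r ∘ₗ
    (V.bu r s r).prod (V.be r s r)

/-- The homotopies of `ι`. -/
def ifa (V : DG k Γ) (r s x y : X) (m : Λ) : V.BV r s x →ₗ[k] (V.tw3 r s).V y :=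
  if h : x = s ∧ y = r then
    Eq.rec (motive := fun y' _ => V.BV r s x →ₗ[k] (V.tw3 r s).V y')
      (Eq.rec (motive := fun x' _ => V.BV r s x' →ₗ[k] (V.tw3 r s).V r) (V.iFq r s) h.1.symm)
      h.2.symm
  else if h : x = r ∧ y = s then
    Eq.rec (motive := fun y' _ => V.BV r s x →ₗ[k] (V.tw3 r s).V y')
      (Eq.rec (motive := fun x' _ => V.BV r s x' →ₗ[k] (V.tw3 r s).V s) (V.iFp r s) h.1.symm)
      h.2.symm
  else 0

theorem ifa_sr (V : DG k Γ) (r s : X) (m : Λ) : V.ifa r s s r m = V.iFq r s := by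
  unfold ifa
  rw [dif_pos ⟨rfl, rfl⟩]

theorem ifa_rs (V : DG k Γ) {r s : X} (h : r ≠ s) (m : Λ) : V.ifa r s r s m = V.iFp r s := by
  unfold ifa
  rw [dif_neg (fun h' => h h'.1), dif_pos ⟨rfl, rfl⟩]

theorem ifa_zero (V : DG k Γ) {r s x y : X} (m : Λ) (h1 : ¬ (x = s ∧ y = r))
    (h2 : ¬ (x = r ∧ y = s)) : V.ifa r s x y m = 0 := by
  unfold ifa
  rw [dif_neg h1, dif_neg h2]

section
variable (V : DG k Γ) (r s x : X) (l : Λ) (g : V.V r) (u : V.V s) (ξ : V.N r) (η : V.N s)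

theorem iFq_apply (v : V.V s) : V.iFq r s (g, u, ξ, η, v) =
    ((V.tw1 r).tw1 s).eg r r ((V.tw1 r).e s r (V.eg r r g + V.en r r (V.cut r s ξ))) := rfl

theorem iFp_apply (v : V.V r) : V.iFp r s (g, u, ξ, η, v) =
    ((V.tw1 r).tw1 s).e r s ((V.tw1 r).eg s s (V.e r s (V.kap s r (u, η)))) := rfl

end

end DG

end Vale.Agent.P203.Dg
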