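import Vale.Agent.P203.Dg.Coh

/-!
# The twists of dg modules at an independent set `P` of vertices

* `twist P hP V` (this is `σ_P⁻¹`): at `x ∈ P` the space `V_x` is replaced by `Cone(j_x)`;
* `twistInv P hP V` (this is `σ_P`): at `x ∈ P` the space `V_x` is replaced by the cocone of `i_x`.

The underlying spaces are `V x × N x × V x ∋ (g, ν, v)` for all `x`; at `x ∈ P` only the pairs
`(g, ν, 0)` are homogeneous, at `x ∉ P` only the `(0, 0, v)`. All identities hold for all elements.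
-/

set_option linter.all false

namespace Vale.Agent.P203.Dg

open Vale.Agent.P203.Mod

variable {S X Λ : Type} [Fintype X] [DecidableEq X] [Fintype Λ] [DecidableEq Λ] [DecidableEq S]
variable {k : Type} [Field k] {Γ : FGraph S X Λ}

/-- Characteristic 2: every vector is its own negative. -/
theorem add_self_char2 [CharP k 2] {M : Type} [AddCommGroup M] [Module k M] (v : M) :
    v + v = 0 := by
  have h3 : (2 : k) = 0 := CharP.cast_eq_zero k 2
  rw [← two_smul k v, h3, zero_smul]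

theorem eq_of_add_eq_zero_char2 [CharP k 2] {M : Type} [AddCommGroup M] [Module k M] {v w : M}
    (h : v + w = 0) : v = w := by
  rw [eq_neg_of_add_eq_zero_left h]
  exact (eq_neg_of_add_eq_zero_left (add_self_char2 (k := k) w)).symm

/-- An independent set of vertices. -/
def Indep (Γ : FGraph S X Λ) (P : X → Prop) : Prop :=
  ∀ (x y : X) (l : Λ), Γ.adj x y l = true → P x → ¬ P y

namespace DG

variable (P : X → Prop) [DecidablePred P]

/-- The common type of the spaces of the twisted objects. -/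
abbrev TV (V : DG k Γ) (x : X) : Type := V.V x × V.N x × V.V x

/-! ### The Cone version `σ_P⁻¹` -/

/-- The map `(g, ν, v) ↦ h g + i ν` at `x ∈ P`, `(g, ν, v) ↦ v` at `x ∉ P` (natural map
`σ_P⁻¹ V → V`). -/
def tval (V : DG k Γ) (x : X) : V.TV x →ₗ[k] V.V x :=
  if P x then (V.h x).comp (LinearMap.fst k _ _) +
    (V.i x).comp ((LinearMap.fst k _ _).comp (LinearMap.snd k _ _))
  else (LinearMap.snd k _ _).comp (LinearMap.snd k _ _)

/-- The map `v ↦ (0, sg v, 0)` at `y ∈ P` and `v ↦ (0, 0, a v)` at `y ∉ P`. -/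
def tinc (V : DG k Γ) (x y : X) (l : Λ) : V.V x →ₗ[k] V.TV y :=
  if P y then (LinearMap.inr k _ _).comp ((LinearMap.inl k _ _).comp (V.sg x y l))
  else (LinearMap.inr k _ _).comp ((LinearMap.inr k _ _).comp (V.a x y l))

/-- The differential of the cone. -/
def td (V : DG k Γ) (x : X) : V.TV x →ₗ[k] V.TV x :=
  LinearMap.prod ((V.d x).comp (LinearMap.fst k _ _))
    (LinearMap.prod ((V.j x).comp (LinearMap.fst k _ _) +
      (V.dN x).comp ((LinearMap.fst k _ _).comp (LinearMap.snd k _ _)))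
      ((V.d x).comp ((LinearMap.snd k _ _).comp (LinearMap.snd k _ _))))

/-- The homotopy `h'` of the cone. -/
def th (V : DG k Γ) (x : X) : V.TV x →ₗ[k] V.TV x :=
  if P x then (LinearMap.inl k _ _).comp (V.tval P x)
  else (LinearMap.inr k _ _).comp ((LinearMap.inr k _ _).comp
    ((V.h x).comp ((LinearMap.snd k _ _).comp (LinearMap.snd k _ _))))

/-- The grading of the cone. -/
def tgr (V : DG k Γ) (x : X) (n : ℤ) : Submodule k (V.TV x) :=
  if P x then (V.gr x (n + 1)).prod ((V.grN x n).prod ⊥)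
  else (⊥ : Submodule k (V.V x)).prod ((⊥ : Submodule k (V.N x)).prod (V.gr x n))

variable {P}

theorem tval_of {V : DG k Γ} {x : X} (h : P x) (g : V.V x) (ν : V.N x) (v : V.V x) :
    V.tval P x (g, ν, v) = V.h x g + V.i x ν := by
  simp [tval, h]

theorem tval_not {V : DG k Γ} {x : X} (h : ¬ P x) (g : V.V x) (ν : V.N x) (v : V.V x) :
    V.tval P x (g, ν, v) = v := by
  simp [tval, h]

theorem tinc_of {V : DG k Γ} {x y : X} {l : Λ} (h : P y) (v : V.V x) :
    V.tinc P x y l v = (0, V.sg x y l v, 0) := by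
  simp [tinc, h]

theorem tinc_not {V : DG k Γ} {x y : X} {l : Λ} (h : ¬ P y) (v : V.V x) :
    V.tinc P x y l v = (0, 0, V.a x y l v) := by
  simp [tinc, h]

theorem td_apply {V : DG k Γ} {x : X} (g : V.V x) (ν : V.N x) (v : V.V x) :
    V.td x (g, ν, v) = (V.d x g, V.j x g + V.dN x ν, V.d x v) := by
  simp [td]

theorem th_of {V : DG k Γ} {x : X} (h : P x) (g : V.V x) (ν : V.N x) (v : V.V x) :
    V.th P x (g, ν, v) = (V.h x g + V.i x ν, 0, 0) := by
  simp [th, h, tval]
  rfl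

theorem th_not {V : DG k Γ} {x : X} (h : ¬ P x) (g : V.V x) (ν : V.N x) (v : V.V x) :
    V.th P x (g, ν, v) = (0, 0, V.h x v) := by
  simp [th, h]

theorem mem_tgr_of {V : DG k Γ} {x : X} (h : P x) {n : ℤ} {g : V.V x} {ν : V.N x} {v : V.V x} :
    (g, ν, v) ∈ V.tgr P x n ↔ g ∈ V.gr x (n + 1) ∧ ν ∈ V.grN x n ∧ v = 0 := by
  simp [tgr, h]

theorem mem_tgr_not {V : DG k Γ} {x : X} (h : ¬ P x) {n : ℤ} {g : V.V x} {ν : V.N x}
    {v : V.V x} : (g, ν, v) ∈ V.tgr P x n ↔ g = 0 ∧ ν = 0 ∧ v ∈ V.gr x n := by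
  simp [tgr, h]

theorem tval_tinc {V : DG k Γ} {x y : X} {l : Λ} (h : Γ.adj x y l = true) (v : V.V x) :
    V.tval P y (V.tinc P x y l v) = V.a x y l v := by
  by_cases hy : P y
  · rw [tinc_of hy, tval_of hy, map_zero, zero_add, V.i_sg (Γ.symm h)]
  · rw [tinc_not hy, tval_not hy]

theorem tval_td [CharP k 2] {V : DG k Γ} (x : X) (z : V.TV x) :
    V.tval P x (V.td x z) = V.d x (V.tval P x z) := by
  obtain ⟨g, ν, v⟩ := z
  rw [td_apply]
  by_cases hx : P x
  · rw [tval_of hx, tval_of hx, map_add, map_add, V.i_j, V.d_i]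
    have h1 := add_self_char2 (k := k) (V.h x (V.d x g))
    calc V.h x (V.d x g) + (V.d x (V.h x g) + V.h x (V.d x g) + V.i x (V.dN x ν))
        = (V.h x (V.d x g) + V.h x (V.d x g)) + (V.d x (V.h x g) + V.i x (V.dN x ν)) := by abel
      _ = _ := by rw [h1, zero_add]
  · rw [tval_not hx, tval_not hx]

theorem td_tinc {V : DG k Γ} {x y : X} {l : Λ} (h : Γ.adj x y l = true) (v : V.V x) :
    V.td y (V.tinc P x y l v) = V.tinc P x y l (V.d x v) := by
  by_cases hy : P y
  · rw [tinc_of hy, tinc_of hy, td_apply]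
    simp [V.dN_sg]
  · rw [tinc_not hy, tinc_not hy, td_apply]
    simp [V.d_a h]

theorem sum_tinc {V : DG k Γ} {x : X} (hx : P x) (ν : V.N x) :
    ∑ p : Γ.Nb x, V.tinc P p.1.1 x p.1.2 (ν p) = (0, ν, 0) := by
  have h1 : ∀ p : Γ.Nb x, V.tinc P p.1.1 x p.1.2 (ν p) = (0, V.sg p.1.1 x p.1.2 (ν p), 0) :=
    fun p => tinc_of hx _
  simp only [h1]
  rw [Prod.ext_iff, Prod.ext_iff, Prod.fst_sum, Prod.snd_sum, Prod.fst_sum, Prod.snd_sum]
  refine ⟨by simp, ?_, by simp⟩
  exact V.sum_sg x ν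

theorem sum_tinc_not {V : DG k Γ} {x : X} (hx : ¬ P x) (ν : V.N x) :
    ∑ p : Γ.Nb x, V.tinc P p.1.1 x p.1.2 (ν p) = (0, 0, V.i x ν) := by
  have h1 : ∀ p : Γ.Nb x, V.tinc P p.1.1 x p.1.2 (ν p) = (0, 0, V.a p.1.1 x p.1.2 (ν p)) :=
    fun p => tinc_not hx _
  simp only [h1]
  rw [Prod.ext_iff, Prod.ext_iff, Prod.fst_sum, Prod.snd_sum, Prod.fst_sum, Prod.snd_sum]
  refine ⟨by simp, by simp, ?_⟩
  exact (V.i_apply x ν).symm

variable (P) in
/-- The twist `σ_P⁻¹` (cone version). -/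
@[reducible] def twist [CharP k 2] (hP : Indep Γ P) (V : DG k Γ) : DG k Γ where
  V x := V.TV x
  d x := V.td x
  h x := V.th P x
  a x y l := (V.tinc P x y l).comp (V.tval P x)
  gr x n := V.tgr P x n
  d_d x z := by
    obtain ⟨g, ν, v⟩ := z
    rw [td_apply, td_apply, V.d_d, V.d_d, map_add, V.dN_j, V.dN_dN, add_zero,
      add_self_char2 (k := k)]
    rfl
  d_a {x y l} h z := by
    rw [LinearMap.comp_apply, LinearMap.comp_apply, td_tinc h, tval_td]
  rel x z := by
    have h1 : ∀ p : Γ.Nb x, ((V.tinc P p.1.1 x p.1.2).comp (V.tval P p.1.1))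
        (((V.tinc P x p.1.1 p.1.2).comp (V.tval P x)) z) =
        V.tinc P p.1.1 x p.1.2 (V.j x (V.tval P x z) p) := by
      intro p
      rw [LinearMap.comp_apply, LinearMap.comp_apply, tval_tinc p.2]
      rfl
    simp only [h1]
    obtain ⟨g, ν, v⟩ := z
    by_cases hx : P x
    · rw [sum_tinc hx, th_of hx, td_apply, td_apply, th_of hx, tval_of hx]
      simp only [map_add, map_zero, Prod.mk_add_mk, add_zero, V.i_j, V.d_i]
      refine Prod.ext ?_ rfl
      show (0 : V.V x) = _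
      have h2 := add_self_char2 (k := k) (V.h x (V.d x g))
      have h3 := add_self_char2 (k := k) (V.d x (V.h x g))
      have h4 := add_self_char2 (k := k) (V.i x (V.dN x ν))
      calc (0 : V.V x) = (V.h x (V.d x g) + V.h x (V.d x g)) + (V.d x (V.h x g) + V.d x (V.h x g))
            + (V.i x (V.dN x ν) + V.i x (V.dN x ν)) := by rw [h2, h3, h4]; simp
        _ = _ := by abel_nf
    · rw [sum_tinc_not hx, th_not hx, td_apply, td_apply, th_not hx, tval_not hx, V.i_j]
      simp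
  gr_d {x n z} hz := by
    obtain ⟨g, ν, v⟩ := z
    rw [td_apply]
    by_cases hx : P x
    · obtain ⟨h1, h2, rfl⟩ := (mem_tgr_of hx).1 hz
      exact (mem_tgr_of hx).2 ⟨V.gr_d h1, Submodule.add_mem _ (gr_j h1) (gr_dN h2), map_zero _⟩
    · obtain ⟨rfl, rfl, h3⟩ := (mem_tgr_not hx).1 hz
      exact (mem_tgr_not hx).2 ⟨map_zero _, by simp, V.gr_d h3⟩
  gr_h {x n z} hz := by
    obtain ⟨g, ν, v⟩ := z
    by_cases hx : P x
    · obtain ⟨h1, h2, rfl⟩ := (mem_tgr_of hx).1 hz
      rw [th_of hx]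
      refine (mem_tgr_of hx).2 ⟨Submodule.add_mem _ ?_ ?_, Submodule.zero_mem _, rfl⟩
      · have := V.gr_h h1
        rwa [add_sub_right_comm] at this
      · have := gr_i h2
        rwa [sub_add_cancel]
    · obtain ⟨rfl, rfl, h3⟩ := (mem_tgr_not hx).1 hz
      rw [th_not hx]
      exact (mem_tgr_not hx).2 ⟨rfl, rfl, V.gr_h h3⟩
  gr_a {x y l n z} h hz := by
    rw [LinearMap.comp_apply]
    have h0 : V.tval P x z ∈ V.gr x n := by
      obtain ⟨g, ν, v⟩ := z
      by_cases hx : P x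
      · obtain ⟨h1, h2, rfl⟩ := (mem_tgr_of hx).1 hz
        rw [tval_of hx]
        refine Submodule.add_mem _ ?_ (gr_i h2)
        have := V.gr_h h1
        rwa [add_sub_cancel_right] at this
      · obtain ⟨rfl, rfl, h3⟩ := (mem_tgr_not hx).1 hz
        rwa [tval_not hx]
    by_cases hy : P y
    · rw [tinc_of hy]
      exact (mem_tgr_of hy).2 ⟨Submodule.zero_mem _, gr_sg h0, rfl⟩
    · rw [tinc_not hy]
      exact (mem_tgr_not hy).2 ⟨rfl, rfl, V.gr_a h h0⟩

/-! ### The cocone version `σ_P` -/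

/-- The component `ν_(y,l)` of `ν ∈ N_x` (zero if there is no such edge). -/
def comp (V : DG k Γ) (x y : X) (l : Λ) : V.N x →ₗ[k] V.V y :=
  if h : Γ.adj x y l = true then LinearMap.proj (R := k) (φ := fun p : Γ.Nb x => V.V p.1.1)
    (⟨(y, l), h⟩ : Γ.Nb x) else 0

theorem comp_of {V : DG k Γ} {x y : X} {l : Λ} (h : Γ.adj x y l = true) (ν : V.N x) :
    V.comp x y l ν = ν ⟨(y, l), h⟩ := by
  simp [comp, h]

variable (P)

/-- The outgoing value along `(x, l, y)` in `σ_P V`. -/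
def uout (V : DG k Γ) (x y : X) (l : Λ) : V.TV x →ₗ[k] V.V y :=
  if P x then (V.comp x y l).comp ((LinearMap.fst k _ _).comp (LinearMap.snd k _ _))
  else (V.a x y l).comp ((LinearMap.snd k _ _).comp (LinearMap.snd k _ _))

/-- The natural map `V → σ_P V`. -/
def uinc (V : DG k Γ) (x : X) : V.V x →ₗ[k] V.TV x :=
  if P x then LinearMap.prod (V.h x) (LinearMap.prod (V.j x) 0)
  else (LinearMap.inr k _ _).comp (LinearMap.inr k _ _)

/-- The differential of the cocone. -/
def ud (V : DG k Γ) (x : X) : V.TV x →ₗ[k] V.TV x :=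
  LinearMap.prod ((V.i x).comp ((LinearMap.fst k _ _).comp (LinearMap.snd k _ _)) +
      (V.d x).comp (LinearMap.fst k _ _))
    (LinearMap.prod ((V.dN x).comp ((LinearMap.fst k _ _).comp (LinearMap.snd k _ _)))
      ((V.d x).comp ((LinearMap.snd k _ _).comp (LinearMap.snd k _ _))))

/-- The homotopy of the cocone. -/
def uh (V : DG k Γ) (x : X) : V.TV x →ₗ[k] V.TV x :=
  if P x then (LinearMap.prod (V.h x) (LinearMap.prod (V.j x) 0)).comp (LinearMap.fst k _ _)
  else (LinearMap.inr k _ _).comp ((LinearMap.inr k _ _).comp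
    ((V.h x).comp ((LinearMap.snd k _ _).comp (LinearMap.snd k _ _))))

/-- The grading of the cocone. -/
def ugr (V : DG k Γ) (x : X) (n : ℤ) : Submodule k (V.TV x) :=
  if P x then (V.gr x (n - 1)).prod ((V.grN x n).prod ⊥)
  else (⊥ : Submodule k (V.V x)).prod ((⊥ : Submodule k (V.N x)).prod (V.gr x n))

variable {P}

theorem uout_of {V : DG k Γ} {x y : X} {l : Λ} (h : P x) (g : V.V x) (ν : V.N x) (v : V.V x) :
    V.uout P x y l (g, ν, v) = V.comp x y l ν := by
  simp [uout, h]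

theorem uout_not {V : DG k Γ} {x y : X} {l : Λ} (h : ¬ P x) (g : V.V x) (ν : V.N x)
    (v : V.V x) : V.uout P x y l (g, ν, v) = V.a x y l v := by
  simp [uout, h]

theorem uinc_of {V : DG k Γ} {x : X} (h : P x) (v : V.V x) :
    V.uinc P x v = (V.h x v, V.j x v, 0) := by
  simp [uinc, h]

theorem uinc_not {V : DG k Γ} {x : X} (h : ¬ P x) (v : V.V x) :
    V.uinc P x v = (0, 0, v) := by
  simp [uinc, h]

theorem ud_apply {V : DG k Γ} {x : X} (g : V.V x) (ν : V.N x) (v : V.V x) :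
    V.ud x (g, ν, v) = (V.i x ν + V.d x g, V.dN x ν, V.d x v) := by
  simp [ud]

theorem uh_of {V : DG k Γ} {x : X} (h : P x) (g : V.V x) (ν : V.N x) (v : V.V x) :
    V.uh P x (g, ν, v) = (V.h x g, V.j x g, 0) := by
  simp [uh, h]

theorem uh_not {V : DG k Γ} {x : X} (h : ¬ P x) (g : V.V x) (ν : V.N x) (v : V.V x) :
    V.uh P x (g, ν, v) = (0, 0, V.h x v) := by
  simp [uh, h]

theorem mem_ugr_of {V : DG k Γ} {x : X} (h : P x) {n : ℤ} {g : V.V x} {ν : V.N x} {v : V.V x} :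
    (g, ν, v) ∈ V.ugr P x n ↔ g ∈ V.gr x (n - 1) ∧ ν ∈ V.grN x n ∧ v = 0 := by
  simp [ugr, h]

theorem mem_ugr_not {V : DG k Γ} {x : X} (h : ¬ P x) {n : ℤ} {g : V.V x} {ν : V.N x}
    {v : V.V x} : (g, ν, v) ∈ V.ugr P x n ↔ g = 0 ∧ ν = 0 ∧ v ∈ V.gr x n := by
  simp [ugr, h]

theorem ud_uinc [CharP k 2] {V : DG k Γ} (x : X) (v : V.V x) :
    V.ud x (V.uinc P x v) = V.uinc P x (V.d x v) := by
  by_cases hx : P x
  · rw [uinc_of hx, uinc_of hx, ud_apply, V.i_j, V.dN_j, map_zero]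
    refine Prod.ext ?_ rfl
    show V.d x (V.h x v) + V.h x (V.d x v) + V.d x (V.h x v) = V.h x (V.d x v)
    have h3 := add_self_char2 (k := k) (V.d x (V.h x v))
    calc V.d x (V.h x v) + V.h x (V.d x v) + V.d x (V.h x v)
        = (V.d x (V.h x v) + V.d x (V.h x v)) + V.h x (V.d x v) := by abel
      _ = _ := by rw [h3, zero_add]
  · rw [uinc_not hx, uinc_not hx, ud_apply]
    simp

theorem uout_ud {V : DG k Γ} {x y : X} {l : Λ} (h : Γ.adj x y l = true) (z : V.TV x) :
    V.uout P x y l (V.ud x z) = V.d y (V.uout P x y l z) := by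
  obtain ⟨g, ν, v⟩ := z
  rw [ud_apply]
  by_cases hx : P x
  · rw [uout_of hx, uout_of hx, comp_of h, comp_of h]
    rfl
  · rw [uout_not hx, uout_not hx, V.d_a h]

theorem uout_uinc {V : DG k Γ} {x y : X} {l : Λ} (h : Γ.adj x y l = true) (v : V.V x) :
    V.uout P x y l (V.uinc P x v) = V.a x y l v := by
  by_cases hx : P x
  · rw [uinc_of hx, uout_of hx, comp_of h]
    rfl
  · rw [uinc_not hx, uout_not hx]

variable (P) in
/-- The twist `σ_P` (cocone version). -/
@[reducible] def twistInv [CharP k 2] (hP : Indep Γ P) (V : DG k Γ) : DG k Γ where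
  V x := V.TV x
  d x := V.ud x
  h x := V.uh P x
  a x y l := (V.uinc P y).comp (V.uout P x y l)
  gr x n := V.ugr P x n
  d_d x z := by
    obtain ⟨g, ν, v⟩ := z
    rw [ud_apply, ud_apply, V.d_d, V.dN_dN, map_add, V.d_i, V.d_d, add_zero,
      add_self_char2 (k := k)]
    rfl
  d_a {x y l} h z := by
    rw [LinearMap.comp_apply, LinearMap.comp_apply, ud_uinc, uout_ud h]
  rel x z := by
    have h1 : ∀ p : Γ.Nb x, ((V.uinc P x).comp (V.uout P p.1.1 x p.1.2))
        (((V.uinc P p.1.1).comp (V.uout P x p.1.1 p.1.2)) z) =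
        V.uinc P x (V.a p.1.1 x p.1.2 (V.uout P x p.1.1 p.1.2 z)) := by
      intro p
      rw [LinearMap.comp_apply, LinearMap.comp_apply, uout_uinc (Γ.symm p.2)]
    simp only [h1]
    rw [← map_sum]
    obtain ⟨g, ν, v⟩ := z
    by_cases hx : P x
    · have h2 : ∑ p : Γ.Nb x, V.a p.1.1 x p.1.2 (V.uout P x p.1.1 p.1.2 (g, ν, v)) = V.i x ν := by
        rw [V.i_apply]
        refine Finset.sum_congr rfl fun p _ => ?_
        rw [uout_of hx, comp_of p.2]
      rw [h2, uinc_of hx, uh_of hx, ud_apply, ud_apply, uh_of hx]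
      simp only [map_add, map_zero, Prod.mk_add_mk, add_zero, V.i_j, V.dN_j]
      have h3 := add_self_char2 (k := k) (V.h x (V.d x g))
      have h4 := add_self_char2 (k := k) (V.d x (V.h x g))
      have h5 := add_self_char2 (k := k) (V.j x (V.d x g))
      refine Prod.ext ?_ (Prod.ext ?_ rfl)
      · show V.h x (V.i x ν) = _
        calc V.h x (V.i x ν) = (V.h x (V.d x g) + V.h x (V.d x g)) +
              (V.d x (V.h x g) + V.d x (V.h x g)) + V.h x (V.i x ν) := by
                rw [h3, h4, zero_add, zero_add]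
          _ = _ := by abel_nf
      · show V.j x (V.i x ν) = _
        calc V.j x (V.i x ν) = (V.j x (V.d x g) + V.j x (V.d x g)) + V.j x (V.i x ν) := by
                rw [h5, zero_add]
          _ = _ := by abel_nf
    · have h2 : ∑ p : Γ.Nb x, V.a p.1.1 x p.1.2 (V.uout P x p.1.1 p.1.2 (g, ν, v)) =
          V.i x (V.j x v) := by
        rw [V.i_apply]
        refine Finset.sum_congr rfl fun p _ => ?_
        rw [uout_not hx]
        rfl
      rw [h2, uinc_not hx, uh_not hx, ud_apply, ud_apply, uh_not hx, V.i_j]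
      simp
  gr_d {x n z} hz := by
    obtain ⟨g, ν, v⟩ := z
    rw [ud_apply]
    by_cases hx : P x
    · obtain ⟨h1, h2, rfl⟩ := (mem_ugr_of hx).1 hz
      refine (mem_ugr_of hx).2 ⟨Submodule.add_mem _ ?_ ?_, gr_dN h2, map_zero _⟩
      · rw [add_sub_cancel_right]
        exact gr_i h2
      · have := V.gr_d h1
        rwa [← add_sub_right_comm] at this
    · obtain ⟨rfl, rfl, h3⟩ := (mem_ugr_not hx).1 hz
      exact (mem_ugr_not hx).2 ⟨by simp, by simp, V.gr_d h3⟩
  gr_h {x n z} hz := by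
    obtain ⟨g, ν, v⟩ := z
    by_cases hx : P x
    · obtain ⟨h1, h2, rfl⟩ := (mem_ugr_of hx).1 hz
      rw [uh_of hx]
      exact (mem_ugr_of hx).2 ⟨V.gr_h h1, gr_j h1, rfl⟩
    · obtain ⟨rfl, rfl, h3⟩ := (mem_ugr_not hx).1 hz
      rw [uh_not hx]
      exact (mem_ugr_not hx).2 ⟨rfl, rfl, V.gr_h h3⟩
  gr_a {x y l n z} h hz := by
    rw [LinearMap.comp_apply]
    have h0 : V.uout P x y l z ∈ V.gr y n := by
      obtain ⟨g, ν, v⟩ := z
      by_cases hx : P x
      · obtain ⟨h1, h2, rfl⟩ := (mem_ugr_of hx).1 hz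
        rw [uout_of hx, comp_of h]
        exact mem_grN.1 h2 ⟨(y, l), h⟩
      · obtain ⟨rfl, rfl, h3⟩ := (mem_ugr_not hx).1 hz
        rw [uout_not hx]
        exact V.gr_a h h3
    by_cases hy : P y
    · rw [uinc_of hy]
      exact (mem_ugr_of hy).2 ⟨V.gr_h h0, gr_j h0, rfl⟩
    · rw [uinc_not hy]
      exact (mem_ugr_not hy).2 ⟨rfl, rfl, h0⟩

end DG

end Vale.Agent.P203.Dg
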