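import Vale.Agent.P203.Dg.Twist
import Vale.Agent.P203.Dg.Strict

/-!
# The twist at a union of two independent sets

`unionMap : twist (P ∪ Q) V → twist P (twist Q V)` is a strict morphism, bijective on the graded
parts; `emptyMap : V → twist ∅ V` likewise.
-/

set_option linter.all false

namespace Vale.Agent.P203.Dg

open Vale.Agent.P203.Mod

variable {S X Λ : Type} [Fintype X] [DecidableEq X] [Fintype Λ] [DecidableEq Λ] [DecidableEq S]
variable {k : Type} [Field k] {Γ : FGraph S X Λ}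

namespace HomS

variable {V W : DG k Γ}

/-- A strict morphism which is bijective on the graded parts is a quasi-isomorphism. -/
theorem qi_of_gr_bij (φ : HomS V W)
    (hinj : ∀ x n v, v ∈ V.gr x n → φ.f x v = 0 → v = 0)
    (hsurj : ∀ x n w, w ∈ W.gr x n → ∃ v ∈ V.gr x n, φ.f x v = w) : φ.QI := by
  have hinj' : ∀ x n v v', v ∈ V.gr x n → v' ∈ V.gr x n → φ.f x v = φ.f x v' → v = v' := by
    intro x n v v' hv hv' h
    have := hinj x n (v - v') (Submodule.sub_mem _ hv hv') (by rw [map_sub, h, sub_self])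
    exact sub_eq_zero.1 this
  intro x
  constructor
  · rintro n v hv hdv ⟨w, hw, hwv⟩
    obtain ⟨u, hu, rfl⟩ := hsurj x (n - 1) w hw
    refine ⟨u, hu, ?_⟩
    rw [φ.d_f] at hwv
    have h1 : V.d x u ∈ V.gr x n := by
      have := V.gr_d hu
      rwa [sub_add_cancel] at this
    exact hinj' x n _ _ h1 hv hwv
  · intro n w hw hdw
    obtain ⟨v, hv, rfl⟩ := hsurj x n w hw
    refine ⟨v, hv, ?_, 0, Submodule.zero_mem _, by simp⟩
    rw [φ.d_f] at hdw
    exact hinj x (n + 1) _ (V.gr_d hv) hdw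

end HomS

namespace DG

variable (P Q : X → Prop) [DecidablePred P] [DecidablePred Q]

/-- `v ↦ (0, 0, v)`. -/
def emb3 (V : DG k Γ) (x : X) : V.V x →ₗ[k] V.TV x :=
  (LinearMap.inr k _ _).comp (LinearMap.inr k _ _)

theorem emb3_apply (V : DG k Γ) (x : X) (v : V.V x) : V.emb3 x v = (0, 0, v) := rfl

variable {Q} in
/-- identification of the underlying spaces of the twist. -/
def toT [CharP k 2] (hQ : Indep Γ Q) (V : DG k Γ) (x : X) : V.TV x →ₗ[k] (V.twist Q hQ).V x :=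
  (LinearMap.id : V.TV x →ₗ[k] V.TV x)

variable {Q} in
/-- `v ↦ (0, 0, v)`. -/
def emb [CharP k 2] (hQ : Indep Γ Q) (V : DG k Γ) (x : X) : V.V x →ₗ[k] (V.twist Q hQ).V x :=
  (V.toT hQ x).comp (V.emb3 x)

variable {Q} in
/-- componentwise `v ↦ (0, 0, v)`. -/
def embN [CharP k 2] (hQ : Indep Γ Q) (V : DG k Γ) (x : X) :
    V.N x →ₗ[k] (V.twist Q hQ).N x :=
  LinearMap.pi fun p => (V.emb hQ p.1.1).comp (LinearMap.proj p)

/-- The map `twist (P ∪ Q) V → twist P (twist Q V)`. -/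
def unionFun [CharP k 2] (hQ : Indep Γ Q) (V : DG k Γ) (x : X) :
    V.TV x →ₗ[k] (V.twist Q hQ).TV x :=
  if P x then LinearMap.prod ((V.emb hQ x).comp (LinearMap.fst k _ _))
    (LinearMap.prod ((V.embN hQ x).comp ((LinearMap.fst k _ _).comp (LinearMap.snd k _ _))) 0)
  else if Q x then ((V.twist Q hQ).emb3 x).comp (V.toT hQ x)
  else ((V.twist Q hQ).emb3 x).comp ((V.emb hQ x).comp ((LinearMap.snd k _ _).comp
    (LinearMap.snd k _ _)))

variable {P Q}

section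

variable [CharP k 2] (hQ : Indep Γ Q) (V : DG k Γ)

theorem embN_apply (x : X) (ν : V.N x) (p : Γ.Nb x) :
    V.embN hQ x ν p = V.emb hQ p.1.1 (ν p) := rfl

theorem emb_def (x : X) (v : V.V x) : V.emb hQ x v = V.toT hQ x (0, 0, v) := rfl

theorem toT_inj {x : X} {z z' : V.TV x} (h : V.toT hQ x z = V.toT hQ x z') : z = z' := h

theorem exists_toT {x : X} (w : (V.twist Q hQ).V x) : ∃ z, V.toT hQ x z = w := ⟨w, rfl⟩

theorem twist_d_toT (x : X) (z : V.TV x) :
    (V.twist Q hQ).d x (V.toT hQ x z) = V.toT hQ x (V.td x z) := rfl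

theorem twist_h_toT (x : X) (z : V.TV x) :
    (V.twist Q hQ).h x (V.toT hQ x z) = V.toT hQ x (V.th Q x z) := rfl

theorem twist_a_toT (x y : X) (l : Λ) (z : V.TV x) :
    (V.twist Q hQ).a x y l (V.toT hQ x z) = V.toT hQ y (V.tinc Q x y l (V.tval Q x z)) := rfl

theorem mem_gr_toT {x : X} {n : ℤ} {z : V.TV x} :
    V.toT hQ x z ∈ (V.twist Q hQ).gr x n ↔ z ∈ V.tgr Q x n := Iff.rfl

theorem unionFun_P {x : X} (hx : P x) (g : V.V x)
    (ν : V.N x) (v : V.V x) :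
    V.unionFun P Q hQ x (g, ν, v) = (V.emb hQ x g, V.embN hQ x ν, 0) := by
  simp only [unionFun, hx, if_true]
  rfl

theorem unionFun_Q {x : X} (hx : ¬ P x) (hx' : Q x)
    (z : V.TV x) : V.unionFun P Q hQ x z = (0, 0, V.toT hQ x z) := by
  simp only [unionFun, hx, hx', if_true, if_false]
  rfl

theorem unionFun_not {x : X} (hx : ¬ P x)
    (hx' : ¬ Q x) (g : V.V x) (ν : V.N x) (v : V.V x) :
    V.unionFun P Q hQ x (g, ν, v) = (0, 0, V.emb hQ x v) := by
  simp only [unionFun, hx, hx', if_false]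
  rfl

theorem twist_d_emb (x : X) (v : V.V x) :
    (V.twist Q hQ).d x (V.emb hQ x v) = V.emb hQ x (V.d x v) := by
  rw [emb_def, emb_def, twist_d_toT, td_apply]
  simp

theorem twist_h_emb {x : X} (hx : ¬ Q x) (v : V.V x) :
    (V.twist Q hQ).h x (V.emb hQ x v) = V.emb hQ x (V.h x v) := by
  rw [emb_def, emb_def, twist_h_toT, th_not hx]

theorem twist_a_emb {x y : X} {l : Λ} (hx : ¬ Q x) (hy : ¬ Q y) (v : V.V x) :
    (V.twist Q hQ).a x y l (V.emb hQ x v) = V.emb hQ y (V.a x y l v) := by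
  rw [emb_def, emb_def, twist_a_toT, tval_not hx, tinc_not hy]

theorem twist_i_embN {x : X} (hx : ¬ Q x) (hN : ∀ p : Γ.Nb x, ¬ Q p.1.1) (ν : V.N x) :
    (V.twist Q hQ).i x (V.embN hQ x ν) = V.emb hQ x (V.i x ν) := by
  rw [i_apply, i_apply, map_sum]
  refine Finset.sum_congr rfl fun p _ => ?_
  rw [embN_apply]
  exact V.twist_a_emb hQ (hN p) hx _

theorem mem_gr_emb {x : X} (hx : ¬ Q x) {n : ℤ} {v : V.V x} :
    V.emb hQ x v ∈ (V.twist Q hQ).gr x n ↔ v ∈ V.gr x n := by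
  rw [emb_def, mem_gr_toT, mem_tgr_not hx]
  simp

theorem exists_of_mem_gr {x : X} (hx : ¬ Q x) {n : ℤ} {w : (V.twist Q hQ).V x}
    (hw : w ∈ (V.twist Q hQ).gr x n) : ∃ v ∈ V.gr x n, V.emb hQ x v = w := by
  obtain ⟨z, rfl⟩ := V.exists_toT hQ w
  obtain ⟨g, ν, v⟩ := z
  rw [mem_gr_toT] at hw
  obtain ⟨rfl, rfl, h3⟩ := (mem_tgr_not hx).1 hw
  exact ⟨v, h3, rfl⟩

theorem emb_inj (x : X) {v : V.V x} (h : V.emb hQ x v = 0) : v = 0 := by
  rw [emb_def] at h
  have := V.toT_inj hQ (h.trans (map_zero _).symm)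
  rw [Prod.ext_iff, Prod.ext_iff] at this
  exact this.2.2

end

section

variable [CharP k 2] (hQ : Indep Γ Q)
  (hR : Indep Γ fun x => P x ∨ Q x) (hPQ : ∀ x, P x → ¬ Q x) (V : DG k Γ)

include hR hPQ

/-- the inner value of `unionFun`. -/
theorem tval_unionFun {x : X} (z : V.TV x) :
    ∃ w : V.TV x, (V.twist Q hQ).tval P x (V.unionFun P Q hQ x z) = V.toT hQ x w ∧
      V.tval Q x w = V.tval (fun x => P x ∨ Q x) x z := by
  obtain ⟨g, ν, v⟩ := z
  by_cases hx : P x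
  · have hx' : ¬ Q x := hPQ x hx
    have hN : ∀ p : Γ.Nb x, ¬ Q p.1.1 := fun p hp => hR _ _ _ p.2 (Or.inl hx) (Or.inr hp)
    refine ⟨(0, 0, V.h x g + V.i x ν), ?_, ?_⟩
    · rw [V.unionFun_P hQ hx, tval_of hx, V.twist_h_emb hQ hx', V.twist_i_embN hQ hx' hN,
        ← map_add, emb_def]
    · rw [tval_not hx']
      exact (tval_of (P := fun x => P x ∨ Q x) (Or.inl hx) g ν v).symm
  · by_cases hx' : Q x
    · refine ⟨(g, ν, v), ?_, ?_⟩
      · rw [V.unionFun_Q hQ hx hx', tval_not hx]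
      · rw [tval_of hx']
        exact (tval_of (P := fun x => P x ∨ Q x) (Or.inr hx') g ν v).symm
    · refine ⟨(0, 0, v), ?_, ?_⟩
      · rw [V.unionFun_not hQ hx hx', tval_not hx, emb_def]
      · rw [tval_not hx']
        refine (tval_not (P := fun x => P x ∨ Q x) ?_ g ν v).symm
        rintro (h | h)
        exacts [hx h, hx' h]

/-- compatibility with the differentials. -/
theorem unionFun_d (x : X) (z : V.TV x) :
    (V.twist Q hQ).td x (V.unionFun P Q hQ x z) = V.unionFun P Q hQ x (V.td x z) := by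
  obtain ⟨g, ν, v⟩ := z
  rw [V.td_apply]
  by_cases hx : P x
  · have hx' := hPQ x hx
    have hN : ∀ p : Γ.Nb x, ¬ Q p.1.1 := fun p hp => hR _ _ _ p.2 (Or.inl hx) (Or.inr hp)
    rw [V.unionFun_P hQ hx, V.unionFun_P hQ hx, td_apply, V.twist_d_emb hQ, map_zero]
    refine Prod.ext rfl (Prod.ext ?_ rfl)
    funext p
    show (V.twist Q hQ).a x p.1.1 p.1.2 (V.emb hQ x g) +
      (V.twist Q hQ).d p.1.1 (V.emb hQ p.1.1 (ν p))
      = V.emb hQ p.1.1 (V.a x p.1.1 p.1.2 g + V.d p.1.1 (ν p))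
    rw [V.twist_a_emb hQ hx' (hN p), V.twist_d_emb hQ, map_add]
  · by_cases hx' : Q x
    · rw [V.unionFun_Q hQ hx hx', V.unionFun_Q hQ hx hx', td_apply]
      simp only [map_zero, add_zero]
      refine Prod.ext rfl (Prod.ext rfl ?_)
      show (V.twist Q hQ).d x (V.toT hQ x (g, ν, v)) = _
      rw [twist_d_toT, td_apply]
    · rw [V.unionFun_not hQ hx hx', V.unionFun_not hQ hx hx', td_apply, V.twist_d_emb hQ]
      simp only [map_zero, add_zero]

theorem unionFun_h (x : X) (z : V.TV x) :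
    (V.twist Q hQ).th P x (V.unionFun P Q hQ x z) =
      V.unionFun P Q hQ x (V.th (fun x => P x ∨ Q x) x z) := by
  obtain ⟨g, ν, v⟩ := z
  by_cases hx : P x
  · have hx' := hPQ x hx
    have hN : ∀ p : Γ.Nb x, ¬ Q p.1.1 := fun p hp => hR _ _ _ p.2 (Or.inl hx) (Or.inr hp)
    rw [th_of (P := fun x => P x ∨ Q x) (Or.inl hx), V.unionFun_P hQ hx, V.unionFun_P hQ hx,
      th_of hx, V.twist_h_emb hQ hx', V.twist_i_embN hQ hx' hN, map_zero, map_add]
  · by_cases hx' : Q x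
    · rw [th_of (P := fun x => P x ∨ Q x) (Or.inr hx'), V.unionFun_Q hQ hx hx',
        V.unionFun_Q hQ hx hx', th_not hx]
      refine Prod.ext rfl (Prod.ext rfl ?_)
      show (V.twist Q hQ).h x (V.toT hQ x (g, ν, v)) = _
      rw [twist_h_toT, th_of hx']
    · have hR' : ¬ (P x ∨ Q x) := by
        rintro (h | h)
        exacts [hx h, hx' h]
      rw [th_not (P := fun x => P x ∨ Q x) hR', V.unionFun_not hQ hx hx',
        V.unionFun_not hQ hx hx', th_not hx, V.twist_h_emb hQ hx']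

theorem unionFun_a {x y : X} {l : Λ} (h : Γ.adj x y l = true) (z : V.TV x) :
    (V.twist Q hQ).tinc P x y l ((V.twist Q hQ).tval P x (V.unionFun P Q hQ x z)) =
    V.unionFun P Q hQ y (V.tinc (fun x => P x ∨ Q x) x y l
      (V.tval (fun x => P x ∨ Q x) x z)) := by
  by_cases hy : P y
  · have hxP : ¬ P x := fun hx => hR _ _ _ h (Or.inl hx) (Or.inl hy)
    have hxQ : ¬ Q x := fun hx => hR _ _ _ h (Or.inr hx) (Or.inl hy)
    obtain ⟨g, ν, v⟩ := z
    have hxR : ¬ (P x ∨ Q x) := by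
      rintro (h | h)
      exacts [hxP h, hxQ h]
    rw [tinc_of hy, tinc_of (P := fun x => P x ∨ Q x) (Or.inl hy), V.unionFun_P hQ hy, map_zero,
      V.unionFun_not hQ hxP hxQ, tval_not hxP, tval_not (P := fun x => P x ∨ Q x) hxR]
    refine Prod.ext rfl (Prod.ext ?_ rfl)
    show (V.twist Q hQ).sg x y l (V.emb hQ x v) = V.embN hQ y (V.sg x y l v)
    rw [sg_of _ (Γ.symm h), sg_of _ (Γ.symm h)]
    funext p
    rw [embN_apply]
    by_cases hp : p = ⟨(x, l), Γ.symm h⟩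
    · subst hp; simp
    · rw [Pi.single_eq_of_ne hp, Pi.single_eq_of_ne hp, map_zero]
  · obtain ⟨w, hw1, hw2⟩ := V.tval_unionFun hQ hR hPQ z
    rw [hw1, ← hw2, tinc_not hy]
    by_cases hy' : Q y
    · rw [V.unionFun_Q hQ hy hy', tinc_of (P := fun x => P x ∨ Q x) (Or.inr hy'),
        twist_a_toT, tinc_of hy']
    · have hR' : ¬ (P y ∨ Q y) := by
        rintro (h | h)
        exacts [hy h, hy' h]
      rw [tinc_not (P := fun x => P x ∨ Q x) hR', V.unionFun_not hQ hy hy', twist_a_toT,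
        tinc_not hy', emb_def]

theorem unionFun_gr {x : X} {n : ℤ} {z : V.TV x} (hz : z ∈ V.tgr (fun x => P x ∨ Q x) x n) :
    V.unionFun P Q hQ x z ∈ (V.twist Q hQ).tgr P x n := by
  obtain ⟨g, ν, v⟩ := z
  by_cases hx : P x
  · have hx' := hPQ x hx
    have hN : ∀ p : Γ.Nb x, ¬ Q p.1.1 := fun p hp => hR _ _ _ p.2 (Or.inl hx) (Or.inr hp)
    obtain ⟨h1, h2, rfl⟩ := (mem_tgr_of (P := fun x => P x ∨ Q x) (Or.inl hx)).1 hz
    rw [V.unionFun_P hQ hx, mem_tgr_of hx]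
    refine ⟨(V.mem_gr_emb hQ hx').2 h1, ?_, rfl⟩
    rw [mem_grN]
    intro p
    exact (V.mem_gr_emb hQ (hN p)).2 (mem_grN.1 h2 p)
  · by_cases hx' : Q x
    · rw [V.unionFun_Q hQ hx hx', mem_tgr_not hx]
      refine ⟨rfl, rfl, ?_⟩
      obtain ⟨h1, h2, rfl⟩ := (mem_tgr_of (P := fun x => P x ∨ Q x) (Or.inr hx')).1 hz
      rw [mem_gr_toT]
      exact (mem_tgr_of hx').2 ⟨h1, h2, rfl⟩
    · have hR' : ¬ (P x ∨ Q x) := by
        rintro (h | h)
        exacts [hx h, hx' h]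
      obtain ⟨rfl, rfl, h3⟩ := (mem_tgr_not (P := fun x => P x ∨ Q x) hR').1 hz
      rw [V.unionFun_not hQ hx hx', mem_tgr_not hx]
      exact ⟨rfl, rfl, (V.mem_gr_emb hQ hx').2 h3⟩

theorem unionFun_inj {x : X} {n : ℤ} {z : V.TV x}
    (hz : z ∈ V.tgr (fun x => P x ∨ Q x) x n) (h : V.unionFun P Q hQ x z = 0) :
    z = 0 := by
  obtain ⟨g, ν, v⟩ := z
  by_cases hx : P x
  · obtain ⟨h1, h2, rfl⟩ := (mem_tgr_of (P := fun x => P x ∨ Q x) (Or.inl hx)).1 hz
    rw [V.unionFun_P hQ hx] at h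
    have e1 : g = 0 := V.emb_inj hQ x (congrArg (fun t => t.1) h)
    have e2 : ν = 0 := by
      funext p
      exact V.emb_inj hQ p.1.1 (congrFun (congrArg (fun t => t.2.1) h) p)
    rw [e1, e2]
    rfl
  · by_cases hx' : Q x
    · rw [V.unionFun_Q hQ hx hx'] at h
      have h3 : V.toT hQ x (g, ν, v) = 0 := congrArg (fun t => t.2.2) h
      exact V.toT_inj hQ (h3.trans (map_zero _).symm)
    · have hR' : ¬ (P x ∨ Q x) := by
        rintro (h | h)
        exacts [hx h, hx' h]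
      obtain ⟨rfl, rfl, h3⟩ := (mem_tgr_not (P := fun x => P x ∨ Q x) hR').1 hz
      rw [V.unionFun_not hQ hx hx'] at h
      have : v = 0 := V.emb_inj hQ x (congrArg (fun t => t.2.2) h)
      rw [this]
      rfl

theorem unionFun_surj {x : X} {n : ℤ} {w : (V.twist Q hQ).TV x}
    (hw : w ∈ (V.twist Q hQ).tgr P x n) :
    ∃ z ∈ V.tgr (fun x => P x ∨ Q x) x n, V.unionFun P Q hQ x z = w := by
  obtain ⟨g, ν, v⟩ := w
  by_cases hx : P x
  · have hx' := hPQ x hx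
    have hN : ∀ p : Γ.Nb x, ¬ Q p.1.1 := fun p hp => hR _ _ _ p.2 (Or.inl hx) (Or.inr hp)
    obtain ⟨h1, h2, rfl⟩ := (mem_tgr_of hx).1 hw
    obtain ⟨g', hg', rfl⟩ := V.exists_of_mem_gr hQ hx' h1
    choose ν' hν' hν using fun p : Γ.Nb x => V.exists_of_mem_gr hQ (hN p) (mem_grN.1 h2 p)
    refine ⟨(g', ν', 0), ?_, ?_⟩
    · exact (mem_tgr_of (P := fun x => P x ∨ Q x) (Or.inl hx)).2 ⟨hg', mem_grN.2 hν', rfl⟩
    · rw [V.unionFun_P hQ hx]
      refine Prod.ext rfl (Prod.ext ?_ rfl)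
      funext p
      exact hν p
  · obtain ⟨rfl, rfl, h3⟩ := (mem_tgr_not hx).1 hw
    by_cases hx' : Q x
    · obtain ⟨z, rfl⟩ := V.exists_toT hQ v
      refine ⟨z, ?_, V.unionFun_Q hQ hx hx' z⟩
      obtain ⟨g', ν', v'⟩ := z
      rw [mem_gr_toT] at h3
      obtain ⟨h1, h2, rfl⟩ := (mem_tgr_of hx').1 h3
      exact (mem_tgr_of (P := fun x => P x ∨ Q x) (Or.inr hx')).2 ⟨h1, h2, rfl⟩
    · have hR' : ¬ (P x ∨ Q x) := by
        rintro (h | h)
        exacts [hx h, hx' h]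
      obtain ⟨v', hv', rfl⟩ := V.exists_of_mem_gr hQ hx' h3
      refine ⟨(0, 0, v'), ?_, V.unionFun_not hQ hx hx' _ _ _⟩
      exact (mem_tgr_not (P := fun x => P x ∨ Q x) hR').2 ⟨rfl, rfl, hv'⟩

end

/-- The underlying family of maps of the morphism `twist (P ∪ Q) V → twist P (twist Q V)`. -/
def unionF [CharP k 2] (hP : Indep Γ P) (hQ : Indep Γ Q) (hR : Indep Γ fun x => P x ∨ Q x)
    (V : DG k Γ) (x : X) :
    (V.twist (fun x => P x ∨ Q x) hR).V x →ₗ[k] ((V.twist Q hQ).twist P hP).V x :=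
  V.unionFun P Q hQ x

/-- The strict morphism `twist (P ∪ Q) V → twist P (twist Q V)`. -/
def unionHom [CharP k 2] (hP : Indep Γ P) (hQ : Indep Γ Q) (hR : Indep Γ fun x => P x ∨ Q x)
    (hPQ : ∀ x, P x → ¬ Q x) (V : DG k Γ) :
    HomS (V.twist (fun x => P x ∨ Q x) hR) ((V.twist Q hQ).twist P hP) where
  f := V.unionF hP hQ hR
  d_f x z := V.unionFun_d hQ hR hPQ x z
  h_f x z := V.unionFun_h hQ hR hPQ x z
  a_f h z := V.unionFun_a hQ hR hPQ h z
  gr_f hz := V.unionFun_gr hQ hR hPQ hz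

theorem unionHom_qi [CharP k 2] (hP : Indep Γ P) (hQ : Indep Γ Q)
    (hR : Indep Γ fun x => P x ∨ Q x) (hPQ : ∀ x, P x → ¬ Q x) (V : DG k Γ) :
    (V.unionHom hP hQ hR hPQ).QI :=
  HomS.qi_of_gr_bij _ (fun x n z hz h => V.unionFun_inj hQ hR hPQ hz h)
    (fun x n w hw => V.unionFun_surj hQ hR hPQ hw)

/-- For empty `P`: the strict morphism `V → twist P V`. -/
def emptyHom [CharP k 2] (hP : Indep Γ P) (hP0 : ∀ x, ¬ P x) (V : DG k Γ) :
    HomS V (V.twist P hP) where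
  f := V.emb hP
  d_f x v := V.twist_d_emb hP x v
  h_f x v := V.twist_h_emb hP (hP0 x) v
  a_f _ v := V.twist_a_emb hP (hP0 _) (hP0 _) v
  gr_f hv := (V.mem_gr_emb hP (hP0 _)).2 hv

theorem emptyHom_qi [CharP k 2] (hP : Indep Γ P) (hP0 : ∀ x, ¬ P x) (V : DG k Γ) :
    (V.emptyHom hP hP0).QI :=
  HomS.qi_of_gr_bij _ (fun x n v _ h => V.emb_inj hP x h)
    (fun x n w hw => V.exists_of_mem_gr hP (hP0 x) hw)

/-- `twist (P ∪ Q) V ~ twist P (twist Q V)`. -/
theorem sim_union [CharP k 2] (hP : Indep Γ P) (hQ : Indep Γ Q)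
    (hR : Indep Γ fun x => P x ∨ Q x) (hPQ : ∀ x, P x → ¬ Q x) (V : DG k Γ) :
    Sim (V.twist (fun x => P x ∨ Q x) hR) ((V.twist Q hQ).twist P hP) :=
  Sim.of_hom _ (V.unionHom_qi hP hQ hR hPQ)

/-- `twist ∅ V ~ V`. -/
theorem sim_empty [CharP k 2] (hP : Indep Γ P) (hP0 : ∀ x, ¬ P x) (V : DG k Γ) :
    Sim V (V.twist P hP) := Sim.of_hom _ (V.emptyHom_qi hP hP0)

/-- The twist depends only on the predicate. -/
theorem twist_congr [CharP k 2] {P P' : X → Prop} [i1 : DecidablePred P] [i2 : DecidablePred P']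
    (hP : Indep Γ P) (hP' : Indep Γ P') (h : ∀ x, P x ↔ P' x) (V : DG k Γ) :
    V.twist P hP = V.twist P' hP' := by
  obtain rfl : P = P' := funext fun x => propext (h x)
  have : i1 = i2 := Subsingleton.elim _ _
  subst this
  rfl

theorem twistInv_congr [CharP k 2] {P P' : X → Prop} [i1 : DecidablePred P]
    [i2 : DecidablePred P'] (hP : Indep Γ P) (hP' : Indep Γ P') (h : ∀ x, P x ↔ P' x)
    (V : DG k Γ) : V.twistInv P hP = V.twistInv P' hP' := by
  obtain rfl : P = P' := funext fun x => propext (h x)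
  have : i1 = i2 := Subsingleton.elim _ _
  subst this
  rfl

/-- commutation of twists at disjoint sets with independent union. -/
theorem sim_comm [CharP k 2] (hP : Indep Γ P) (hQ : Indep Γ Q)
    (hR : Indep Γ fun x => P x ∨ Q x) (hPQ : ∀ x, P x → ¬ Q x) (V : DG k Γ) :
    Sim ((V.twist Q hQ).twist P hP) ((V.twist P hP).twist Q hQ) := by
  have hR' : Indep Γ fun x => Q x ∨ P x := fun x y l h hx hy => hR x y l h hx.symm hy.symm
  refine (V.sim_union hP hQ hR hPQ).symm.trans ?_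
  rw [V.twist_congr hR hR' fun x => Or.comm]
  exact V.sim_union hQ hP hR' fun x hx hx' => hPQ x hx' hx

end DG

end Vale.Agent.P203.Dg
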